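import Vale.Agent.P263.FR.Def
import Vale.Agent.P263.KJ.MuVal
import Vale.Agent.P263.KJ.Ind
import Vale.Agent.P263.TJ.L1Asm

/-!
# P263, V5: the quadratic form of a stable map, by generalised functional squares

`K = i + 1`, `T = (ℝᴷ × P)⁺`.

* `jR i hq hx` : the literal data of the cocycle `x` of `P`, relative to infinity.
* `cu c : sing (Sph d) × (Δ¹)ᴷ → sing T` : the cube of `c : S^(d+K) → T`.
* `Phi c x`, `Int c u` : the value of the quadratic form and the integral of a cocycle `u` of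
  degree `d`.
* `theta_ind` : two data with the same class have the same generalised functional square, up to
  the difference of the values on `muT`.
-/

open Finset OnePoint Topology

namespace Vale.Agent.P263.FR

open Vale.Agent.P263.S hiding sn sn_add
open Vale.Agent.P263.E Vale.Agent.P263.H83 Vale.Agent.P263.G2 Vale.Agent.P263.TJ
open Vale.Agent.P263.T0 CupC

/-- `(ℝᴷ × P)⁺` -/
abbrev TT (K : ℕ) (P : Type) [TopologicalSpace P] : Type := OnePoint ((Fin K → ℝ) × P)

section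

variable {P : Type} [TopologicalSpace P] [CompactSpace P] [T2Space P] {d i q K : ℕ}

omit [CompactSpace P] [T2Space P] in
theorem mis_of_bsT {p : ℕ} (σ : (sing (TT K P)).obj p) (h : (bsT K P).mem σ) :
    (inU (misT K P)).mem σ := fun t => by
  rw [h t]
  exact fun p => OnePoint.infty_ne_coe _

/-- the literal data, relative to infinity -/
noncomputable def jR (i : ℕ) {x : Cc (sing P)} (hq : Cc.IsDeg q x) (hx : Cc.d x = 0) :
    SqD (bsT (i + 1) P) (i + 1) := (jtD i hq hx).mono fun σ h => mis_of_bsT σ h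

theorem jR_deg_b {x : Cc (sing P)} (hq : Cc.IsDeg q x) (hx : Cc.d x = 0) :
    Cc.IsDeg (q + (i + 1)) (jR i hq hx).b := jtD_deg_b hq hx

theorem jR_deg_c {x : Cc (sing P)} (hq : Cc.IsDeg q x) (hx : Cc.d x = 0) :
    Cc.IsDeg (q + q + (i + 1)) (jR i hq hx).c := jtD_deg_c hq hx

theorem DstN_jR {x : Cc (sing P)} (hq : Cc.IsDeg q x) (hx : Cc.d x = 0) :
    (Cc.cupC (sing P)).Coh (DstN (i + 1) (Cc.pull (muT (i + 1) P) (jR i hq hx).b)) x :=
  DstN_muT hq hx

theorem theta_jR {x : Cc (sing P)} (hq : Cc.IsDeg q x) (hx : Cc.d x = 0) :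
    (Cc.cupC (sing P)).Coh
      (theta (jR i hq hx) (muT (i + 1) P) fun _ h => muT_infty (i + 1) P h) 0 :=
  (theta_mono (jtD i hq hx) (fun σ h => mis_of_bsT σ h)
    (hm := fun _ h => muT_base (i + 1) P h)).symm.trans (theta_muT hq hx)

omit [CompactSpace P] [T2Space P] in
/-- the cube of `c` -/
noncomputable def cu (c : C(Sph (d + K), TT K P)) :
    SS.Map ((sing (Sph d)).prod (SN K)) (sing (TT K P)) := (singMap c).comp (mu d K)

omit [CompactSpace P] [T2Space P] in
theorem cu_base {c : C(Sph (d + K), TT K P)} (hc : c ∞ = ∞) {p : ℕ}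
    (x : ((sing (Sph d)).prod (SN K)).obj p) (hx : (bdX (sing (Sph d)) K).mem x) :
    (bsT K P).mem ((cu c).app x) := fun t => by
  have h1 : toC ((mu d K).app x) t = ∞ := mu_base hx t
  show c (toC ((mu d K).app x) t) = ∞
  rw [h1, hc]

/-- **the value of the quadratic form** -/
noncomputable def Phi (c : C(Sph (d + (i + 1)), TT (i + 1) P)) (hc : c ∞ = ∞)
    {x : Cc (sing P)} (hq : Cc.IsDeg q x) (hx : Cc.d x = 0) : ZMod 2 :=
  evc (theta (jR i hq hx) (cu c) (cu_base hc)) (fcyc d)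

/-- **the integral** -/
noncomputable def Int (c : C(Sph (d + (i + 1)), TT (i + 1) P))
    {u : Cc (sing P)} (hq : Cc.IsDeg q u) (hu : Cc.d u = 0) : ZMod 2 :=
  evc (DstN (i + 1) (Cc.pull (cu c) (jR i hq hu).b)) (fcyc d)

/-! ### independence -/

variable {X : SS}

theorem coh_zero {x : Cc X} : (Cc.cupC X).Coh x 0 ↔ ∃ a, x = Cc.d a := by
  constructor
  · rintro ⟨a, ha⟩
    exact ⟨a, by rw [← show x + 0 = Cc.d a from ha, add_zero]⟩
  · rintro ⟨a, ha⟩
    exact ⟨a, by show x + 0 = Cc.d a; rw [add_zero, ha]⟩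

theorem coh_iff {x y : Cc X} : (Cc.cupC X).Coh x y ↔ ∃ a, x + y = Cc.d a := Iff.rfl

/-- a relative cocycle with null integral over the cube of the target is a relative coboundary -/
theorem relT_null {w : Cc (sing (TT K P))} (hv : Vn (bsT K P) w) (hd : Cc.d w = 0)
    (h : (Cc.cupC (sing P)).Coh (DstN K (Cc.pull (muT K P) w)) 0) :
    ∃ β, Vn (bsT K P) β ∧ w = Cc.d β := by
  obtain ⟨a, ha⟩ := coh_zero.1 h
  obtain ⟨w', h1, h2⟩ := DstN_exact K (w := Cc.pull (muT K P) w)
    (fun p z hz => hv p _ fun t => muT_infty K P hz t) (by rw [← pull_d, hd, pull_zero]) ha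
  exact KJ.relT_null hv hd h1 h2.symm

omit [CompactSpace P] [T2Space P] in
theorem DstN_null {β : Cc (sing (TT K P))} (hβ : Vn (bsT K P) β)
    {m : SS.Map (X.prod (SN K)) (sing (TT K P))}
    (hm : ∀ {p : ℕ} (x : (X.prod (SN K)).obj p), (bdX X K).mem x → (bsT K P).mem (m.app x)) :
    (Cc.cupC X).Coh (DstN K (Cc.pull m (Cc.d β))) 0 := by
  refine coh_zero.2 ⟨DstN K (Cc.pull m β), ?_⟩
  rw [pull_d, DstN_d ((hβ.pull m).mono fun x hx => hm x hx)]

/-- the integrals of two relative cocycles agree if they agree on the cube of the target -/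
theorem DstN_ind {w w' : Cc (sing (TT K P))} (hv : Vn (bsT K P) w) (hd : Cc.d w = 0)
    (hv' : Vn (bsT K P) w') (hd' : Cc.d w' = 0)
    (h : (Cc.cupC (sing P)).Coh (DstN K (Cc.pull (muT K P) w)) (DstN K (Cc.pull (muT K P) w')))
    {m : SS.Map (X.prod (SN K)) (sing (TT K P))}
    (hm : ∀ {p : ℕ} (x : (X.prod (SN K)).obj p), (bdX X K).mem x → (bsT K P).mem (m.app x)) :
    (Cc.cupC X).Coh (DstN K (Cc.pull m w)) (DstN K (Cc.pull m w')) := by
  obtain ⟨β, hβ, hβ'⟩ := relT_null (w := w + w') (hv.add hv') (by rw [d_add, hd, hd', add_zero])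
    (coh_zero.2 (by
      obtain ⟨a, ha⟩ := h
      exact ⟨a, by rw [pull_add, DstN_add]; exact ha⟩))
  obtain ⟨a, ha⟩ := coh_zero.1 (DstN_null hβ hm)
  refine ⟨a, ?_⟩
  show DstN K (Cc.pull m w) + DstN K (Cc.pull m w') = Cc.d a
  rw [← ha, ← hβ', pull_add, DstN_add]

/-- the difference of the generalised functional squares of two data of the same class -/
theorem theta_dif {D D' : SqD (bsT (i + 1) P) (i + 1)}
    (hz : (Cc.cupC (sing P)).Coh (DstN (i + 1) (Cc.pull (muT (i + 1) P) D.b))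
      (DstN (i + 1) (Cc.pull (muT (i + 1) P) D'.b))) :
    ∃ y : Cc (sing (TT (i + 1) P)), Vn (bsT (i + 1) P) y ∧ Cc.d y = 0 ∧
      ∀ {X : SS} (m : SS.Map (X.prod (SN (i + 1))) (sing (TT (i + 1) P)))
        (hm : ∀ {p : ℕ} (x : (X.prod (SN (i + 1))).obj p), (bdX X (i + 1)).mem x →
          (bsT (i + 1) P).mem (m.app x)),
        (Cc.cupC X).Coh (theta D m hm + theta D' m hm) (DstN (i + 1) (Cc.pull m y)) := by
  obtain ⟨a, ha, hab⟩ := relT_null (w := D.b + D'.b) (D.vn_b.add D'.vn_b)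
    (by rw [d_add, D.d_b, D'.d_b, add_zero]) (coh_zero.2 (by
      obtain ⟨a, ha⟩ := hz
      exact ⟨a, by rw [pull_add, DstN_add]; exact ha⟩))
  refine ⟨D.c + D'.c + (Cc.cup i a a + Cc.cup (i + 1) a (Cc.d a)) + Cc.cup (i + 1) D.b a +
    Cc.cup (i + 1) a D.b, ?_, ?_, fun m hm => theta_coh D D' ha hab⟩
  · exact ((((D.vn_c.add D'.vn_c).add ((ha.cup_left i a).add (ha.cup_left (i + 1) _))).add
      (D.vn_b.cup_left (i + 1) a)).add (ha.cup_left (i + 1) _))
  · have h1 : Cc.d (Cc.cup i a a + Cc.cup (i + 1) a (Cc.d a)) =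
        Cc.cup (i + 1) (Cc.d a) (Cc.d a) := (Cc.cupC (sing (TT (i + 1) P))).d_q i a
    rw [d_add, d_add, d_add, d_add, h1, ← D.d_c, ← D'.d_c, TJ.d_cup, TJ.d_cup, D.d_b, ← hab]
    have hb' : D'.b = D.b + Cc.d a := by
      rw [← hab, ← add_assoc, cc_add_self, zero_add]
    rw [hb']
    simp only [cup_add_left, cup_add_right, cup_zero_left, cup_zero_right]
    funext p z
    simp only [Pi.add_apply, Pi.zero_apply]
    grind

/-- **Independence.** -/
theorem theta_ind {D D' : SqD (bsT (i + 1) P) (i + 1)}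
    (hz : (Cc.cupC (sing P)).Coh (DstN (i + 1) (Cc.pull (muT (i + 1) P) D.b))
      (DstN (i + 1) (Cc.pull (muT (i + 1) P) D'.b)))
    {u : Cc (sing (TT (i + 1) P))} (hu : Vn (bsT (i + 1) P) u) (hdu : Cc.d u = 0)
    (hk : (Cc.cupC (sing P)).Coh
      (theta D (muT (i + 1) P) (fun _ h => muT_infty (i + 1) P h) +
        theta D' (muT (i + 1) P) (fun _ h => muT_infty (i + 1) P h))
      (DstN (i + 1) (Cc.pull (muT (i + 1) P) u)))
    {m : SS.Map (X.prod (SN (i + 1))) (sing (TT (i + 1) P))}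
    (hm : ∀ {p : ℕ} (x : (X.prod (SN (i + 1))).obj p), (bdX X (i + 1)).mem x →
      (bsT (i + 1) P).mem (m.app x)) :
    (Cc.cupC X).Coh (theta D m hm + theta D' m hm) (DstN (i + 1) (Cc.pull m u)) := by
  obtain ⟨y, hy, hdy, h⟩ := theta_dif hz
  refine (h m hm).trans (DstN_ind hy hdy hu hdu ?_ hm)
  exact (h (muT (i + 1) P) fun _ h => muT_infty (i + 1) P h).symm.trans hk

end

end Vale.Agent.P263.FR
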