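import Vale.Agent.P263.FR.Base
import Vale.Agent.P263.K.HSI

/-!
# P263, V5: maps of `(ℝᴷ × M)⁺` over `M`

* `grF f g` : `a ↦ (g a, x)` if `f a = (e, x)`, and `∞` if `f a = ∞`; `continuous_grF`.
* `gr H hH : (ℝᴷ × M)⁺ → (ℝᴷ × M)⁺` : the graph of `H : (ℝᴷ × M)⁺ → Sᴷ`.
* `thm l : (ℝᴷ × M)⁺ → (ℝᴷ × P)⁺` : the map of `l : M → P`.
-/

open Filter OnePoint Topology

namespace Vale.Agent.P263.FR

open Vale.Agent.P263.G2 Vale.Agent.P263.TJ
open Vale.Agent.P263.T0 Vale.Agent.P263.K

section

variable {K : ℕ} {M P : Type} [TopologicalSpace M] [CompactSpace M] [T2Space M]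
  [TopologicalSpace P] [CompactSpace P] [T2Space P] {A : Type*} [TopologicalSpace A]

/-- the graph of two maps -/
noncomputable def grF (f : A → TT K M) (g : A → Sph K) (a : A) : TT K M :=
  (f a).elim ∞ fun e => smP K M (g a, e.2)

theorem grF_infty {f : A → TT K M} {g : A → Sph K} {a : A} (h : f a = ∞) : grF f g a = ∞ := by
  rw [grF, h]
  rfl

theorem grF_coe {f : A → TT K M} {g : A → Sph K} {a : A} {e : (Fin K → ℝ) × M}
    (h : f a = (e : TT K M)) : grF f g a = smP K M (g a, e.2) := by
  rw [grF, h]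
  rfl

/-- the distance of a point of the sphere to infinity -/
noncomputable def rS (w : Sph K) : ℝ := w.elim 0 fun x => (1 + ‖x‖)⁻¹

theorem rT_smP (w : Sph K) (x : M) : rT (smP K M (w, x)) = rS w := by
  induction w using OnePoint.rec with
  | infty => rfl
  | coe w => rfl

theorem continuous_rS : Continuous (rS : Sph K → ℝ) := by
  have h1 : (rS : Sph K → ℝ) = fun w => rT (smP K Unit (w, ())) := by
    funext w
    exact (rT_smP w ()).symm
  rw [h1]
  exact continuous_rT.comp ((smP K Unit).continuous.comp (continuous_id.prodMk continuous_const))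

omit [CompactSpace M] [T2Space M] in
theorem continuousAt_elim {X : Type*} [TopologicalSpace X] (x₀ x : X) :
    ContinuousAt (fun z : OnePoint X => z.elim x₀ id) (x : OnePoint X) := by
  rw [OnePoint.continuousAt_coe]
  exact continuousAt_id

theorem continuous_grF {f : A → TT K M} {g : A → Sph K} (hf : Continuous f) (hg : Continuous g)
    (h : ∀ a, f a = ∞ → g a = ∞) : Continuous (grF f g) := by
  rw [continuous_iff_continuousAt]
  intro a
  obtain ⟨z, hz⟩ : ∃ z, z = f a := ⟨_, rfl⟩
  induction z using OnePoint.rec with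
  | infty =>
    show Tendsto (grF f g) (𝓝 a) (𝓝 (grF f g a))
    rw [grF_infty hz.symm]
    refine tendsto_infty_of_rT ?_
    have h1 : Tendsto (fun b => rS (g b)) (𝓝 a) (𝓝 0) := by
      have h2 : Tendsto (fun b => rS (g b)) (𝓝 a) (𝓝 (rS (g a))) :=
        (continuous_rS.comp hg).continuousAt
      rw [h a hz.symm] at h2
      exact h2
    refine squeeze_zero (fun b => rT_nonneg _) (fun b => ?_) h1
    obtain ⟨z, hz⟩ : ∃ z, z = f b := ⟨_, rfl⟩
    induction z using OnePoint.rec with
    | infty =>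
      rw [grF_infty hz.symm, rT_infty]
      rw [← rT_smP (M := Unit) (g b) ()]
      exact rT_nonneg _
    | coe e => rw [grF_coe hz.symm, rT_smP]
  | coe e =>
    have h1 : ∀ᶠ b in 𝓝 a, f b ∈ Set.range ((↑) : (Fin K → ℝ) × M → TT K M) := by
      refine hf.continuousAt.eventually_mem ?_
      rw [← hz]
      exact OnePoint.isOpen_range_coe.mem_nhds ⟨e, rfl⟩
    have h2 : ContinuousAt (fun b => smP K M (g b, ((f b).elim e id).2)) a := by
      refine (smP K M).continuous.continuousAt.comp (hg.continuousAt.prodMk ?_)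
      refine continuousAt_snd.comp ?_
      have h3 : ContinuousAt (fun z : TT K M => z.elim e id) (f a) := by
        rw [← hz]
        exact continuousAt_elim e e
      exact h3.comp hf.continuousAt
    refine h2.congr ?_
    filter_upwards [h1] with b hb
    obtain ⟨e', he'⟩ := hb
    rw [grF_coe he'.symm, ← he']
    rfl

/-- the graph of a map to the sphere -/
noncomputable def gr (H : C(TT K M, Sph K)) (hH : H ∞ = ∞) : C(TT K M, TT K M) :=
  ⟨grF id H, continuous_grF continuous_id H.continuous fun a h => by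
    rw [show a = ∞ from h]
    exact hH⟩

theorem gr_infty (H : C(TT K M, Sph K)) (hH : H ∞ = ∞) : gr H hH ∞ = ∞ := rfl

theorem gr_coe (H : C(TT K M, Sph K)) (hH : H ∞ = ∞) (e : (Fin K → ℝ) × M) :
    gr H hH (e : TT K M) = smP K M (H (e : TT K M), e.2) := rfl

theorem gr_smP (H : C(TT K M, Sph K)) (hH : H ∞ = ∞) (w : Sph K) (x : M) :
    gr H hH (smP K M (w, x)) = smP K M (H (smP K M (w, x)), x) := by
  induction w using OnePoint.rec with
  | infty =>
    rw [smP_infty, gr_infty, hH, smP_infty]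
  | coe w => rfl

/-- homotopic maps have homotopic graphs -/
theorem gr_homotopic {H H' : C(TT K M, Sph K)} (hH : H ∞ = ∞) (hH' : H' ∞ = ∞)
    (h : H.HomotopicRel H' {∞}) : (gr H hH).HomotopicRel (gr H' hH') {∞} := by
  obtain ⟨F⟩ := h
  have hF : ∀ t, F (t, ∞) = ∞ := fun t => by rw [F.eq_fst t (Set.mem_singleton _), hH]
  refine ⟨⟨⟨⟨grF (fun a : unitInterval × TT K M => a.2) F, continuous_grF continuous_snd
    F.continuous fun a ha => ?_⟩, fun z => ?_, fun z => ?_⟩, fun t z hz => ?_⟩⟩
  · obtain ⟨t, z⟩ := a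
    rw [show z = ∞ from ha]
    exact hF t
  · show grF _ F ((0 : unitInterval), z) = grF id H z
    unfold grF
    rw [F.apply_zero]
    rfl
  · show grF _ F ((1 : unitInterval), z) = grF id H' z
    unfold grF
    rw [F.apply_one]
    rfl
  · rw [Set.mem_singleton_iff.1 hz]
    rfl

/-- the map `(ℝᴷ × M)⁺ → (ℝᴷ × P)⁺` -/
noncomputable def thm (l : C(M, P)) : C(TT K M, TT K P) :=
  ⟨OnePoint.map fun p : (Fin K → ℝ) × M => (p.1, l p.2), by
    refine OnePoint.continuous_map (by fun_prop) ?_
    refine Filter.tendsto_def.2 fun s hs => ?_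
    obtain ⟨t, ⟨ht, ht'⟩, hts⟩ := Filter.hasBasis_coclosedCompact.mem_iff.1 hs
    refine Filter.hasBasis_coclosedCompact.mem_iff.2
      ⟨(Prod.fst '' t) ×ˢ Set.univ, ⟨?_, ?_⟩, fun x hx => hts fun hxt => hx ?_⟩
    · exact ((ht'.image continuous_fst).isClosed).prod isClosed_univ
    · exact (ht'.image continuous_fst).prod isCompact_univ
    · exact ⟨⟨_, hxt, rfl⟩, trivial⟩⟩

theorem thm_infty (l : C(M, P)) : thm (K := K) l ∞ = ∞ := rfl

theorem thm_coe (l : C(M, P)) (e : (Fin K → ℝ) × M) :
    thm l (e : TT K M) = ((e.1, l e.2) : (Fin K → ℝ) × P) := rfl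

theorem thm_smP (l : C(M, P)) (w : Sph K) (x : M) :
    thm l (smP K M (w, x)) = smP K P (w, l x) := by
  induction w using OnePoint.rec with
  | infty => rfl
  | coe w => rfl

theorem thm_eq (l : C(M, P)) (z : TT K M) : thm l z = Th.fmap (X := TopCat.of M)
    (Y := TopCat.of P) l z := rfl

end

end Vale.Agent.P263.FR
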