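import Vale.Agent.P263.FR.RepC
import Vale.Agent.P263.FR.Graph
import Vale.Agent.P263.KJ.Bridge

/-!
# P263, V5: the representative `F_N`

* `susC_homotopicRel` : homotopic maps to `(ℝⁿ × P)⁺` have homotopic suspensions.
* `rep_susp1` : `F ∧ id` represents `g` if `F` does.
* `chainA` : `F₀ ∧ id ≃ Λ ∘ ((D.lc l) ∧ id)`.
* `chainB` : `F₀ ∧ id ≃ F_N`.
-/

open OnePoint Topology CategoryTheory
open Vale.Agent.P251.G (LC)
open Vale.Agent.P251.G.LC (Homotopic homotopic_iff)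

namespace Vale.Agent.P263.FR

open Vale.Agent.P263.T0 Vale.Agent.P263.TJ

section susC

variable {P : Type} [TopologicalSpace P] [CompactSpace P] [T2Space P] {m n k : ℕ}

/-- `(ℝⁿ × P) × ℝᵏ = ℝⁿ⁺ᵏ × P` -/
def apdH' (n k : ℕ) (P : Type) [TopologicalSpace P] :
    ((Fin n → ℝ) × P) × (Fin k → ℝ) ≃ₜ (Fin (n + k) → ℝ) × P where
  toFun p := (Fin.append p.1.1 p.2, p.1.2)
  invFun q := ((fun i => q.1 (Fin.castAdd k i), q.2), fun i => q.1 (Fin.natAdd n i))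
  left_inv := by
    rintro ⟨⟨v, x⟩, w⟩
    simp
  right_inv := by
    rintro ⟨v, x⟩
    simp only [Prod.mk.injEq, and_true]
    exact Fin.append_castAdd_natAdd
  continuous_toFun := ((Fin.appendHomeomorph (X := ℝ) n k).continuous.comp
    (((continuous_fst.comp continuous_fst).prodMk continuous_snd))).prodMk
      (continuous_snd.comp continuous_fst)
  continuous_invFun := by fun_prop

/-- the `k`-fold suspension, as a composite in `LC` -/
noncomputable def susLC' (c : C(Sph m, TT n P)) (hc : c ∞ = ∞) (k : ℕ) :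
    LC.of (Fin (m + k) → ℝ) ⟶ LC.of ((Fin (n + k) → ℝ) × P) :=
  (KJ.appI m k).inv ≫ LC.tensorHom'
    (KJ.ptd (X := LC.of (Fin m → ℝ)) (Y := LC.of ((Fin n → ℝ) × P)) c hc)
    (𝟙 (LC.of (Fin k → ℝ))) ≫
    (LC.ofHomeo (X := LC.of (((Fin n → ℝ) × P) × (Fin k → ℝ)))
      (Y := LC.of ((Fin (n + k) → ℝ) × P)) (apdH' n k P)).hom

theorem susLC'_eq (c : C(Sph m, TT n P)) (hc : c ∞ = ∞) (k : ℕ) :
    LC.Hom.toMap (susLC' c hc k) = susC k c hc := by
  apply ContinuousMap.ext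
  intro z
  obtain ⟨x, y, rfl⟩ := KJ.join2_surj m k z
  rw [susC_join2]
  show LC.app (susLC' c hc k) (join2 x y) = _
  rw [susLC', ← KJ.app_appI, ← LC.app_comp, Iso.hom_inv_id_assoc, LC.app_comp, KJ.app_tens]
  show LC.app (LC.ofHomeo (X := LC.of (((Fin n → ℝ) × P) × (Fin k → ℝ)))
      (Y := LC.of ((Fin (n + k) → ℝ) × P)) (apdH' n k P)).hom (LC.smash (c x) y) = _
  generalize c x = w
  induction w using OnePoint.rec with
  | infty => rw [LC.smash_infty_left, snocT_infty_left]; rfl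
  | coe w =>
    induction y using OnePoint.rec with
    | infty => rw [LC.smash_infty_right, snocT_infty_right]; rfl
    | coe y => rw [snocT_coe]; rfl

/-- homotopic maps have homotopic suspensions -/
theorem susC_homotopicRel {c c' : C(Sph m, TT n P)} (h : c.HomotopicRel c' {∞}) (hc : c ∞ = ∞)
    (hc' : c' ∞ = ∞) (k : ℕ) : (susC k c hc).HomotopicRel (susC k c' hc') {∞} := by
  rw [← susLC'_eq, ← susLC'_eq]
  refine (homotopic_iff _ _).1 ?_
  have h1 : Homotopic (KJ.ptd (X := LC.of (Fin m → ℝ)) (Y := LC.of ((Fin n → ℝ) × P)) c hc)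
      (KJ.ptd (X := LC.of (Fin m → ℝ)) (Y := LC.of ((Fin n → ℝ) × P)) c' hc') :=
    (homotopic_iff _ _).2 h
  exact Homotopic.comp_left _ (Homotopic.comp_right
    (Homotopic.tensor h1 (Homotopic.refl (𝟙 (LC.of (Fin k → ℝ))))) _)

end susC

/-- `F ∧ id` represents `g` if `F` does -/
theorem rep_susp1 {d n : ℕ} {g : ST.BMap d} {F : C(Sph (d + n), Sph n)} (hF : F ∞ = ∞)
    (h : ST.Rep g (TopCat.ofHom F : ST.Sph (d + n) ⟶ ST.Sph n)) :
    ST.Rep g (TopCat.ofHom (KJ.susp F hF 1) : ST.Sph (d + (n + 1)) ⟶ ST.Sph (n + 1)) := by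
  refine rep_sus h _ (KJ.susp_infty F hF 1) (fun v t hv => ?_) fun v t w hv => ?_
  · have h1 := KJ.susp_join2 F hF (k := 1) (v : Sph (d + n)) ((fun _ => t : Fin 1 → ℝ) : Sph 1)
    have hv' : F (v : Sph (d + n)) = ∞ := hv
    rw [TJ.join2_coe, hv', join2_infty_left] at h1
    exact h1
  · have h1 := KJ.susp_join2 F hF (k := 1) (v : Sph (d + n)) ((fun _ => t : Fin 1 → ℝ) : Sph 1)
    have hv' : F (v : Sph (d + n)) = ((w : Fin n → ℝ) : Sph n) := hv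
    rw [TJ.join2_coe, hv', TJ.join2_coe] at h1
    exact h1

section chain

open Vale.Agent.P263.KJ

variable {V : Type} [NormedAddCommGroup V] [InnerProductSpace ℝ V] [FiniteDimensional ℝ V]
variable {W : Type} [NormedAddCommGroup W] [NormedSpace ℝ W]
variable {m K : ℕ}

/-- `F₀ ∧ id ≃ Λ ∘ (γ' ∧ id)` -/
theorem chainA {F₀ : C(Sph m, Sph K)} (hF0 : F₀ ∞ = ∞) {Lf : C(TT K (PV V), Sph K)}
    (hLf : Lf ∞ = ∞) {γ γ' : C(Sph m, TT K (PV V))} (hγ : γ ∞ = ∞) (hγ' : γ' ∞ = ∞)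
    (h1 : F₀.HomotopicRel (Lf.comp γ) {∞}) (h2 : γ.HomotopicRel γ' {∞})
    {Lf1 Λ : C(TT (K + 1) (PV V), Sph (K + 1))}
    (hLf1 : ∀ (z : TT K (PV V)) (y : Sph 1), Lf1 (snocT z y) = join2 (Lf z) y)
    (hΛ : Lf1.HomotopicRel Λ {∞}) :
    (KJ.susp F₀ hF0 1).HomotopicRel (Λ.comp (susC 1 γ' hγ')) {∞} := by
  have hc : (Lf.comp γ) ∞ = ∞ := by rw [ContinuousMap.comp_apply, hγ, hLf]
  have e1 : KJ.susp (Lf.comp γ) hc 1 = Lf1.comp (susC 1 γ hγ) := by
    symm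
    apply KJ.susp_unique
    intro x y
    rw [ContinuousMap.comp_apply, susC_join2, hLf1]
    rfl
  have h3 := KJ.susp_homotopicRel h1 hF0 hc 1
  rw [e1] at h3
  refine h3.trans ?_
  have h4 : (Lf1.comp (susC 1 γ hγ)).HomotopicRel (Λ.comp (susC 1 γ hγ)) {∞} := by
    obtain ⟨H⟩ := hΛ
    refine ⟨⟨⟨⟨fun q => H (q.1, susC 1 γ hγ q.2), H.continuous.comp (continuous_fst.prodMk
      ((susC 1 γ hγ).continuous.comp continuous_snd))⟩, fun z => ?_, fun z => ?_⟩,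
      fun t z hz => ?_⟩⟩
    · exact H.apply_zero _
    · exact H.apply_one _
    · refine H.eq_fst t ?_
      rw [Set.mem_singleton_iff.1 hz]
      exact susC_infty γ hγ
  have h5 : (Λ.comp (susC 1 γ hγ)).HomotopicRel (Λ.comp (susC 1 γ' hγ')) {∞} :=
    (susC_homotopicRel h2 hγ hγ' 1).comp_continuousMap Λ
  exact h4.trans h5

/-- `F₀ ∧ id ≃ F_N` -/
theorem chainB {D : Tub m K} [CompactSpace (Mfd D.F)] [T2Space (Mfd D.F)]
    {l : C(Mfd D.F, PV V)} (T : BD D l)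
    (φ₀ : (V × W) ≃L[ℝ] (Fin K → ℝ)) (φ : (V × (W × ℝ)) ≃L[ℝ] (Fin (K + 1) → ℝ))
    {F₀ : C(Sph m, Sph K)} (hF0 : F₀ ∞ = ∞) {Lf : C(TT K (PV V), Sph K)}
    (hLf : Lf ∞ = ∞) {γ : C(Sph m, TT K (PV V))} (hγ : γ ∞ = ∞)
    (h1 : F₀.HomotopicRel (Lf.comp γ) {∞}) (h2 : γ.HomotopicRel (D.lc l) {∞})
    {Lf1 Λ : C(TT (K + 1) (PV V), Sph (K + 1))}
    (hLf1 : ∀ (z : TT K (PV V)) (y : Sph 1), Lf1 (snocT z y) = join2 (Lf z) y)
    (hΛ : Lf1.HomotopicRel Λ {∞})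
    {G : C(TT (K + 1) (Mfd D.F), TT (K + 1) (Mfd D.F × Bool))}
    (hG : ∀ z, fstT (G z) = Λ (thm l z))
    (hcol : (T.ce φ₀ φ).HomotopicRel
      (G.comp (susC 1 ⟨D.c0, D.continuous_c0⟩ D.c0_infty)) {∞}) :
    (KJ.susp F₀ hF0 1).HomotopicRel (T.pre φ₀ φ).F.hom {(∞ : OnePoint (Fin (m + 1) → ℝ))} := by
  refine (chainA hF0 hLf hγ (D.lc_infty l) h1 h2 hLf1 hΛ).trans ?_
  refine T.homotopic_F φ₀ φ hcol fun z => ?_
  rw [hG]
  show Λ (susC 1 (D.lc l) (D.lc_infty l) z) = _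
  congr 1
  obtain ⟨x, y, rfl⟩ := KJ.join2_surj m 1 z
  rw [susC_join2, susC_join2, D.lc_apply]
  show snocT (Th.fmap (X := Mfd D.F) (Y := TopCat.of (PV V)) l (D.c0 x)) y = thm l (snocT (D.c0 x) y)
  generalize D.c0 x = w
  induction w using OnePoint.rec with
  | infty => rw [snocT_infty_left]; exact snocT_infty_left y
  | coe w =>
    induction y using OnePoint.rec with
    | infty => rw [snocT_infty_right]; exact snocT_infty_right _
    | coe y => rw [snocT_coe]; exact snocT_coe _ y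

end chain

end Vale.Agent.P263.FR
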