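import Mathlib.Analysis.Calculus.ContDiff.Basic
import Mathlib.Analysis.Calculus.FDeriv.Pi
import Mathlib.SetTheory.Cardinal.Finite
import Vale.Agent.P263.ST.HopfMaps

/-!
# P263: the Kervaire invariant of a framed manifold

Let `F : Sᵐ → Sⁿ` be a based map, smooth near `N = F⁻¹(0)`, with surjective derivative at the points
of `N`. Then `N` is a closed submanifold of `ℝᵐ`, framed by `F` (Pontryagin and Thom).

* `Mfd F` : the manifold `N = F⁻¹(0)`.
* `Regular F` : `F` is smooth near `N` with surjective derivative at the points of `N`.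
* `Th n X` : the space `(ℝⁿ × X)⁺`, the `n`-fold suspension of `X` with a disjoint base point.
* `IsCollapse F c` : `c : Sᵐ → (ℝⁿ × N)⁺` is `z ↦ (F z, ρ z)` with `ρ = id` on `N` (the collapse map).
* `Coh q X` : the cohomology `Hom (H_q(X; 𝔽₂), 𝔽₂) = H^q(X; 𝔽₂)`.
* `PhiZero c x` : `φ(x) = 0`, where `φ(x) ∈ π^S_{2q}(K(𝔽₂, q)) = 𝔽₂` is the value of the quadratic form
  of the framed manifold `N` (Brown), the image of the stable class of `c` under `x`.
* `Kerv g` : `g` is represented, up to homotopy, by a framed manifold of dimension `2q`, `q` odd, whose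
  quadratic form takes the value `1` on more than half of the elements of `H^q(N; 𝔽₂)` (Arf
  invariant one).
-/

open CategoryTheory OnePoint Topology

namespace Vale.Agent.P263.FR

open Vale.Agent.P263.ST

/-- The set `N = F⁻¹(0)` in `ℝᵐ`. -/
def Mfd {m n : ℕ} (F : Sph m ⟶ Sph n) : TopCat.{0} :=
  TopCat.of {v : Fin m → ℝ // F (at' v) = at' 0}

/-- `F` is smooth near `N = F⁻¹(0)`, and its derivative at the points of `N` is surjective. -/
def Regular {m n : ℕ} (F : Sph m ⟶ Sph n) : Prop :=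
  ∃ (O : Set (Fin m → ℝ)) (f : (Fin m → ℝ) → (Fin n → ℝ)), IsOpen O ∧
    ContDiffOn ℝ ((⊤ : ℕ∞) : WithTop ℕ∞) f O ∧ (∀ v ∈ O, F (at' v) = at' (f v)) ∧
      ∀ v, F (at' v) = at' 0 → v ∈ O ∧ Function.Surjective (fderiv ℝ f v)

/-- `(ℝⁿ × X)⁺` -/
def Th (n : ℕ) (X : TopCat.{0}) : TopCat.{0} := TopCat.of (OnePoint ((Fin n → ℝ) × X))

/-- The map `(ℝⁿ × X)⁺ → (ℝⁿ × Y)⁺` of a map `X → Y`. -/
def Th.fmap {n : ℕ} {X Y : TopCat.{0}} (f : X → Y) (z : Th n X) : Th n Y :=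
  OnePoint.map (fun p : (Fin n → ℝ) × X => (p.1, f p.2)) z

/-- `c : Sᵐ → (ℝⁿ × N)⁺` is of the form `z ↦ (F z, ρ z)` (and `z ↦ ∞` if `F z = ∞`), and `ρ v = v` for
`v ∈ N`: it is the Pontryagin-Thom collapse onto the framed manifold `N = F⁻¹(0)`. -/
def IsCollapse {m n : ℕ} (F : Sph m ⟶ Sph n) (c : Sph m ⟶ Th n (Mfd F)) : Prop :=
  (∀ z : Sph m, OnePoint.map (fun p : (Fin n → ℝ) × Mfd F => p.1) (c z) = F z) ∧
    ∀ v : Mfd F, c (at' v.1) = OnePoint.some ((0 : Fin n → ℝ), v)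

/-- The `k`-fold suspension of `a : Sᵐ → (ℝⁿ × X)⁺`: it maps `(v, u)` to `(w, u, x)` if
`a v = (w, x)`, and all other points to `∞`. -/
def susT {m n : ℕ} {X : TopCat.{0}} (k : ℕ) (a : Sph m → Th n X) (z : Sph (m + k)) : Th (n + k) X :=
  OnePoint.elim z ∞ fun v : Fin (m + k) → ℝ =>
    OnePoint.elim (a (at' fun i => v (Fin.castAdd k i))) ∞ fun p : (Fin n → ℝ) × X =>
      OnePoint.some (Fin.append p.1 fun i => v (Fin.natAdd m i), p.2)

/-- `a, b : Sᵐ → (ℝⁿ × X)⁺` are stably homotopic: the `k`-fold suspensions are homotopic as based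
maps, for some `k`. -/
def StHtpc {m n : ℕ} {X : TopCat.{0}} (a b : Sph m → Th n X) : Prop :=
  ∃ (k : ℕ) (G : C(unitInterval × Sph (m + k), Th (n + k) X)),
    (∀ z, G (0, z) = susT k a z) ∧ (∀ z, G (1, z) = susT k b z) ∧ ∀ t, G (t, pt (m + k)) = ∞

/-- The cohomology `H^q(X; 𝔽₂) = Hom (H_q(X; 𝔽₂), 𝔽₂)`. -/
abbrev Coh (q : ℕ) (X : TopCat.{0}) : Type := (H q).obj X →ₗ[ZMod 2] ZMod 2

/-- The map `f^* : H^q(Y; 𝔽₂) → H^q(X; 𝔽₂)`. -/
noncomputable def Coh.pull {q : ℕ} {X Y : TopCat.{0}} (f : X ⟶ Y) (y : Coh q Y) : Coh q X :=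
  y ∘ₗ ((H q).map f).hom

/-- `φ(x) = 0`: the image of the stable class of `c` in the stable homotopy group `𝔽₂` of
`K(𝔽₂, q)` in degree `2q` is zero. That is, `x = f^* y` for a map `f : N → Y` to a compact space and
`y ∈ H^q(Y; 𝔽₂)`, such that `f` and a constant map give stably homotopic maps `Sᵐ → (ℝⁿ × Y)⁺`. -/
def PhiZero {m n q : ℕ} {N : TopCat.{0}} (c : Sph m ⟶ Th n N) (x : Coh q N) : Prop :=
  ∃ (Y : TopCat.{0}) (f : N ⟶ Y) (y : Coh q Y) (y₀ : Y), CompactSpace Y ∧ T2Space Y ∧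
    Coh.pull f y = x ∧ StHtpc (fun z => Th.fmap f (c z)) (fun z => Th.fmap (fun _ => y₀) (c z))

/-- **Kervaire invariant one**: a representative `S^{d+n} → Sⁿ` of `g` is homotopic to a map `F`
which is smooth near the framed manifold `N = F⁻¹(0)` of dimension `d = 2q`, `q` odd, and the
quadratic form `φ : H^q(N; 𝔽₂) → 𝔽₂` takes the value `1` on more than half of the elements. -/
def Kerv {d : ℕ} (g : BMap d) : Prop :=
  ∃ (q n : ℕ) (F₀ F : Sph (d + n) ⟶ Sph n) (c : Sph (d + n) ⟶ Th n (Mfd F)), d = 2 * q ∧ Odd q ∧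
    Rep g F₀ ∧ Htpc (pt (d + n)) F₀ F ∧ Regular F ∧ IsCollapse F c ∧ Finite (Coh q (Mfd F)) ∧
      Nat.card (Coh q (Mfd F)) < 2 * Nat.card {x : Coh q (Mfd F) // ¬ PhiZero c x}

/-- `V_d`: the span of the classes `h_d(g)`, where `g` is one of `±η`, `±ν`, `±σ` or has Kervaire
invariant one. -/
noncomputable def VFr (d : ℕ) : Submodule (ZMod 2) ((H d).obj Q0S0) :=
  Submodule.span (ZMod 2) (hur '' {g : BMap d | IsHopf g ∨ Kerv g})

/-- **Curtis's conjecture**: `h_d(π_d(Q₀S⁰)) = V_d` for all `d > 0`. -/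
def CurtisFr : Prop := ∀ d : ℕ, 0 < d → Set.range (hur (d := d)) = VFr d

end Vale.Agent.P263.FR
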