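import Vale.Agent.P263.FR.PhiA

/-!
# P263, V5: desuspension of the data of a generalised functional square

`desus` : for `S : T × Δ¹ → T'` and data `D'` of `T'` there are data `D''` of `T`, with
`D''.b` the integral of `S^* b'`, such that `theta D'` of `S ∘ (m × 1)` is `theta D''` of `m`.
-/

open Finset OnePoint Topology

namespace Vale.Agent.P263.FR

open Vale.Agent.P263.S hiding sn sn_add
open Vale.Agent.P263.E Vale.Agent.P263.H83 Vale.Agent.P263.G2 Vale.Agent.P263.TJ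
open Vale.Agent.P263.T0 CupC

variable {T T' X : SS}

/-- `u ∪ e` -/
noncomputable abbrev mS {T : SS} (u : Cc T) : Cc (T.prod D1) :=
  Cc.mE (SS.snd T D1) (Cc.pull (SS.fst T D1) u)

theorem mS_add (u v : Cc T) : mS (u + v) = mS u + mS v := by
  rw [mS, pull_add, mE_add]

theorem d_mS (u : Cc T) : Cc.d (mS u) = mS (Cc.d u) := by
  rw [mS, d_mE, ← pull_d]

theorem cup_mS (j : ℕ) (u v : Cc T) : Cc.cup (j + 1) (mS u) (mS v) = mS (Cc.cup j u v) := by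
  rw [mS, mS, cup_mE, ← pull_cup]

theorem mS_zero : mS (0 : Cc T) = 0 := by rw [mS, pull_zero, mE_zero]

theorem Vn_mS_ends (u : Cc T) : Vn (endsOf (SS.snd T D1)) (mS u) := Vn_mE _ _

theorem Vn_mS {A : Sb T} {u : Cc T} (hu : Vn A u) : Vn (A.comap (SS.fst T D1)) (mS u) :=
  (hu.pull _).mE _

theorem qQ_mS (j : ℕ) (s e : Cc T) : qQ (j + 1) (mS s) (mS e) = mS (qQ j s e) := by
  rw [qQ, qQ, d_mS, cup_mS, cup_mS, cup_mS, cup_mS, mS_add, mS_add, mS_add]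

/-- the product of a map with the interval -/
noncomputable def xD (m : SS.Map X T) : SS.Map (X.prod D1) (T.prod D1) :=
  SS.pair (m.comp (SS.fst X D1)) (SS.snd X D1)

theorem pull_xD_mS (m : SS.Map X T) (u : Cc T) :
    Cc.pull (xD m) (mS u) = mS (Cc.pull m u) := by
  rw [mS, pull_mE]
  rfl

theorem qQ_var (j : ℕ) {s : Cc X} (e a : Cc X) (hs : Cc.d s = 0) :
    qQ j s (e + a) = qQ j s e + qQ j (s + Cc.d e) a + Cc.d (Cc.cup (j + 1) e a) := by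
  rw [qQ, qQ, qQ, TJ.d_cup, d_add]
  simp only [cup_add_left, cup_add_right]
  funext p z
  simp only [Pi.add_apply]
  grind

/-- **Desuspension.** -/
theorem desus {i : ℕ} {T₀ : Sb T} {T₀' : Sb T'} (S : SS.Map (T.prod D1) T')
    (hS1 : ∀ {p : ℕ} (x : (T.prod D1).obj p), T₀.mem x.1 → T₀'.mem (S.app x))
    (hS2 : ∀ {p : ℕ} (x : (T.prod D1).obj p), (endsOf (SS.snd T D1)).mem x → T₀'.mem (S.app x))
    (D' : SqD T₀' (i + 2)) :
    ∃ D'' : SqD T₀ (i + 1), D''.b = Dst (Cc.pull S D'.b) ∧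
      ∀ {X : SS} (m : SS.Map (X.prod (SN (i + 1))) T)
        (hm : ∀ {p : ℕ} (x : (X.prod (SN (i + 1))).obj p), (bdX X (i + 1)).mem x →
          T₀.mem (m.app x))
        (m2 : SS.Map (X.prod (SN (i + 2))) T')
        (hm2 : ∀ {p : ℕ} (x : (X.prod (SN (i + 2))).obj p), (bdX X (i + 2)).mem x →
          T₀'.mem (m2.app x)),
        m2.comp (consM X (i + 1)) = S.comp (xD m) →
        (Cc.cupC X).Coh (theta D' m2 hm2) (theta D'' m hm) := by
  have hbE : Vn (endsOf (SS.snd T D1)) (Cc.pull S D'.b) := (D'.vn_b.pull S).mono hS2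
  have hbA : Vn (T₀.comap (SS.fst T D1)) (Cc.pull S D'.b) := (D'.vn_b.pull S).mono hS1
  have hcE : Vn (endsOf (SS.snd T D1)) (Cc.pull S D'.c) := (D'.vn_c.pull S).mono hS2
  have hcA : Vn (T₀.comap (SS.fst T D1)) (Cc.pull S D'.c) := (D'.vn_c.pull S).mono hS1
  obtain ⟨b, hb⟩ : ∃ b, b = Dst (Cc.pull S D'.b) := ⟨_, rfl⟩
  have hbv : Vn T₀ b := by rw [hb]; exact Vn_Dst hbA
  have hbd : Cc.d b = 0 := by
    rw [hb, ← Dst_d_rel hbE, ← pull_d, D'.d_b, pull_zero, Dst_zero]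
  obtain ⟨a, haE, haA, ha⟩ := Dst_exact (A := T₀) (w := Cc.pull S D'.b + mS b) (a := 0)
    (hbE.add (Vn_mS_ends b)) (hbA.add (Vn_mS hbv)) (fun _ _ _ => rfl)
    (by rw [d_add, ← pull_d, D'.d_b, pull_zero, d_mS, hbd, mS_zero, add_zero])
    (by rw [Dst_add, ← hb, Dst_mE, cc_add_self, d_zero])
  have hab : Cc.pull S D'.b = mS b + Cc.d a := by
    rw [ha, add_comm (mS b), add_assoc, cc_add_self, add_zero]
  have hMd : Cc.d (mS b) = 0 := by rw [d_mS, hbd, mS_zero]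
  obtain ⟨Q, hQ⟩ : ∃ Q, Q = qQ (i + 1) (mS b) a := ⟨_, rfl⟩
  have hQE : Vn (endsOf (SS.snd T D1)) Q := by rw [hQ]; exact haE.qQ _ _
  have hQA : Vn (T₀.comap (SS.fst T D1)) Q := by rw [hQ]; exact haA.qQ _ _
  have hQd : Cc.d (Cc.pull S D'.c + Q) = mS (Cc.cup (i + 1) b b) := by
    rw [d_add, hQ, d_qQ (i + 1) a hMd, ← hab, ← pull_cup, D'.d_c, ← pull_d, ← add_assoc,
      cc_add_self, zero_add, cup_mS]
  obtain ⟨c, hc⟩ : ∃ c, c = Dst (Cc.pull S D'.c + Q) := ⟨_, rfl⟩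
  have hcv : Vn T₀ c := by rw [hc]; exact Vn_Dst (hcA.add hQA)
  have hcd : Cc.cup (i + 1) b b = Cc.d c := by
    rw [hc, ← Dst_d_rel (hcE.add hQE), hQd, Dst_mE]
  obtain ⟨a1, ha1E, ha1A, ha1⟩ := Dst_exact (A := T₀) (w := Cc.pull S D'.c + Q + mS c) (a := 0)
    ((hcE.add hQE).add (Vn_mS_ends c)) ((hcA.add hQA).add (Vn_mS hcv)) (fun _ _ _ => rfl)
    (by rw [d_add, hQd, d_mS, hcd, cc_add_self])
    (by rw [Dst_add, ← hc, Dst_mE, cc_add_self, d_zero])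
  have hac : Cc.pull S D'.c = mS c + Cc.d a1 + Q := by
    rw [ha1]
    funext p z
    simp only [Pi.add_apply]
    grind
  refine ⟨⟨b, c, hbv, hcv, hbd, hcd⟩, hb, ?_⟩
  intro X m hm m2 hm2 h
  obtain ⟨D'', hD''⟩ : ∃ D'' : SqD T₀ (i + 1), D'' = ⟨b, c, hbv, hcv, hbd, hcd⟩ := ⟨_, rfl⟩
  rw [← hD'']
  obtain ⟨E1, hE1⟩ : ∃ E1, E1 = D''.toThD m hm := ⟨_, rfl⟩
  have hth : theta D'' m hm = DstN (i + 1) (Cc.val E1.val) := by rw [hE1]; rfl
  obtain ⟨s, hs⟩ : ∃ s, s = DstN (i + 1) (Cc.pull m b) := ⟨_, rfl⟩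
  have hsE : Cc.val E1.s = sn (i + 1) s := by rw [hE1, hs, hD'']; rfl
  obtain ⟨e, he⟩ : ∃ e, e = Cc.val E1.e := ⟨_, rfl⟩
  have hev : Vn (bdX X (i + 1)) e := by rw [he]; exact Cc.vn_val _
  have hbe : Cc.pull m b = sn (i + 1) s + Cc.d e := by
    have h1 : Cc.pull m (Cc.val E1.b) = Cc.val E1.s + Cc.d (Cc.val E1.e) :=
      congrArg Cc.val E1.g_b
    rw [hsE, ← he] at h1
    rw [← h1, hE1, hD'']
    rfl
  have hval : Cc.val E1.val = qQ i (sn (i + 1) s) e + Cc.pull m c := by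
    have h1 : Cc.val E1.val = Cc.cup i (Cc.val E1.e) (Cc.val E1.e) +
        Cc.cup (i + 1) (Cc.val E1.e) (Cc.d (Cc.val E1.e)) + Cc.pull m (Cc.val E1.c) +
        Cc.cup (i + 1) (Cc.val E1.e) (Cc.val E1.s) +
        Cc.cup (i + 1) (Cc.val E1.s) (Cc.val E1.e) := rfl
    have h2 : Cc.val E1.c = c := by rw [hE1, hD'']; rfl
    rw [h1, h2, hsE, ← he, qQ]
    funext p z
    simp only [Pi.add_apply]
    ring
  have hds : Cc.d (sn (i + 1) s) = 0 := by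
    have h1 := congrArg Cc.d hbe
    rw [← pull_d, hbd, pull_zero, d_add, TJ.d_d, add_zero] at h1
    exact h1.symm
  -- the data on the larger cube
  obtain ⟨A, hA⟩ : ∃ A, A = Cc.pull (xD m) a := ⟨_, rfl⟩
  have hAE : Vn (endsOf (SS.snd (X.prod (SN (i + 1))) D1)) A := by
    rw [hA]
    intro p x hx
    exact haE p _ hx
  have hAA : Vn ((bdX X (i + 1)).comap (SS.fst (X.prod (SN (i + 1))) D1)) A := by
    rw [hA]
    intro p x hx
    exact haA p _ (hm x.1 hx)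
  obtain ⟨e2, he2⟩ : ∃ e2, e2 = Cc.pull (unconsM X (i + 1)) (mS e + A) := ⟨_, rfl⟩
  have hun : ∀ {u : Cc (X.prod (SN (i + 2)))} {v : Cc ((X.prod (SN (i + 1))).prod D1)},
      Cc.pull (consM X (i + 1)) u = v → u = Cc.pull (unconsM X (i + 1)) v := by
    intro u v huv
    rw [← huv]
    show u = Cc.pull ((consM X (i + 1)).comp (unconsM X (i + 1))) u
    rw [consM_uncons]
    rfl
  have hcu : ∀ v : Cc ((X.prod (SN (i + 1))).prod D1),
      Cc.pull (consM X (i + 1)) (Cc.pull (unconsM X (i + 1)) v) = v := fun v => rfl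
  have he2v : Vn (bdX X (i + 2)) e2 := by
    rw [he2]
    rintro p ⟨x, τ⟩ ⟨j, hj⟩
    revert hj
    refine Fin.cases (fun hj => ?_) (fun j hj => ?_) j
    · exact ((Vn_mS_ends e).add hAE) p _ hj
    · exact ((Vn_mS hev).add hAA) p _ ⟨j, hj⟩
  have hpm : ∀ u : Cc T', Cc.pull (consM X (i + 1)) (Cc.pull m2 u) =
      Cc.pull (xD m) (Cc.pull S u) := fun u => congrArg (fun f => Cc.pull f u) h
  have hsn : Cc.pull (consM X (i + 1)) (sn (i + 2) s) = mS (sn (i + 1) s) :=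
    pull_cons_sn (i + 1) s
  have hb2 : Cc.pull m2 D'.b = sn (i + 2) s + Cc.d e2 := by
    rw [hun (u := Cc.pull m2 D'.b) rfl, hun (u := sn (i + 2) s) rfl, he2, ← pull_d, ← pull_add,
      hpm, hab, hsn, pull_add, pull_xD_mS, hbe, mS_add, d_add, d_mS, pull_d, hA,
      add_assoc (mS (sn (i + 1) s))]
  obtain ⟨E2, hE2⟩ : ∃ E2 : ThD (Cc.relHom m2 (bdX X (i + 2)) T₀' hm2) (i + 1)
      (narX X (i + 2)), E2 =
    { b := Cc.mkRel T₀' D'.b D'.vn_b
      s := Cc.mkRel _ (sn (i + 2) s) (Vn_sn _ _)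
      e := Cc.mkRel _ e2 he2v
      c := Cc.mkRel T₀' D'.c D'.vn_c
      d_b := Cc.rel_ext D'.d_b
      s_mem := ⟨s, rfl⟩
      g_b := Cc.rel_ext hb2
      d_c := Cc.rel_ext D'.d_c } := ⟨_, rfl⟩
  have h3 := theta_eq D' (m := m2) (hm := hm2) E2 (by rw [hE2]; rfl) (by rw [hE2]; rfl)
  refine h3.trans ?_
  have hval2 : Cc.val E2.val = qQ (i + 1) (sn (i + 2) s) e2 + Cc.pull m2 D'.c := by
    have h1 : Cc.val E2.val = Cc.cup (i + 1) e2 e2 +
        Cc.cup (i + 2) e2 (Cc.d e2) + Cc.pull m2 D'.c +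
        Cc.cup (i + 2) e2 (sn (i + 2) s) +
        Cc.cup (i + 2) (sn (i + 2) s) e2 := by rw [hE2]; rfl
    rw [h1, qQ]
    funext p z
    simp only [Pi.add_apply]
    ring
  obtain ⟨R, hR⟩ : ∃ R, R = Cc.cup (i + 2) (mS e) A + Cc.pull (xD m) a1 := ⟨_, rfl⟩
  have hRE : Vn (endsOf (SS.snd (X.prod (SN (i + 1))) D1)) R := by
    rw [hR]
    exact ((Vn_mS_ends e).cup_left _ _).add fun p x hx => ha1E p _ hx
  have hRA : Vn ((bdX X (i + 1)).comap (SS.fst (X.prod (SN (i + 1))) D1)) R := by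
    rw [hR]
    exact ((Vn_mS hev).cup_left _ _).add fun p x hx => ha1A p _ (hm x.1 hx)
  have hds2 : Cc.d (mS (sn (i + 1) s)) = 0 := by rw [d_mS, hds, mS_zero]
  have hmain : Cc.pull (consM X (i + 1)) (Cc.val E2.val) = mS (Cc.val E1.val) + Cc.d R := by
    have h4 : Cc.pull (consM X (i + 1)) e2 = mS e + A := by rw [he2]; exact hcu _
    rw [hval2, hval, pull_add, pull_qQ, hsn, h4, hpm, hac, pull_add, pull_add, pull_xD_mS, hQ,
      pull_qQ, pull_xD_mS, ← hA, qQ_var (i + 1) (mS e) A hds2, mS_add, qQ_mS, d_mS, ← mS_add,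
      ← hbe, hR, d_add, ← pull_d]
    funext p z
    simp only [Pi.add_apply]
    grind
  refine ⟨DstN (i + 1) (Dst R), ?_⟩
  show DstN (i + 2) (Cc.val E2.val) + theta D'' m hm = Cc.d (DstN (i + 1) (Dst R))
  have h5 : DstN (i + 2) (Cc.val E2.val) =
      DstN (i + 1) (Dst (Cc.pull (consM X (i + 1)) (Cc.val E2.val))) := rfl
  rw [h5, hmain, Dst_add, Dst_mE, DstN_add, hth, Dst_d_rel hRE, DstN_d (Vn_Dst hRA)]
  funext p z
  simp only [Pi.add_apply]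
  grind

end Vale.Agent.P263.FR
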