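import Vale.Agent.P263.FR.Tub
import Vale.Agent.P263.FR.Loc
import Vale.Agent.P263.FR.Trans2

/-!
# P263, block C of the framed version: preliminaries for the duality map

* `smT : (ℝᴷ × X)⁺ × Y → (ℝᴷ × (X × Y))⁺` and `addS : Eᐩ × E → E⁺`, with continuity;
* `crP` : the coordinates of a finite point of `W⁺`;
* `Tub.exists_const` : the linear approximation of a regular zero set.
-/

open OnePoint Topology Filter

namespace Vale.Agent.P263.FR

section smT

variable {K : ℕ} {X Y : Type*}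

/-- `((v, x), y) ↦ (v, (x, y))` -/
def smT (q : OnePoint ((Fin K → ℝ) × X) × Y) : OnePoint ((Fin K → ℝ) × (X × Y)) :=
  q.1.elim ∞ fun w => (((w.1, (w.2, q.2)) : (Fin K → ℝ) × (X × Y)) :
    OnePoint ((Fin K → ℝ) × (X × Y)))

@[simp] theorem smT_infty (y : Y) : smT ((∞ : OnePoint ((Fin K → ℝ) × X)), y) = ∞ := rfl

@[simp] theorem smT_coe (v : Fin K → ℝ) (x : X) (y : Y) :
    smT ((((v, x) : (Fin K → ℝ) × X) : OnePoint ((Fin K → ℝ) × X)), y) =
      (((v, (x, y)) : (Fin K → ℝ) × (X × Y)) : OnePoint ((Fin K → ℝ) × (X × Y))) := rfl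

theorem smT_prT (w : OnePoint (Fin K → ℝ)) (x : X) (y : Y) :
    smT (prT w x, y) = prT w (x, y) := by
  induction w using OnePoint.rec <;> rfl

variable [TopologicalSpace X] [TopologicalSpace Y] [CompactSpace X]

theorem continuous_smT : Continuous (smT (K := K) (X := X) (Y := Y)) := by
  rw [continuous_iff_continuousAt]
  rintro ⟨z, y⟩
  induction z using OnePoint.rec with
  | infty =>
    show Tendsto _ _ (𝓝 ∞)
    apply tendsto_inftyP
    intro R
    have h1 : Tendsto (fun q : OnePoint ((Fin K → ℝ) × X) × Y => q.1)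
        (𝓝 ((∞ : OnePoint ((Fin K → ℝ) × X)), y)) (𝓝 ∞) := continuousAt_fst
    have hc : ∀ R, IsCompact {x : (Fin K → ℝ) × X | qn x.1 ≤ R} := by
      intro R
      have : {x : (Fin K → ℝ) × X | qn x.1 ≤ R} = {v | qn v ≤ R} ×ˢ Set.univ := by
        ext x
        simp
      rw [this]
      exact (isCompact_qn R).prod isCompact_univ
    filter_upwards [eventually_of_tendsto_infty (ν := fun x : (Fin K → ℝ) × X => qn x.1)
      (continuous_qn.comp continuous_fst) hc h1 R] with q hq v p hvp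
    obtain ⟨z', y'⟩ := q
    induction z' using OnePoint.rec with
    | infty => exact absurd hvp (OnePoint.infty_ne_coe _)
    | coe x =>
      have h3 := hq x rfl
      have h4 : ((x.1, (x.2, y')) : (Fin K → ℝ) × (X × Y)) = (v, p) := OnePoint.coe_injective hvp
      have h5 : x.1 = v := congrArg Prod.fst h4
      rw [← h5]
      exact h3
  | coe x =>
    have h2 : IsOpenEmbedding (fun q : ((Fin K → ℝ) × X) × Y =>
        ((q.1 : OnePoint ((Fin K → ℝ) × X)), q.2)) :=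
      OnePoint.isOpenEmbedding_coe.prodMap IsOpenEmbedding.id
    have h3 : ContinuousAt (smT (K := K) (X := X) (Y := Y))
        ((fun q : ((Fin K → ℝ) × X) × Y => ((q.1 : OnePoint ((Fin K → ℝ) × X)), q.2)) (x, y)) := by
      rw [← h2.continuousAt_iff]
      have h4 : Continuous fun q : ((Fin K → ℝ) × X) × Y =>
          (((q.1.1, (q.1.2, q.2)) : (Fin K → ℝ) × (X × Y)) :
            OnePoint ((Fin K → ℝ) × (X × Y))) :=
        OnePoint.continuous_coe.comp (by fun_prop)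
      exact h4.continuousAt
    exact h3

end smT

section addS

variable {E : Type*} [NormedAddCommGroup E] [ProperSpace E]

/-- `(v, e) ↦ v + e` -/
def addS (q : OnePoint E × E) : OnePoint E := q.1.elim ∞ fun v => ((v + q.2 : E) : OnePoint E)

omit [ProperSpace E] in
@[simp] theorem addS_infty (e : E) : addS ((∞ : OnePoint E), e) = ∞ := rfl

omit [ProperSpace E] in
@[simp] theorem addS_coe (v e : E) : addS ((v : OnePoint E), e) = ((v + e : E) : OnePoint E) := rfl

theorem continuous_addS : Continuous (addS (E := E)) := by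
  rw [continuous_iff_continuousAt]
  rintro ⟨z, e⟩
  induction z using OnePoint.rec with
  | infty =>
    show Tendsto _ _ (𝓝 ∞)
    apply tendsto_infty
    intro R
    have h1 : ∀ᶠ q : OnePoint E × E in 𝓝 ((∞ : OnePoint E), e),
        q.1 = ∞ ∨ ∃ x : E, q.1 = (x : OnePoint E) ∧ R + (‖e‖ + 1) < ‖x‖ :=
      (continuous_fst.tendsto ((∞ : OnePoint E), e)).eventually (eventually_infty _)
    have h2 : ∀ᶠ q : OnePoint E × E in 𝓝 ((∞ : OnePoint E), e), ‖q.2‖ < ‖e‖ + 1 :=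
      (continuous_norm.comp continuous_snd).continuousAt.eventually_lt continuousAt_const
        (by simp)
    filter_upwards [h1, h2] with q h1 h2
    obtain ⟨z', e'⟩ := q
    rcases h1 with h1 | ⟨x, h1, h3⟩
    · left
      change z' = ∞ at h1
      rw [h1]
      rfl
    · right
      change z' = x at h1
      refine ⟨x + e', by rw [h1]; rfl, ?_⟩
      have h4 : ‖x‖ ≤ ‖x + e'‖ + ‖e'‖ := by
        have := norm_sub_le (x + e') e'
        rwa [add_sub_cancel_right] at this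
      change ‖e'‖ < _ at h2
      linarith
  | coe x =>
    have h2 : IsOpenEmbedding (fun q : E × E => ((q.1 : OnePoint E), q.2)) :=
      OnePoint.isOpenEmbedding_coe.prodMap IsOpenEmbedding.id
    have h3 : ContinuousAt (addS (E := E))
        ((fun q : E × E => ((q.1 : OnePoint E), q.2)) (x, e)) := by
      rw [← h2.continuousAt_iff]
      have h4 : Continuous fun q : E × E => ((q.1 + q.2 : E) : OnePoint E) :=
        OnePoint.continuous_coe.comp (by fun_prop)
      exact h4.continuousAt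
    exact h3

end addS

section crP

variable {W : Type*}

/-- the coordinates of a finite point -/
noncomputable def crP (y : {y : OnePoint W | y ≠ ∞}) : W :=
  Classical.choose (OnePoint.ne_infty_iff_exists.1 y.2)

theorem coe_crP (y : {y : OnePoint W | y ≠ ∞}) : ((crP y : W) : OnePoint W) = y.1 :=
  Classical.choose_spec (OnePoint.ne_infty_iff_exists.1 y.2)

theorem continuous_crP [TopologicalSpace W] : Continuous (crP (W := W)) := by
  rw [(OnePoint.isOpenEmbedding_coe (X := W)).isEmbedding.isInducing.continuous_iff]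
  exact continuous_subtype_val.congr fun y => (coe_crP y).symm

end crP

/-! ### the linear approximation -/

namespace Tub

variable {m K : ℕ} (D : Tub m K)

/-- the zeros -/
def Z : Set (Fin m → ℝ) := {x | x ∈ D.C ∧ D.f x = 0}

theorem isCompact_Z : IsCompact D.Z := D.isCompact_zeros

theorem exists_const : ∃ (A : (Fin m → ℝ) → ((Fin K → ℝ) →L[ℝ] (Fin m → ℝ))) (B δ : ℝ), 0 ≤ B ∧
    0 < δ ∧ ContinuousOn A D.Z ∧ (∀ x ∈ D.Z, ‖A x‖ ≤ B) ∧
    (∀ x ∈ D.Z, ∀ v, ‖v‖ ≤ δ → D.f (x + A x v) = 0 → v = 0) ∧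
    ∀ z ∈ D.C, D.s * qn (D.f z) ≤ 1 / 2 → ‖D.f z‖ ≤ δ → ∀ t : ℝ, 0 ≤ t → t ≤ 1 →
      D.f ((1 - t) • (D.ρ z + A (D.ρ z) ((1 - D.s * qn (D.f z))⁻¹ • D.f z)) + t • z) = 0 →
        D.f z = 0 := by
  have hf : ContDiff ℝ 1 D.f := D.smooth.of_le (by exact_mod_cast le_top)
  obtain ⟨U₁, A, hU₁, hA, hAf, h1⟩ := exists_rightInv hf
  have hZU : D.Z ⊆ U₁ := fun x hx => h1 x (D.surj x hx.1 hx.2)
  obtain ⟨B₀, hB₀⟩ := D.isCompact_Z.exists_bound_of_continuousOn (hA.mono hZU)
  set B : ℝ := |B₀| with hB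
  have hB0 : 0 ≤ B := abs_nonneg _
  have hAB : ∀ x ∈ D.Z, ‖A x‖ ≤ B := fun x hx => (hB₀ x hx).trans (le_abs_self _)
  set P : ℝ := 2 * B + |D.L| with hP
  have hP0 : 0 ≤ P := by positivity
  have hBP : B ≤ P := by
    rw [hP]
    linarith [abs_nonneg D.L]
  have hLP : |D.L| ≤ P := by
    rw [hP]
    linarith
  have hε : 0 < 1 / (4 * (P + 1)) := by positivity
  obtain ⟨δ₀, hδ₀, hu⟩ := unif_diff hf D.isCompact_Z hε
  have hεP : 1 / (4 * (P + 1)) * P ≤ 1 / 4 := by
    rw [div_mul_eq_mul_div, one_mul, div_le_div_iff₀ (by positivity) (by norm_num)]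
    linarith
  refine ⟨A, B, δ₀ / (P + 1), hB0, by positivity, hA.mono hZU, hAB, ?_, ?_⟩
  · intro x hx v hv h0
    have hv' : ‖v‖ * (P + 1) ≤ δ₀ := by rwa [le_div_iff₀ (by positivity)] at hv
    have h2 : ‖A x v‖ ≤ B * ‖v‖ := ((A x).le_opNorm v).trans
      (mul_le_mul_of_nonneg_right (hAB x hx) (norm_nonneg v))
    have h3 : ‖A x v‖ ≤ P * ‖v‖ := h2.trans (mul_le_mul_of_nonneg_right hBP (norm_nonneg v))
    have h4 := hu x hx (A x v) (h3.trans (by nlinarith [norm_nonneg v]))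
    rw [h0, hx.2, hAf x (hZU hx), sub_zero, zero_sub, norm_neg] at h4
    have h5 : ‖v‖ ≤ 1 / 4 * ‖v‖ := by
      calc ‖v‖ ≤ 1 / (4 * (P + 1)) * ‖A x v‖ := h4
        _ ≤ 1 / (4 * (P + 1)) * (P * ‖v‖) := mul_le_mul_of_nonneg_left h3 hε.le
        _ = 1 / (4 * (P + 1)) * P * ‖v‖ := by ring
        _ ≤ 1 / 4 * ‖v‖ := mul_le_mul_of_nonneg_right hεP (norm_nonneg v)
    exact norm_le_zero_iff.1 (by linarith)
  · intro z hz hs hzδ t ht0 ht1 h0
    have hzδ' : ‖D.f z‖ * (P + 1) ≤ δ₀ := by rwa [le_div_iff₀ (by positivity)] at hzδ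
    have hs1 : D.s * qn (D.f z) ≤ 1 := by linarith
    obtain ⟨hx1, hx2⟩ := D.ρ_mem z hz hs1
    have hx : D.ρ z ∈ D.Z := ⟨hx1, hx2⟩
    have hnear := D.ρ_near z hz hs1
    generalize D.ρ z = x at hx hx1 hx2 hnear h0
    obtain ⟨κ, hκ⟩ : ∃ κ, κ = (1 - D.s * qn (D.f z))⁻¹ := ⟨_, rfl⟩
    rw [← hκ] at h0
    have hq0 : 0 ≤ D.s * qn (D.f z) := mul_nonneg D.s_pos.le (qn_nonneg _)
    have hκ1 : 1 ≤ κ := by
      rw [hκ]
      exact (one_le_inv₀ (by linarith)).2 (by linarith)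
    have hκ2 : κ ≤ 2 := by
      rw [hκ, inv_le_comm₀ (by linarith) (by norm_num)]
      linarith
    have hf' : ∀ y, fderiv ℝ D.f x (A x y) = y := hAf x (hZU hx)
    generalize hw : D.f z = w at *
    have hzx : ‖z - x‖ ≤ |D.L| * ‖w‖ := hnear.trans
      (mul_le_mul_of_nonneg_right (le_abs_self _) (norm_nonneg _))
    have hw0 : 0 ≤ ‖w‖ := norm_nonneg w
    -- the point
    obtain ⟨h, hh⟩ : ∃ h, h = (1 - t) • A x (κ • w) + t • (z - x) := ⟨_, rfl⟩
    have he : (1 - t) • (x + A x (κ • w)) + t • z = x + h := by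
      rw [hh]
      module
    have hA1 : ‖A x (κ • w)‖ ≤ 2 * B * ‖w‖ := by
      calc ‖A x (κ • w)‖ ≤ ‖A x‖ * ‖κ • w‖ := (A x).le_opNorm _
        _ ≤ B * (2 * ‖w‖) := by
          apply mul_le_mul (hAB x hx) _ (norm_nonneg _) hB0
          rw [norm_smul, Real.norm_eq_abs, abs_of_nonneg (by linarith)]
          exact mul_le_mul_of_nonneg_right hκ2 hw0
        _ = 2 * B * ‖w‖ := by ring
    have hh1 : ‖h‖ ≤ P * ‖w‖ := by
      calc ‖h‖ ≤ ‖(1 - t) • A x (κ • w)‖ + ‖t • (z - x)‖ := by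
            rw [hh]
            exact norm_add_le _ _
        _ = (1 - t) * ‖A x (κ • w)‖ + t * ‖z - x‖ := by
          rw [norm_smul, norm_smul, Real.norm_eq_abs, Real.norm_eq_abs,
            abs_of_nonneg (by linarith : (0 : ℝ) ≤ 1 - t), abs_of_nonneg ht0]
        _ ≤ 1 * ‖A x (κ • w)‖ + 1 * ‖z - x‖ := by
          gcongr
          linarith
        _ ≤ 2 * B * ‖w‖ + |D.L| * ‖w‖ := by
          rw [one_mul, one_mul]
          exact add_le_add hA1 hzx
        _ = P * ‖w‖ := by rw [hP]; ring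
    have h4 := hu x hx h (hh1.trans (by nlinarith))
    have hzx' : ‖z - x‖ ≤ P * ‖w‖ := hzx.trans (mul_le_mul_of_nonneg_right hLP hw0)
    have h5 := hu x hx (z - x) (hzx'.trans (by nlinarith))
    rw [add_sub_cancel, hw, hx2, sub_zero] at h5
    rw [he] at h0
    rw [h0, hx2, sub_zero, zero_sub, norm_neg] at h4
    have h6 : fderiv ℝ D.f x h = ((1 - t) * κ + t) • w - t • (w - fderiv ℝ D.f x (z - x)) := by
      simp only [hh, map_add, map_smul, hf']
      module
    have h7 : ‖((1 - t) * κ + t) • w‖ ≤ ‖fderiv ℝ D.f x h‖ +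
        ‖t • (w - fderiv ℝ D.f x (z - x))‖ := by
      have : ((1 - t) * κ + t) • w = fderiv ℝ D.f x h + t • (w - fderiv ℝ D.f x (z - x)) := by
        rw [h6]
        abel
      rw [this]
      exact norm_add_le _ _
    have h8 : 1 ≤ (1 - t) * κ + t := by nlinarith
    rw [norm_smul, norm_smul, Real.norm_eq_abs, Real.norm_eq_abs, abs_of_nonneg (by linarith),
      abs_of_nonneg ht0] at h7
    have e1 : ‖fderiv ℝ D.f x h‖ ≤ 1 / 4 * ‖w‖ := by
      calc ‖fderiv ℝ D.f x h‖ ≤ 1 / (4 * (P + 1)) * ‖h‖ := h4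
        _ ≤ 1 / (4 * (P + 1)) * (P * ‖w‖) := mul_le_mul_of_nonneg_left hh1 hε.le
        _ = 1 / (4 * (P + 1)) * P * ‖w‖ := by ring
        _ ≤ 1 / 4 * ‖w‖ := mul_le_mul_of_nonneg_right hεP hw0
    have e2 : ‖w - fderiv ℝ D.f x (z - x)‖ ≤ 1 / 4 * ‖w‖ := by
      calc ‖w - fderiv ℝ D.f x (z - x)‖ ≤ 1 / (4 * (P + 1)) * ‖z - x‖ := h5
        _ ≤ 1 / (4 * (P + 1)) * (P * ‖w‖) := mul_le_mul_of_nonneg_left hzx' hε.le
        _ = 1 / (4 * (P + 1)) * P * ‖w‖ := by ring
        _ ≤ 1 / 4 * ‖w‖ := mul_le_mul_of_nonneg_right hεP hw0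
    have e3 : t * ‖w - fderiv ℝ D.f x (z - x)‖ ≤ 1 / 4 * ‖w‖ := by
      nlinarith [norm_nonneg (w - fderiv ℝ D.f x (z - x))]
    have e4 : ‖w‖ ≤ ((1 - t) * κ + t) * ‖w‖ := by nlinarith
    exact norm_le_zero_iff.1 (by linarith)

end Tub

end Vale.Agent.P263.FR
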