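import Vale.Agent.P263.FR.Dual0

/-!
# P263, block C of the framed version: the duality map

For `D : Tub m K`, `M = Mfd D.F`:

* `D.hT A (v, (x, p)) = x + A x v - p`;
* `D.exists_T` : `T : (ℝᴷ × (M × M))⁺ → Sᵐ` with support near the diagonal of `M × M`, such that
  `(z, p) ↦ T (F z, (ρ z, p))` is homotopic to the projection `Sᵐ × M → Sᵐ`, relative to `∞ × M`.
-/

open OnePoint Topology Filter

namespace Vale.Agent.P263.FR

open Vale.Agent.P263.ST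

namespace Tub

variable {m K : ℕ} (D : Tub m K)

/-- the points of the manifold are zeros -/
theorem mem_Z (x : Mfd D.F) : x.1 ∈ D.Z := D.mem_Mfd x

theorem mem_U_of {z : Fin m → ℝ} (hz : z ∈ D.C) (h : D.s * qn (D.f z) < 1) : z ∈ D.U := by
  by_contra hU
  exact absurd (D.far z hz hU) (not_le.2 h)

/-- the difference map -/
noncomputable def hT (A : (Fin m → ℝ) → ((Fin K → ℝ) →L[ℝ] (Fin m → ℝ)))
    (y : OnePoint ((Fin K → ℝ) × (Mfd D.F × Mfd D.F))) : Fin m → ℝ :=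
  y.elim 0 fun q => q.2.1.1 + A q.2.1.1 q.1 - q.2.2.1

theorem hT_coe (A : (Fin m → ℝ) → ((Fin K → ℝ) →L[ℝ] (Fin m → ℝ)))
    (v : Fin K → ℝ) (x p : Mfd D.F) :
    D.hT A (((v, (x, p)) : (Fin K → ℝ) × (Mfd D.F × Mfd D.F)) :
      OnePoint ((Fin K → ℝ) × (Mfd D.F × Mfd D.F))) = x.1 + A x.1 v - p.1 := rfl

theorem continuous_hT0 {A : (Fin m → ℝ) → ((Fin K → ℝ) →L[ℝ] (Fin m → ℝ))}
    (hA : ContinuousOn A D.Z) :
    Continuous fun q : (Fin K → ℝ) × (Mfd D.F × Mfd D.F) => q.2.1.1 + A q.2.1.1 q.1 - q.2.2.1 := by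
  have h1 : Continuous fun q : (Fin K → ℝ) × (Mfd D.F × Mfd D.F) => A q.2.1.1 := by
    have h2 : Continuous fun x : Mfd D.F => A x.1 :=
      hA.comp_continuous continuous_subtype_val fun x => D.mem_Z x
    exact h2.comp (continuous_fst.comp continuous_snd)
  have h3 : Continuous fun q : (Fin K → ℝ) × (Mfd D.F × Mfd D.F) => q.2.1.1 :=
    continuous_subtype_val.comp (continuous_fst.comp continuous_snd)
  have h4 : Continuous fun q : (Fin K → ℝ) × (Mfd D.F × Mfd D.F) => q.2.2.1 :=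
    continuous_subtype_val.comp (continuous_snd.comp continuous_snd)
  exact (h3.add (h1.clm_apply continuous_fst)).sub h4

/-- the closed set where the map is finite -/
def OT (r : ℝ) : Set (OnePoint ((Fin K → ℝ) × (Mfd D.F × Mfd D.F))) :=
  (↑) '' {q : (Fin K → ℝ) × (Mfd D.F × Mfd D.F) | ‖q.1‖ ≤ r}

theorem isCompact_norm_le (r : ℝ) :
    IsCompact {q : (Fin K → ℝ) × (Mfd D.F × Mfd D.F) | ‖q.1‖ ≤ r} := by
  have := D.compactSpace_Mfd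
  have h : {q : (Fin K → ℝ) × (Mfd D.F × Mfd D.F) | ‖q.1‖ ≤ r} =
      Metric.closedBall 0 r ×ˢ Set.univ := by
    ext q
    simp
  rw [h]
  exact (isCompact_closedBall _ _).prod isCompact_univ

theorem isClosed_OT (r : ℝ) : IsClosed (D.OT r) := by
  have := D.t2Space_Mfd
  exact OnePoint.isClosed_image_coe.2 ⟨(D.isCompact_norm_le r).isClosed, D.isCompact_norm_le r⟩

theorem coe_mem_OT {r : ℝ} {q : (Fin K → ℝ) × (Mfd D.F × Mfd D.F)} :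
    (q : OnePoint ((Fin K → ℝ) × (Mfd D.F × Mfd D.F))) ∈ D.OT r ↔ ‖q.1‖ ≤ r := by
  constructor
  · rintro ⟨q', hq', h⟩
    rw [← OnePoint.coe_injective h]
    exact hq'
  · intro h
    exact ⟨q, h, rfl⟩

theorem infty_notMem_OT {r : ℝ} : ∞ ∉ D.OT r := by
  rintro ⟨q, -, h⟩
  exact OnePoint.coe_ne_infty q h

theorem frontier_OT {r : ℝ} {y : OnePoint ((Fin K → ℝ) × (Mfd D.F × Mfd D.F))}
    (hy : y ∈ frontier (D.OT r)) : ∃ q : (Fin K → ℝ) × (Mfd D.F × Mfd D.F), y = q ∧ ‖q.1‖ = r := by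
  have h1 : y ∈ D.OT r := (D.isClosed_OT r).frontier_subset hy
  obtain ⟨q, hq, rfl⟩ := h1
  refine ⟨q, rfl, ?_⟩
  by_contra hne
  have hlt : ‖q.1‖ < r := lt_of_le_of_ne hq hne
  apply hy.2
  have hop : IsOpen ((↑) '' {q : (Fin K → ℝ) × (Mfd D.F × Mfd D.F) | ‖q.1‖ < r} :
      Set (OnePoint ((Fin K → ℝ) × (Mfd D.F × Mfd D.F)))) :=
    OnePoint.isOpen_image_coe.2 (isOpen_lt (continuous_norm.comp continuous_fst) continuous_const)
  exact mem_interior.2 ⟨_, Set.image_mono fun q hq => (show ‖q.1‖ ≤ r from le_of_lt hq), hop, q,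
    hlt, rfl⟩

theorem continuousOn_hT {A : (Fin m → ℝ) → ((Fin K → ℝ) →L[ℝ] (Fin m → ℝ))}
    (hA : ContinuousOn A D.Z) {r : ℝ} : ContinuousOn (D.hT A) (D.OT r) := by
  rintro y ⟨q, hq, rfl⟩
  have h1 : ContinuousAt (D.hT A) (q : OnePoint ((Fin K → ℝ) × (Mfd D.F × Mfd D.F))) := by
    rw [OnePoint.continuousAt_coe]
    exact (D.continuous_hT0 hA).continuousAt
  exact h1.continuousWithinAt

/-- no zeros on the line -/
def Line (A : (Fin m → ℝ) → ((Fin K → ℝ) →L[ℝ] (Fin m → ℝ))) (δ : ℝ) : Prop :=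
  ∀ z ∈ D.C, D.s * qn (D.f z) ≤ 1 / 2 → ‖D.f z‖ ≤ δ → ∀ t : ℝ, 0 ≤ t → t ≤ 1 →
    D.f ((1 - t) • (D.ρ z + A (D.ρ z) ((1 - D.s * qn (D.f z))⁻¹ • D.f z)) + t • z) = 0 →
      D.f z = 0

/-- no zeros -/
def Zero (A : (Fin m → ℝ) → ((Fin K → ℝ) →L[ℝ] (Fin m → ℝ))) (r : ℝ) : Prop :=
  ∀ x ∈ D.Z, ∀ v, ‖v‖ ≤ r → D.f (x + A x v) = 0 → v = 0

/-- the bound on the boundary -/
def Bd (A : (Fin m → ℝ) → ((Fin K → ℝ) →L[ℝ] (Fin m → ℝ))) (r ε : ℝ) : Prop :=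
  ∀ (v : Fin K → ℝ) (x p : Mfd D.F), ‖v‖ = r → ε ≤ ‖x.1 + A x.1 v - p.1‖

/-- the support -/
def Near (η : ℝ) (A : (Fin m → ℝ) → ((Fin K → ℝ) →L[ℝ] (Fin m → ℝ))) (r ε : ℝ) : Prop :=
  ∀ (v : Fin K → ℝ) (x p : Mfd D.F), ‖v‖ ≤ r → ‖x.1 + A x.1 v - p.1‖ < ε → ‖x.1 - p.1‖ < η

/-- the conditions on the constants of the duality map -/
def CstOk (η : ℝ) (A : (Fin m → ℝ) → ((Fin K → ℝ) →L[ℝ] (Fin m → ℝ))) (δ r ε : ℝ) : Prop :=
  (0 < δ ∧ 0 < r ∧ 0 < ε) ∧ ContinuousOn A D.Z ∧ 2 * δ ≤ r ∧ D.Zero A r ∧ D.Line A δ ∧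
    D.Bd A r ε ∧ D.Near η A r ε

theorem isCompact_sph (r : ℝ) :
    IsCompact {q : (Fin K → ℝ) × (Mfd D.F × Mfd D.F) | ‖q.1‖ = r} := by
  have := D.compactSpace_Mfd
  have h : {q : (Fin K → ℝ) × (Mfd D.F × Mfd D.F) | ‖q.1‖ = r} =
      Metric.sphere 0 r ×ˢ Set.univ := by
    ext q
    simp
  rw [h]
  exact (isCompact_sphere _ _).prod isCompact_univ

theorem exists_bd {A : (Fin m → ℝ) → ((Fin K → ℝ) →L[ℝ] (Fin m → ℝ))} {r : ℝ} (hr : 0 < r)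
    (hA : ContinuousOn A D.Z) (h1 : D.Zero A r) : ∃ ε > 0, D.Bd A r ε := by
  obtain ⟨ε₀, hε₀, hε⟩ := (D.isCompact_sph r).exists_forall_le'
    (D.continuous_hT0 hA).norm.continuousOn (a := (0 : ℝ)) (by
      intro q hq
      rw [norm_pos_iff]
      intro h0
      have h3 : q.2.1.1 + A q.2.1.1 q.1 = q.2.2.1 := sub_eq_zero.1 h0
      have h4 := h1 q.2.1.1 (D.mem_Z _) q.1 (le_of_eq hq)
        (by rw [h3]; exact (D.mem_Z q.2.2).2)
      have h5 : ‖q.1‖ = r := hq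
      rw [h4, norm_zero] at h5
      exact absurd h5 hr.ne)
  exact ⟨ε₀, hε₀, fun v x p hv => hε (v, (x, p)) hv⟩

theorem near_of {A : (Fin m → ℝ) → ((Fin K → ℝ) →L[ℝ] (Fin m → ℝ))} {B η r ε : ℝ}
    (hB : 0 ≤ B) (hAB : ∀ x ∈ D.Z, ‖A x‖ ≤ B) (hrη : B * r ≤ η / 2) (hε : ε ≤ η / 2) :
    D.Near η A r ε := by
  intro v x p hv hlt
  have h3 : ‖A x.1 v‖ ≤ η / 2 := by
    calc ‖A x.1 v‖ ≤ ‖A x.1‖ * ‖v‖ := (A x.1).le_opNorm v
      _ ≤ B * r := mul_le_mul (hAB _ (D.mem_Z x)) hv (norm_nonneg _) hB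
      _ ≤ η / 2 := hrη
  have h4 : ‖x.1 + A x.1 v - p.1‖ < η / 2 := lt_of_lt_of_le hlt hε
  have h5 : x.1 - p.1 = (x.1 + A x.1 v - p.1) - A x.1 v := by abel
  rw [h5]
  exact lt_of_le_of_lt (norm_sub_le _ _) (by linarith)

theorem exists_cst {η : ℝ} (hη : 0 < η) :
    ∃ (A : (Fin m → ℝ) → ((Fin K → ℝ) →L[ℝ] (Fin m → ℝ))) (δ r ε : ℝ), D.CstOk η A δ r ε := by
  obtain ⟨A, B, δ₀, hB, hδ₀, hA, hAB, h1, h2⟩ := D.exists_const
  obtain ⟨r, hr⟩ : ∃ r, r = min δ₀ (η / (2 * (B + 1))) := ⟨_, rfl⟩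
  have hr0 : 0 < r := by
    rw [hr]
    exact lt_min hδ₀ (by positivity)
  have hrδ : r ≤ δ₀ := by
    rw [hr]
    exact min_le_left _ _
  have hrη : B * r ≤ η / 2 := by
    have h3 : r ≤ η / (2 * (B + 1)) := by
      rw [hr]
      exact min_le_right _ _
    rw [le_div_iff₀ (by positivity)] at h3
    nlinarith
  have hz : D.Zero A r := fun x hx v hv => h1 x hx v (hv.trans hrδ)
  have hl : D.Line A (r / 2) := fun z hz hs hδ => h2 z hz hs (by linarith)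
  obtain ⟨ε₀, hε₀, hε⟩ := D.exists_bd hr0 hA hz
  exact ⟨A, r / 2, r, min ε₀ (η / 2), ⟨by linarith, hr0, lt_min hε₀ (by linarith)⟩, hA,
    by linarith, hz, hl, fun v x p hv => (min_le_left _ _).trans (hε v x p hv),
    D.near_of hB hAB hrη (min_le_right _ _)⟩

namespace CstOk

variable {D} {η : ℝ} {A : (Fin m → ℝ) → ((Fin K → ℝ) →L[ℝ] (Fin m → ℝ))} {δ r ε : ℝ}
  (k : D.CstOk η A δ r ε)

include k

theorem δ_pos : 0 < δ := k.1.1

theorem r_pos : 0 < r := k.1.2.1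

theorem ε_pos : 0 < ε := k.1.2.2

theorem hA : ContinuousOn A D.Z := k.2.1

theorem hr : 2 * δ ≤ r := k.2.2.1

theorem zero : D.Zero A r := k.2.2.2.1

theorem line : D.Line A δ := k.2.2.2.2.1

theorem bd : D.Bd A r ε := k.2.2.2.2.2.1

theorem near : D.Near η A r ε := k.2.2.2.2.2.2

/-- **the duality map** -/
noncomputable def T : C(OnePoint ((Fin K → ℝ) × (Mfd D.F × Mfd D.F)), OnePoint (Fin m → ℝ)) :=
  ⟨loc (D.OT r) ε (D.hT A), continuous_loc (D.isClosed_OT r) k.ε_pos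
    (D.continuousOn_hT k.hA) (by
      intro y hy
      obtain ⟨⟨v, x, p⟩, rfl, hq⟩ := D.frontier_OT hy
      exact k.bd v x p hq)⟩

theorem T_infty : k.T ∞ = ∞ := loc_of_notMem D.infty_notMem_OT _ _

theorem T_of_le {v : Fin K → ℝ} (hv : ‖v‖ ≤ r) (x p : Mfd D.F) :
    k.T (((v, (x, p)) : (Fin K → ℝ) × (Mfd D.F × Mfd D.F)) :
      OnePoint ((Fin K → ℝ) × (Mfd D.F × Mfd D.F))) =
        fr (ε - ‖x.1 + A x.1 v - p.1‖) (x.1 + A x.1 v - p.1) :=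
  loc_of_mem (D.coe_mem_OT.2 hv) _ _

theorem T_of_gt {v : Fin K → ℝ} (hv : r < ‖v‖) (x p : Mfd D.F) :
    k.T (((v, (x, p)) : (Fin K → ℝ) × (Mfd D.F × Mfd D.F)) :
      OnePoint ((Fin K → ℝ) × (Mfd D.F × Mfd D.F))) = ∞ :=
  loc_of_notMem (fun h => absurd (D.coe_mem_OT.1 h) (not_le.2 hv)) _ _

theorem T_ne {v : Fin K → ℝ} {x p : Mfd D.F}
    (h : k.T (((v, (x, p)) : (Fin K → ℝ) × (Mfd D.F × Mfd D.F)) :
      OnePoint ((Fin K → ℝ) × (Mfd D.F × Mfd D.F))) ≠ ∞) :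
    ‖v‖ ≤ r ∧ ‖x.1 + A x.1 v - p.1‖ < ε := by
  have hv : ‖v‖ ≤ r := by
    by_contra hv
    exact h (k.T_of_gt (not_le.1 hv) x p)
  refine ⟨hv, ?_⟩
  by_contra h1
  apply h
  rw [k.T_of_le hv]
  exact fr_nonpos (by linarith [not_lt.1 h1]) _

theorem T_near {v : Fin K → ℝ} {x p : Mfd D.F}
    (h : k.T (((v, (x, p)) : (Fin K → ℝ) × (Mfd D.F × Mfd D.F)) :
      OnePoint ((Fin K → ℝ) × (Mfd D.F × Mfd D.F))) ≠ ∞) : ‖x.1 - p.1‖ < η :=
  k.near v x p (k.T_ne h).1 (k.T_ne h).2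

end CstOk

/-- the map `(z, p) ↦ (F z, (ρ z, p))` -/
noncomputable def cM : C(OnePoint (Fin m → ℝ) × Mfd D.F,
    OnePoint ((Fin K → ℝ) × (Mfd D.F × Mfd D.F))) :=
  ⟨fun q => smT (D.c0 q.1, q.2), by
    have := D.compactSpace_Mfd
    exact continuous_smT.comp ((D.continuous_c0.comp continuous_fst).prodMk continuous_snd)⟩

@[simp] theorem cM_apply (q : OnePoint (Fin m → ℝ) × Mfd D.F) :
    D.cM q = smT (D.c0 q.1, q.2) := rfl

/-- the projection -/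
def prM : C(OnePoint (Fin m → ℝ) × Mfd D.F, OnePoint (Fin m → ℝ)) := ⟨Prod.fst, continuous_fst⟩

/-- the difference `(z, p) ↦ z - p` -/
def sbM : C(OnePoint (Fin m → ℝ) × Mfd D.F, OnePoint (Fin m → ℝ)) :=
  ⟨fun q => addS (q.1, -q.2.1), continuous_addS.comp
    (continuous_fst.prodMk (continuous_subtype_val.comp continuous_snd).neg)⟩

theorem sbM_prM : (D.sbM).HomotopicRel D.prM {q | q.1 = ∞} := by
  refine homotopicRel_of (fun a => addS (a.2.1, -((1 - (a.1 : ℝ)) • a.2.2.1))) ?_ ?_ ?_ ?_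
  · have h1 : Continuous fun a : unitInterval × (OnePoint (Fin m → ℝ) × Mfd D.F) => a.2.2.1 :=
      continuous_subtype_val.comp (continuous_snd.comp continuous_snd)
    have h2 : Continuous fun a : unitInterval × (OnePoint (Fin m → ℝ) × Mfd D.F) =>
        (1 - (a.1 : ℝ)) := continuous_const.sub (continuous_subtype_val.comp continuous_fst)
    exact continuous_addS.comp ((continuous_fst.comp continuous_snd).prodMk (h2.smul h1).neg)
  · rintro ⟨z, p⟩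
    show addS (z, -((1 - ((0 : unitInterval) : ℝ)) • p.1)) = addS (z, -p.1)
    simp
  · rintro ⟨z, p⟩
    show addS (z, -((1 - ((1 : unitInterval) : ℝ)) • p.1)) = z
    induction z using OnePoint.rec with
    | infty => rfl
    | coe z => simp
  · rintro t ⟨z, p⟩ hz
    change z = ∞ at hz
    subst hz
    rfl

/-! ### the neighbourhood of the manifold -/

/-- the value of `F` -/
noncomputable def Fv (z : Fin m → ℝ) : Fin K → ℝ := (1 - D.s * qn (D.f z))⁻¹ • D.f z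

/-- the difference on `Sᵐ × M` -/
noncomputable def hz (A : (Fin m → ℝ) → ((Fin K → ℝ) →L[ℝ] (Fin m → ℝ))) (z p : Fin m → ℝ) :
    Fin m → ℝ := D.ρ z + A (D.ρ z) (D.Fv z) - p

/-- a closed neighbourhood of the manifold -/
def Nb (δ : ℝ) : Set (Fin m → ℝ) := {z | z ∈ D.C ∧ D.s * qn (D.f z) ≤ 1 / 2 ∧ ‖D.f z‖ ≤ δ}

/-- an open neighbourhood of the manifold -/
def Nb' (δ : ℝ) : Set (Fin m → ℝ) := {z | z ∈ D.U ∧ D.s * qn (D.f z) < 1 / 2 ∧ ‖D.f z‖ < δ}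

theorem isCompact_Nb (δ : ℝ) : IsCompact (D.Nb δ) := by
  have h1 : IsClosed {z | D.s * qn (D.f z) ≤ 1 / 2 ∧ ‖D.f z‖ ≤ δ} :=
    (isClosed_le (continuous_const.mul (continuous_qn.comp D.smooth.continuous))
      continuous_const).inter (isClosed_le D.smooth.continuous.norm continuous_const)
  exact D.isCompact_C.inter_right h1

theorem isOpen_Nb' (δ : ℝ) : IsOpen (D.Nb' δ) :=
  D.isOpen_U.inter ((isOpen_lt (continuous_const.mul (continuous_qn.comp D.smooth.continuous))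
      continuous_const).inter (isOpen_lt D.smooth.continuous.norm continuous_const))

theorem Nb'_subset (δ : ℝ) : D.Nb' δ ⊆ D.Nb δ := fun _ h => ⟨D.subset h.1, h.2.1.le, h.2.2.le⟩

theorem mem_Nb'_of_zero {δ : ℝ} (hδ : 0 < δ) {z : Fin m → ℝ} (hz : z ∈ D.Z) : z ∈ D.Nb' δ := by
  have h1 : D.s * qn (D.f z) = 0 := by rw [hz.2, qn_zero, mul_zero]
  refine ⟨D.mem_U_of hz.1 (by rw [h1]; norm_num), by rw [h1]; norm_num, ?_⟩
  rw [hz.2, norm_zero]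
  exact hδ

theorem ρ_Nb {δ : ℝ} {z : Fin m → ℝ} (h : z ∈ D.Nb δ) : D.ρ z ∈ D.Z :=
  D.ρ_mem z h.1 (by linarith [h.2.1])

theorem continuousOn_ρ (δ : ℝ) : ContinuousOn D.ρ (D.Nb δ) :=
  D.ρ_cont.mono fun z h => ⟨h.1, by linarith [h.2.1]⟩

theorem continuousOn_Fv (δ : ℝ) : ContinuousOn D.Fv (D.Nb δ) := by
  have h1 : Continuous fun z => 1 - D.s * qn (D.f z) :=
    continuous_const.sub (continuous_const.mul (continuous_qn.comp D.smooth.continuous))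
  exact (h1.continuousOn.inv₀ fun z h => by linarith [h.2.1]).smul
    D.smooth.continuous.continuousOn

theorem continuousOn_hz {A : (Fin m → ℝ) → ((Fin K → ℝ) →L[ℝ] (Fin m → ℝ))}
    (hA : ContinuousOn A D.Z) (δ : ℝ) :
    ContinuousOn (fun a : (Fin m → ℝ) × (Fin m → ℝ) => D.hz A a.1 a.2) (D.Nb δ ×ˢ Set.univ) := by
  have h1 : ContinuousOn (fun z => A (D.ρ z)) (D.Nb δ) :=
    hA.comp (D.continuousOn_ρ δ) fun z h => D.ρ_Nb h
  have h2 : ContinuousOn (fun z => D.ρ z + A (D.ρ z) (D.Fv z)) (D.Nb δ) :=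
    (D.continuousOn_ρ δ).add (h1.clm_apply (D.continuousOn_Fv δ))
  exact (h2.comp continuousOn_fst fun a h => h.1).sub continuousOn_snd

/-- the closed neighbourhood of the diagonal -/
def ON (A : (Fin m → ℝ) → ((Fin K → ℝ) →L[ℝ] (Fin m → ℝ))) (δ ε : ℝ) :
    Set (OnePoint (Fin m → ℝ) × Mfd D.F) :=
  {q | ∃ z ∈ D.Nb δ, q.1 = (z : OnePoint (Fin m → ℝ)) ∧ ‖D.hz A z q.2.1‖ ≤ ε / 2}

theorem continuousOn_hz' {A : (Fin m → ℝ) → ((Fin K → ℝ) →L[ℝ] (Fin m → ℝ))}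
    (hA : ContinuousOn A D.Z) (δ : ℝ) :
    ContinuousOn (fun a : (Fin m → ℝ) × Mfd D.F => ‖D.hz A a.1 a.2.1‖) (D.Nb δ ×ˢ Set.univ) := by
  have h1 : Continuous fun a : (Fin m → ℝ) × Mfd D.F => (a.1, a.2.1) :=
    continuous_fst.prodMk (continuous_subtype_val.comp continuous_snd)
  exact ((D.continuousOn_hz hA δ).comp h1.continuousOn fun a h => ⟨h.1, Set.mem_univ _⟩).norm

theorem isClosed_ON {A : (Fin m → ℝ) → ((Fin K → ℝ) →L[ℝ] (Fin m → ℝ))}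
    (hA : ContinuousOn A D.Z) (δ ε : ℝ) : IsClosed (D.ON A δ ε) := by
  have := D.compactSpace_Mfd
  have := D.t2Space_Mfd
  have h1 : IsCompact ((D.Nb δ ×ˢ Set.univ : Set ((Fin m → ℝ) × Mfd D.F)) ∩
      (fun a : (Fin m → ℝ) × Mfd D.F => ‖D.hz A a.1 a.2.1‖) ⁻¹' Set.Iic (ε / 2)) := by
    have h2 : IsCompact (D.Nb δ ×ˢ Set.univ : Set ((Fin m → ℝ) × Mfd D.F)) :=
      (D.isCompact_Nb δ).prod isCompact_univ
    refine h2.of_isClosed_subset ?_ Set.inter_subset_left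
    exact (D.continuousOn_hz' hA δ).preimage_isClosed_of_isClosed h2.isClosed isClosed_Iic
  have h3 : D.ON A δ ε = (fun a : (Fin m → ℝ) × Mfd D.F => ((a.1 : OnePoint (Fin m → ℝ)), a.2)) ''
      ((D.Nb δ ×ˢ Set.univ : Set ((Fin m → ℝ) × Mfd D.F)) ∩
      (fun a : (Fin m → ℝ) × Mfd D.F => ‖D.hz A a.1 a.2.1‖) ⁻¹' Set.Iic (ε / 2)) := by
    ext ⟨y, p⟩
    constructor
    · rintro ⟨z, hz, h4, h5⟩
      exact ⟨(z, p), ⟨⟨hz, Set.mem_univ _⟩, h5⟩, Prod.ext h4.symm rfl⟩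
    · rintro ⟨⟨z, p'⟩, ⟨⟨hz, -⟩, h5⟩, h6⟩
      have h7 : p' = p := congrArg Prod.snd h6
      subst h7
      exact ⟨z, hz, (congrArg Prod.fst h6).symm, h5⟩
  rw [h3]
  refine (h1.image ?_).isClosed
  exact (OnePoint.continuous_coe.comp continuous_fst).prodMk continuous_snd

theorem mem_interior_ON {A : (Fin m → ℝ) → ((Fin K → ℝ) →L[ℝ] (Fin m → ℝ))}
    (hA : ContinuousOn A D.Z) {δ ε : ℝ} (hδ : 0 < δ) (hε : 0 < ε) (p : Mfd D.F) :
    (((p.1 : Fin m → ℝ) : OnePoint (Fin m → ℝ)), p) ∈ interior (D.ON A δ ε) := by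
  have h1 : IsOpen ((D.Nb' δ ×ˢ Set.univ : Set ((Fin m → ℝ) × Mfd D.F)) ∩
      (fun a : (Fin m → ℝ) × Mfd D.F => ‖D.hz A a.1 a.2.1‖) ⁻¹' Set.Iio (ε / 2)) :=
    ((D.continuousOn_hz' hA δ).mono (Set.prod_mono (D.Nb'_subset δ) le_rfl)).isOpen_inter_preimage
      ((D.isOpen_Nb' δ).prod isOpen_univ) isOpen_Iio
  have h2 : IsOpenEmbedding (fun a : (Fin m → ℝ) × Mfd D.F =>
      ((a.1 : OnePoint (Fin m → ℝ)), a.2)) :=
    OnePoint.isOpenEmbedding_coe.prodMap IsOpenEmbedding.id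
  have hp : p.1 ∈ D.Z := D.mem_Z p
  refine mem_interior.2 ⟨_, ?_, h2.isOpenMap _ h1, (p.1, p), ⟨⟨D.mem_Nb'_of_zero hδ hp,
    Set.mem_univ _⟩, ?_⟩, rfl⟩
  · rintro _ ⟨⟨z, p'⟩, ⟨⟨hz, -⟩, h5⟩, rfl⟩
    exact ⟨z, D.Nb'_subset δ hz, rfl, le_of_lt h5⟩
  · show ‖D.hz A p.1 p.1‖ < ε / 2
    have h3 : D.Fv p.1 = 0 := by rw [Fv, hp.2, smul_zero]
    rw [hz, D.ρ_id _ hp.1 hp.2, h3, map_zero, add_zero, sub_self, norm_zero]
    linarith

theorem c0_Nb {δ : ℝ} {z : Fin m → ℝ} (h : z ∈ D.Nb δ) : ∃ x : Mfd D.F, x.1 = D.ρ z ∧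
    D.c0 (z : OnePoint (Fin m → ℝ)) = (((D.Fv z, x) : (Fin K → ℝ) × Mfd D.F) :
      OnePoint ((Fin K → ℝ) × Mfd D.F)) := by
  have h1 : D.F0 (z : OnePoint (Fin m → ℝ)) = ((D.Fv z : Fin K → ℝ) : OnePoint (Fin K → ℝ)) :=
    D.F0_of_lt h.1 (by linarith [h.2.1])
  have h2 : D.F0 (z : OnePoint (Fin m → ℝ)) ≠ ∞ := by
    rw [h1]
    exact OnePoint.coe_ne_infty _
  refine ⟨D.ret ⟨(z : OnePoint (Fin m → ℝ)), h2⟩, rfl, ?_⟩
  rw [D.c0_of_ne h2, h1, prT_coe]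

theorem norm_Fv_le {δ : ℝ} {z : Fin m → ℝ} (h : z ∈ D.Nb δ) : ‖D.Fv z‖ ≤ 2 * δ := by
  have h0 : 0 ≤ D.s * qn (D.f z) := mul_nonneg D.s_pos.le (qn_nonneg _)
  have h1 : (1 - D.s * qn (D.f z))⁻¹ ≤ 2 := by
    rw [inv_le_comm₀ (by linarith [h.2.1]) (by norm_num)]
    linarith [h.2.1]
  have h2 : 0 ≤ (1 - D.s * qn (D.f z))⁻¹ := inv_nonneg.2 (by linarith [h.2.1])
  rw [Fv, norm_smul, Real.norm_eq_abs, abs_of_nonneg h2]
  exact mul_le_mul h1 h.2.2 (norm_nonneg _) (by norm_num)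

/-! ### the first homotopy -/

theorem fr_eq_zero {X : Type*} [NormedAddCommGroup X] [NormedSpace ℝ X] {e : ℝ} {y : X}
    (h : fr e y = ((0 : X) : OnePoint X)) : y = 0 := by
  by_cases he : 0 < e
  · rw [fr_pos he, OnePoint.coe_eq_coe] at h
    rcases smul_eq_zero.1 h with h1 | h1
    · exact absurd h1 (inv_ne_zero he.ne')
    · exact h1
  · rw [fr_nonpos (not_lt.1 he)] at h
    exact absurd h (OnePoint.infty_ne_coe _)

namespace CstOk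

variable {D} {η : ℝ} {A : (Fin m → ℝ) → ((Fin K → ℝ) →L[ℝ] (Fin m → ℝ))} {δ r ε : ℝ}
  (k : D.CstOk η A δ r ε)

include k

theorem g0_of_Nb {z : Fin m → ℝ} (h : z ∈ D.Nb δ) (p : Mfd D.F) :
    k.T (D.cM ((z : OnePoint (Fin m → ℝ)), p)) = fr (ε - ‖D.hz A z p.1‖) (D.hz A z p.1) := by
  obtain ⟨x, hx, h1⟩ := D.c0_Nb h
  rw [cM_apply, h1, smT_coe, k.T_of_le ((D.norm_Fv_le h).trans k.hr), hx]
  rfl

theorem g0_zero {q : OnePoint (Fin m → ℝ) × Mfd D.F}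
    (h : k.T (D.cM q) = ((0 : Fin m → ℝ) : OnePoint (Fin m → ℝ))) :
    ∃ p : Mfd D.F, q = (((p.1 : Fin m → ℝ) : OnePoint (Fin m → ℝ)), p) := by
  obtain ⟨y, p⟩ := q
  rw [cM_apply] at h
  by_cases h1 : D.F0 y = ∞
  · have h2 : D.c0 y = ∞ := pairS_infty h1
    rw [h2, smT_infty, k.T_infty] at h
    exact absurd h (OnePoint.infty_ne_coe _)
  obtain ⟨z, rfl, hC, hlt⟩ := D.F0_ne h1
  have h2 : D.F0 (z : OnePoint (Fin m → ℝ)) = ((D.Fv z : Fin K → ℝ) : OnePoint (Fin K → ℝ)) :=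
    D.F0_of_lt hC hlt
  have h3 : smT (D.c0 (z : OnePoint (Fin m → ℝ)), p) =
      (((D.Fv z, (D.ret ⟨(z : OnePoint (Fin m → ℝ)), h1⟩, p)) :
        (Fin K → ℝ) × (Mfd D.F × Mfd D.F)) :
          OnePoint ((Fin K → ℝ) × (Mfd D.F × Mfd D.F))) := by
    rw [D.c0_of_ne h1, smT_prT, h2, prT_coe]
  change k.T (smT (D.c0 (z : OnePoint (Fin m → ℝ)), p)) = _ at h
  rw [h3] at h
  have hx : (D.ret ⟨(z : OnePoint (Fin m → ℝ)), h1⟩).1 = D.ρ z := rfl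
  generalize D.ret ⟨(z : OnePoint (Fin m → ℝ)), h1⟩ = x at h hx
  have h4 := k.T_ne (by rw [h]; exact OnePoint.coe_ne_infty _)
  rw [k.T_of_le h4.1] at h
  have h5 := fr_eq_zero h
  have h6 : x.1 + A x.1 (D.Fv z) = p.1 := sub_eq_zero.1 h5
  have h7 : D.Fv z = 0 := k.zero x.1 (D.mem_Z x) _ h4.1 (by rw [h6]; exact (D.mem_Z p).2)
  have h8 : D.f z = 0 := by
    rcases smul_eq_zero.1 h7 with h9 | h9
    · exact absurd h9 (inv_ne_zero (by linarith))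
    · exact h9
  rw [h7, map_zero, add_zero, hx, D.ρ_id z hC h8] at h6
  refine ⟨p, ?_⟩
  rw [h6]

/-- the homotopy near the diagonal -/
noncomputable def Hh (_ : D.CstOk η A δ r ε)
    (a : unitInterval × (OnePoint (Fin m → ℝ) × Mfd D.F)) : Fin m → ℝ :=
  ((1 - (a.1 : ℝ)) * (ε - ‖D.hz A (crd a.2.1) a.2.2.1‖)⁻¹ + (a.1 : ℝ)) •
    ((1 - (a.1 : ℝ)) • D.hz A (crd a.2.1) a.2.2.1 + (a.1 : ℝ) • (crd a.2.1 - a.2.2.1))

theorem continuousOn_Hh : ContinuousOn k.Hh {a | a.2 ∈ D.ON A δ ε} := by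
  have h1 : ContinuousOn (fun a : unitInterval × (OnePoint (Fin m → ℝ) × Mfd D.F) => crd a.2.1)
      {a | a.2 ∈ D.ON A δ ε} := by
    rintro ⟨t, ⟨y, p⟩⟩ ⟨z, hz, h2, -⟩
    have h3 : y ≠ ∞ := by
      change y = _ at h2
      rw [h2]
      exact OnePoint.coe_ne_infty _
    have h4 : ContinuousAt (fun a : unitInterval × (OnePoint (Fin m → ℝ) × Mfd D.F) => crd a.2.1)
        (t, (y, p)) :=
      ContinuousAt.comp (f := fun a : unitInterval × (OnePoint (Fin m → ℝ) × Mfd D.F) => a.2.1)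
        (x := (t, (y, p))) (g := crd) (continuousAt_crd h3)
        (continuous_fst.comp continuous_snd).continuousAt
    exact h4.continuousWithinAt
  have h2 : Continuous (fun a : unitInterval × (OnePoint (Fin m → ℝ) × Mfd D.F) => a.2.2.1) :=
    continuous_subtype_val.comp (continuous_snd.comp continuous_snd)
  have h3 : ContinuousOn (fun a : unitInterval × (OnePoint (Fin m → ℝ) × Mfd D.F) =>
      D.hz A (crd a.2.1) a.2.2.1) {a | a.2 ∈ D.ON A δ ε} := by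
    refine (D.continuousOn_hz k.hA δ).comp (h1.prodMk h2.continuousOn) ?_
    rintro ⟨t, ⟨y, p⟩⟩ ⟨z, hz, h2, -⟩
    change y = _ at h2
    subst h2
    exact ⟨hz, Set.mem_univ _⟩
  have h4 : Continuous (fun a : unitInterval × (OnePoint (Fin m → ℝ) × Mfd D.F) => (a.1 : ℝ)) :=
    continuous_subtype_val.comp continuous_fst
  have h5 : Continuous (fun a : unitInterval × (OnePoint (Fin m → ℝ) × Mfd D.F) =>
      1 - (a.1 : ℝ)) := continuous_const.sub h4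
  have h6 : ContinuousOn (fun a : unitInterval × (OnePoint (Fin m → ℝ) × Mfd D.F) =>
      (ε - ‖D.hz A (crd a.2.1) a.2.2.1‖)⁻¹) {a | a.2 ∈ D.ON A δ ε} := by
    refine (continuousOn_const.sub h3.norm).inv₀ ?_
    rintro ⟨t, ⟨y, p⟩⟩ ⟨z, hz, h2, h7⟩
    change y = _ at h2
    subst h2
    change ‖D.hz A z p.1‖ ≤ ε / 2 at h7
    have := k.ε_pos
    show ε - ‖D.hz A z p.1‖ ≠ 0
    linarith
  exact (((h5.continuousOn.mul h6).add h4.continuousOn).smul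
    ((h5.continuousOn.smul h3).add (h4.continuousOn.smul (h1.sub h2.continuousOn))))

theorem Hh_zero {t : unitInterval} {q : OnePoint (Fin m → ℝ) × Mfd D.F} (hq : q ∈ D.ON A δ ε)
    (h : k.Hh (t, q) = 0) : ∃ p : Mfd D.F, q = (((p.1 : Fin m → ℝ) : OnePoint (Fin m → ℝ)), p) := by
  obtain ⟨y, p⟩ := q
  obtain ⟨z, hz, h2, h7⟩ := hq
  change y = _ at h2
  subst h2
  change ‖D.hz A z p.1‖ ≤ ε / 2 at h7
  have hε := k.ε_pos
  have h3 : 0 < (1 - (t : ℝ)) * (ε - ‖D.hz A z p.1‖)⁻¹ + (t : ℝ) := by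
    have h4 : 0 < (ε - ‖D.hz A z p.1‖)⁻¹ := inv_pos.2 (by linarith)
    rcases t.2.1.eq_or_lt with h5 | h5
    · rw [← h5]
      linarith
    · have h6 : 0 ≤ (1 - (t : ℝ)) * (ε - ‖D.hz A z p.1‖)⁻¹ :=
        mul_nonneg (by linarith [t.2.2]) h4.le
      linarith
  have h4 : (1 - (t : ℝ)) • D.hz A z p.1 + (t : ℝ) • (z - p.1) = 0 := by
    rcases smul_eq_zero.1 h with h5 | h5
    · exact absurd h5 h3.ne'
    · exact h5
  have h5 : (1 - (t : ℝ)) • (D.ρ z + A (D.ρ z) ((1 - D.s * qn (D.f z))⁻¹ • D.f z)) +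
      (t : ℝ) • z = p.1 := by
    rw [← sub_eq_zero, ← h4]
    show _ = (1 - (t : ℝ)) • (D.ρ z + A (D.ρ z) ((1 - D.s * qn (D.f z))⁻¹ • D.f z) - p.1) +
      (t : ℝ) • (z - p.1)
    module
  have h6 : D.f z = 0 := k.line z hz.1 hz.2.1 hz.2.2 t t.2.1 t.2.2
    (by rw [h5]; exact (D.mem_Z p).2)
  rw [h6, smul_zero, map_zero, add_zero, D.ρ_id z hz.1 h6] at h5
  have h8 : (1 - (t : ℝ)) • z + (t : ℝ) • z = z := by module
  rw [h8] at h5
  exact ⟨p, by rw [h5]⟩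

/-- **the first homotopy** -/
theorem homotopic_sbM : (k.T.comp D.cM).HomotopicRel D.sbM {q | q.1 = ∞} := by
  have := D.compactSpace_Mfd
  have hin : ∀ {q : OnePoint (Fin m → ℝ) × Mfd D.F},
      (∃ p : Mfd D.F, q = (((p.1 : Fin m → ℝ) : OnePoint (Fin m → ℝ)), p)) →
        q ∈ interior (D.ON A δ ε) := by
    rintro q ⟨p, rfl⟩
    exact D.mem_interior_ON k.hA k.δ_pos k.ε_pos p
  refine germ_homotopic (D.isClosed_ON k.hA δ ε) k.Hh k.continuousOn_Hh ?_ ?_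
    (fun t q hq h => hin (k.Hh_zero hq h)) (fun q h => hin (k.g0_zero h)) ?_ ?_ ?_
  · rintro ⟨y, p⟩ ⟨z, hz, h2, h7⟩
    change y = _ at h2
    subst h2
    change ‖D.hz A z p.1‖ ≤ ε / 2 at h7
    have hε := k.ε_pos
    show k.T (D.cM ((z : OnePoint (Fin m → ℝ)), p)) = _
    rw [k.g0_of_Nb hz, fr_pos (by linarith)]
    show _ = ((((1 - ((0 : unitInterval) : ℝ)) * (ε - ‖D.hz A z p.1‖)⁻¹ + ((0 : unitInterval) : ℝ)) •
      ((1 - ((0 : unitInterval) : ℝ)) • D.hz A z p.1 + ((0 : unitInterval) : ℝ) • (z - p.1)) :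
        Fin m → ℝ) : OnePoint (Fin m → ℝ))
    simp
  · rintro ⟨y, p⟩ ⟨z, hz, h2, h7⟩
    change y = _ at h2
    subst h2
    show addS ((z : OnePoint (Fin m → ℝ)), -p.1) = ((((1 - ((1 : unitInterval) : ℝ)) *
      (ε - ‖D.hz A z p.1‖)⁻¹ + ((1 : unitInterval) : ℝ)) •
      ((1 - ((1 : unitInterval) : ℝ)) • D.hz A z p.1 + ((1 : unitInterval) : ℝ) • (z - p.1)) :
        Fin m → ℝ) : OnePoint (Fin m → ℝ))
    simp [sub_eq_add_neg]
  · rintro ⟨y, p⟩ h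
    induction y using OnePoint.rec with
    | infty => exact absurd h (OnePoint.infty_ne_coe _)
    | coe z =>
      change addS ((z : OnePoint (Fin m → ℝ)), -p.1) = _ at h
      rw [addS_coe, OnePoint.coe_eq_coe, ← sub_eq_add_neg] at h
      exact hin ⟨p, by rw [sub_eq_zero.1 h]⟩
  · rintro ⟨y, p⟩ h
    change y = ∞ at h
    subst h
    show k.T (smT (D.c0 ∞, p)) = ∞
    rw [D.c0_infty, smT_infty, k.T_infty]
  · rintro ⟨y, p⟩ h
    change y = ∞ at h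
    subst h
    rfl

/-- **the map `(z, p) ↦ T (F z, (ρ z, p))` is homotopic to the projection** -/
theorem homotopic_prM : (k.T.comp D.cM).HomotopicRel D.prM {q | q.1 = ∞} :=
  k.homotopic_sbM.trans D.sbM_prM

end CstOk

end Tub

end Vale.Agent.P263.FR
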