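import Vale.Agent.P263.FR.Dual1

/-!
# P263, block C of the framed version: the duality map over the manifold

`k.Th : (ℝᴷ × (M × M))⁺ → (ℝᵐ × M)⁺`, `y = (v, (x, p)) ↦ (T y, x)`.

`exists_Th` : for a suitable `T`, the map `(z, p) ↦ (T (F z, (ρ z, p)), ρ z)` is homotopic to
`(z, p) ↦ (z, p)`, relative to `∞ × M`.
-/

open OnePoint Topology Filter

namespace Vale.Agent.P263.FR

open Vale.Agent.P263.ST

theorem hrel_of {Z Y : Type*} [TopologicalSpace Z] [TopologicalSpace Y] {f g : C(Z, Y)} {S : Set Z}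
    (F : unitInterval × Z → Y) (hF : Continuous F) (h0 : ∀ z, F (0, z) = f z)
    (h1 : ∀ z, F (1, z) = g z) (hS : ∀ τ, ∀ z ∈ S, F (τ, z) = f z) : f.HomotopicRel g S :=
  ⟨{ toFun := F
     continuous_toFun := hF
     map_zero_left := h0
     map_one_left := h1
     prop' := fun τ z hz => hS τ z hz }⟩

namespace Tub

variable {m K : ℕ} (D : Tub m K)

/-- the map `(z, p) ↦ (z, p)` -/
noncomputable def jM : C(OnePoint (Fin m → ℝ) × Mfd D.F, OnePoint ((Fin m → ℝ) × Mfd D.F)) :=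
  ⟨fun q => prT q.1 q.2, continuous_prT continuous_fst fun _ _ => continuous_snd.continuousAt⟩

@[simp] theorem jM_apply (z : OnePoint (Fin m → ℝ)) (p : Mfd D.F) : D.jM (z, p) = prT z p := rfl

/-- the duality map over the manifold, as a function -/
noncomputable def Th0 (T : OnePoint ((Fin K → ℝ) × (Mfd D.F × Mfd D.F)) → OnePoint (Fin m → ℝ))
    (y : OnePoint ((Fin K → ℝ) × (Mfd D.F × Mfd D.F))) : OnePoint ((Fin m → ℝ) × Mfd D.F) :=
  pairS T {y : OnePoint ((Fin K → ℝ) × (Mfd D.F × Mfd D.F)) | y ≠ ∞} (fun y => (crP y).2.1) y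

/-- the duality map over the manifold -/
noncomputable def Th (T : C(OnePoint ((Fin K → ℝ) × (Mfd D.F × Mfd D.F)), OnePoint (Fin m → ℝ)))
    (hT : T ∞ = ∞) :
    C(OnePoint ((Fin K → ℝ) × (Mfd D.F × Mfd D.F)), OnePoint ((Fin m → ℝ) × Mfd D.F)) :=
  ⟨D.Th0 T, continuous_pairS T.continuous
    (fun y hy => by
      rintro rfl
      exact hy hT) (continuous_fst.comp (continuous_snd.comp continuous_crP))⟩

variable {T : C(OnePoint ((Fin K → ℝ) × (Mfd D.F × Mfd D.F)), OnePoint (Fin m → ℝ))}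
  (hT : T ∞ = ∞)

theorem Th_apply (y : OnePoint ((Fin K → ℝ) × (Mfd D.F × Mfd D.F))) :
    D.Th T hT y = D.Th0 T y := rfl

theorem Th_infty : D.Th T hT ∞ = ∞ := by
  rw [Th_apply]
  exact pairS_infty hT

theorem Th_coe (v : Fin K → ℝ) (x p : Mfd D.F) :
    D.Th T hT (((v, (x, p)) : (Fin K → ℝ) × (Mfd D.F × Mfd D.F)) :
      OnePoint ((Fin K → ℝ) × (Mfd D.F × Mfd D.F))) =
        prT (T (((v, (x, p)) : (Fin K → ℝ) × (Mfd D.F × Mfd D.F)) :
      OnePoint ((Fin K → ℝ) × (Mfd D.F × Mfd D.F)))) x := by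
  have h : (((v, (x, p)) : (Fin K → ℝ) × (Mfd D.F × Mfd D.F)) :
      OnePoint ((Fin K → ℝ) × (Mfd D.F × Mfd D.F))) ≠ ∞ := OnePoint.coe_ne_infty _
  have h1 : crP ⟨(((v, (x, p)) : (Fin K → ℝ) × (Mfd D.F × Mfd D.F)) :
      OnePoint ((Fin K → ℝ) × (Mfd D.F × Mfd D.F))), h⟩ = (v, (x, p)) :=
    OnePoint.coe_injective (coe_crP ⟨_, h⟩)
  rw [Th_apply]
  refine (pairS_of_mem (A := T) (p := fun y : {y : OnePoint ((Fin K → ℝ) × (Mfd D.F × Mfd D.F)) |
    y ≠ ∞} => (crP y).2.1) h).trans ?_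
  rw [h1]

theorem Th_prT (z : OnePoint (Fin K → ℝ)) (x p : Mfd D.F) :
    D.Th T hT (prT z (x, p)) = prT (T (prT z (x, p))) x := by
  induction z using OnePoint.rec with
  | infty =>
    rw [prT_infty, Th_infty, hT]
    rfl
  | coe v => exact D.Th_coe hT v x p

/-- the segments between near points of the manifold -/
theorem exists_eta : ∃ η > 0, ∀ x ∈ D.Z, ∀ y, ‖x - y‖ < η → y ∈ D.C ∧ D.s * qn (D.f y) ≤ 1 := by
  have hsub : D.Z ⊆ {x | x ∈ D.U ∧ D.s * qn (D.f x) < 1} := fun x hx => by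
    have h := D.mem_Nb'_of_zero (δ := 1) one_pos hx
    exact ⟨h.1, by linarith [h.2.1]⟩
  obtain ⟨η, hη, h1⟩ := D.isCompact_Z.exists_thickening_subset_open D.isOpen_dom hsub
  refine ⟨η, hη, fun x hx y hy => ?_⟩
  have h2 : y ∈ Metric.thickening η D.Z := by
    rw [Metric.mem_thickening_iff]
    refine ⟨x, hx, ?_⟩
    rw [dist_comm, dist_eq_norm]
    exact hy
  have h3 := h1 h2
  exact ⟨D.subset h3.1, h3.2.le⟩

namespace CstOk

variable {D} {η : ℝ} {A : (Fin m → ℝ) → ((Fin K → ℝ) →L[ℝ] (Fin m → ℝ))} {δ r ε : ℝ}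
  (k : D.CstOk η A δ r ε)

include k

theorem cM_infty (p : Mfd D.F) : k.T (D.cM (∞, p)) = ∞ := by
  show k.T (smT (D.c0 ∞, p)) = ∞
  rw [D.c0_infty, smT_infty, k.T_infty]

theorem F0_ne_of {q : OnePoint (Fin m → ℝ) × Mfd D.F} (h : k.T (D.cM q) ≠ ∞) : D.F0 q.1 ≠ ∞ := by
  intro h1
  apply h
  have h2 : D.c0 q.1 = ∞ := pairS_infty h1
  rw [cM_apply, h2, smT_infty, k.T_infty]

theorem ret_near {q : OnePoint (Fin m → ℝ) × Mfd D.F} (h : k.T (D.cM q) ≠ ∞) :
    ‖(D.ret ⟨q.1, k.F0_ne_of h⟩).1 - q.2.1‖ < η := by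
  have h0 := k.F0_ne_of h
  obtain ⟨v, hv⟩ := OnePoint.ne_infty_iff_exists.1 h0
  have h1 : D.cM q = (((v, (D.ret ⟨q.1, h0⟩, q.2)) : (Fin K → ℝ) × (Mfd D.F × Mfd D.F)) :
      OnePoint ((Fin K → ℝ) × (Mfd D.F × Mfd D.F))) := by
    rw [cM_apply, D.c0_of_ne h0, smT_prT, ← hv, prT_coe]
  rw [h1] at h
  exact k.T_near h

/-- the point on the segment -/
noncomputable def seg (_ : D.CstOk η A δ r ε) (t : unitInterval) (x p : Fin m → ℝ) : Fin m → ℝ :=
  (1 - (t : ℝ)) • x + (t : ℝ) • p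

theorem seg_near {x p : Fin m → ℝ} (t : unitInterval) (h : ‖x - p‖ < η) :
    ‖x - k.seg t x p‖ < η := by
  have h1 : x - k.seg t x p = (t : ℝ) • (x - p) := by
    unfold seg
    module
  rw [h1, norm_smul, Real.norm_eq_abs, abs_of_nonneg t.2.1]
  exact lt_of_le_of_lt (mul_le_of_le_one_left (norm_nonneg _) t.2.2) h

/-- the second component of the homotopy -/
noncomputable def segR (hη : ∀ x ∈ D.Z, ∀ y, ‖x - y‖ < η → y ∈ D.C ∧ D.s * qn (D.f y) ≤ 1)
    (a : {a : unitInterval × (OnePoint (Fin m → ℝ) × Mfd D.F) | k.T (D.cM a.2) ≠ ∞}) : Mfd D.F :=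
  ⟨D.ρ (k.seg a.1.1 (D.ret ⟨a.1.2.1, k.F0_ne_of a.2⟩).1 a.1.2.2.1), D.F_eq_zero.2 (by
    have h := hη _ (D.mem_Z _) _ (k.seg_near a.1.1 (k.ret_near a.2))
    exact D.ρ_mem _ h.1 h.2)⟩

theorem continuous_segR (hη : ∀ x ∈ D.Z, ∀ y, ‖x - y‖ < η → y ∈ D.C ∧ D.s * qn (D.f y) ≤ 1) :
    Continuous (k.segR hη) := by
  apply Continuous.subtype_mk
  refine D.ρ_cont.comp_continuous ?_ fun a =>
    hη _ (D.mem_Z _) _ (k.seg_near a.1.1 (k.ret_near a.2))
  have h1 : Continuous fun a : {a : unitInterval × (OnePoint (Fin m → ℝ) × Mfd D.F) |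
      k.T (D.cM a.2) ≠ ∞} => (D.ret ⟨a.1.2.1, k.F0_ne_of a.2⟩).1 := by
    refine continuous_subtype_val.comp (D.continuous_ret.comp ?_)
    exact Continuous.subtype_mk (continuous_fst.comp (continuous_snd.comp continuous_subtype_val)) _
  have h2 : Continuous fun a : {a : unitInterval × (OnePoint (Fin m → ℝ) × Mfd D.F) |
      k.T (D.cM a.2) ≠ ∞} => (a.1.1 : ℝ) :=
    continuous_subtype_val.comp (continuous_fst.comp continuous_subtype_val)
  have h3 : Continuous fun a : {a : unitInterval × (OnePoint (Fin m → ℝ) × Mfd D.F) |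
      k.T (D.cM a.2) ≠ ∞} => a.1.2.2.1 :=
    continuous_subtype_val.comp (continuous_snd.comp (continuous_snd.comp continuous_subtype_val))
  exact ((continuous_const.sub h2).smul h1).add (h2.smul h3)

/-- **the duality map over the manifold** -/
theorem homotopic_jM (hη : ∀ x ∈ D.Z, ∀ y, ‖x - y‖ < η → y ∈ D.C ∧ D.s * qn (D.f y) ≤ 1) :
    ((D.Th k.T k.T_infty).comp D.cM).HomotopicRel D.jM {q | q.1 = ∞} := by
  -- the second phase
  have hmid : Continuous fun q : OnePoint (Fin m → ℝ) × Mfd D.F => prT (k.T (D.cM q)) q.2 :=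
    continuous_prT (k.T.comp D.cM).continuous fun _ _ => continuous_snd.continuousAt
  have h2 : (⟨fun q => prT (k.T (D.cM q)) q.2, hmid⟩ :
      C(OnePoint (Fin m → ℝ) × Mfd D.F, OnePoint ((Fin m → ℝ) × Mfd D.F))).HomotopicRel D.jM
        {q | q.1 = ∞} := by
    obtain ⟨G⟩ := k.homotopic_prM
    refine hrel_of (fun a => prT (G a) a.2.2) ?_ ?_ ?_ ?_
    · exact continuous_prT G.continuous fun _ _ =>
        (continuous_snd.comp continuous_snd).continuousAt
    · intro q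
      show prT (G (0, q)) q.2 = _
      rw [G.apply_zero]
      rfl
    · intro q
      show prT (G (1, q)) q.2 = _
      rw [G.apply_one]
      rfl
    · rintro t ⟨y, p⟩ hy
      change y = ∞ at hy
      subst hy
      show prT (G (t, (∞, p))) p = prT (k.T (D.cM (∞, p))) p
      rw [G.eq_fst t rfl]
      rfl
  refine ContinuousMap.HomotopicRel.trans ?_ h2
  refine hrel_of (pairS (fun a => k.T (D.cM a.2))
    {a : unitInterval × (OnePoint (Fin m → ℝ) × Mfd D.F) | k.T (D.cM a.2) ≠ ∞} (k.segR hη))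
    (continuous_pairS ((k.T.comp D.cM).continuous.comp continuous_snd) (fun _ h => h)
      (k.continuous_segR hη)) ?_ ?_ ?_
  · rintro ⟨y, p⟩
    show _ = D.Th k.T k.T_infty (smT (D.c0 y, p))
    by_cases h : k.T (D.cM (y, p)) = ∞
    · refine (pairS_infty (A := fun a : unitInterval × (OnePoint (Fin m → ℝ) × Mfd D.F) =>
        k.T (D.cM a.2)) h).trans ?_
      by_cases h0 : D.F0 y = ∞
      · have h1 : D.c0 y = ∞ := pairS_infty h0
        rw [h1, smT_infty, Th_infty]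
      · rw [D.c0_of_ne h0, smT_prT, Th_prT, ← smT_prT, ← D.c0_of_ne h0]
        change k.T (smT (D.c0 y, p)) = ∞ at h
        rw [h]
        rfl
    · refine (pairS_of_mem (A := fun a : unitInterval × (OnePoint (Fin m → ℝ) × Mfd D.F) =>
        k.T (D.cM a.2)) h).trans ?_
      have h0 : D.F0 y ≠ ∞ := k.F0_ne_of h
      rw [D.c0_of_ne h0, smT_prT, Th_prT]
      have h3 : k.segR hη ⟨((0 : unitInterval), (y, p)), h⟩ = D.ret ⟨y, h0⟩ := by
        apply Subtype.ext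
        show D.ρ ((1 - ((0 : unitInterval) : ℝ)) • (D.ret ⟨y, h0⟩).1 +
          ((0 : unitInterval) : ℝ) • p.1) = _
        have h4 := D.mem_Z (D.ret ⟨y, h0⟩)
        rw [Set.Icc.coe_zero, sub_zero, one_smul, zero_smul, add_zero]
        exact D.ρ_id _ h4.1 h4.2
      rw [h3]
      show prT (k.T (smT (D.c0 y, p))) _ = _
      rw [D.c0_of_ne h0, smT_prT]
  · rintro ⟨y, p⟩
    show _ = prT (k.T (D.cM (y, p))) p
    by_cases h : k.T (D.cM (y, p)) = ∞
    · refine (pairS_infty (A := fun a : unitInterval × (OnePoint (Fin m → ℝ) × Mfd D.F) =>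
        k.T (D.cM a.2)) h).trans ?_
      rw [h]
      rfl
    · refine (pairS_of_mem (A := fun a : unitInterval × (OnePoint (Fin m → ℝ) × Mfd D.F) =>
        k.T (D.cM a.2)) h).trans ?_
      have h0 : D.F0 y ≠ ∞ := k.F0_ne_of h
      have h3 : k.segR hη ⟨((1 : unitInterval), (y, p)), h⟩ = p := by
        apply Subtype.ext
        show D.ρ ((1 - ((1 : unitInterval) : ℝ)) • (D.ret ⟨y, h0⟩).1 +
          ((1 : unitInterval) : ℝ) • p.1) = _
        have h4 := D.mem_Z p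
        rw [Set.Icc.coe_one, sub_self, one_smul, zero_smul, zero_add]
        exact D.ρ_id _ h4.1 h4.2
      rw [h3]
  · rintro t ⟨y, p⟩ hy
    change y = ∞ at hy
    subst hy
    refine (pairS_infty (A := fun a : unitInterval × (OnePoint (Fin m → ℝ) × Mfd D.F) =>
        k.T (D.cM a.2)) (k.cM_infty p)).trans ?_
    show ∞ = D.Th k.T k.T_infty (smT (D.c0 ∞, p))
    rw [D.c0_infty, smT_infty, Th_infty]

end CstOk

/-- **the geometric half of the duality** -/
theorem exists_Th :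
    ∃ (T : C(OnePoint ((Fin K → ℝ) × (Mfd D.F × Mfd D.F)), OnePoint (Fin m → ℝ)))
      (hT : T ∞ = ∞), ((D.Th T hT).comp D.cM).HomotopicRel D.jM {q | q.1 = ∞} := by
  obtain ⟨η, hη, h1⟩ := D.exists_eta
  obtain ⟨A, δ, r, ε, k⟩ := D.exists_cst hη
  exact ⟨k.T, k.T_infty, k.homotopic_jM h1⟩

end Tub

end Vale.Agent.P263.FR
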