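import Vale.Agent.P263.FR.Dual2
import Vale.Agent.P263.FR.H850.Nondeg
import Vale.Agent.P263.FR.H754.Kun
import Vale.Agent.P263.FR.H663.FinTub

/-!
# P263, block C of the framed version: duality for a framed manifold

`Tub.nondeg` : for the framed manifold `M` of `D : Tub (q + q + (i + 1)) (i + 1)`, with collapse map
`c`, every cocycle `u` of degree `q` of `M` which is not a coboundary has a cocycle `v` of degree `q`
with `Int c (v ∪ u) ≠ 0`.
-/

open Finset OnePoint Topology

namespace Vale.Agent.P263.FR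

open Vale.Agent.P263.S hiding sn sn_add
open Vale.Agent.P263.E Vale.Agent.P263.H83 Vale.Agent.P263.G2 Vale.Agent.P263.TJ
open Vale.Agent.P263.T0 CupC

theorem smP_eq_prT {K : ℕ} {P : Type} [TopologicalSpace P] [CompactSpace P] [T2Space P]
    (z : OnePoint (Fin K → ℝ)) (x : P) : smP K P (z, x) = prT z x := by
  induction z using OnePoint.rec <;> rfl

theorem cc_of_eq {X : SS} {a b c : Cc X} (h : a = b + c) : a + b = c := by
  rw [h]
  funext p y
  show b p y + c p y + b p y = c p y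
  rw [add_comm (b p y), add_assoc, CharTwo.add_self_eq_zero, add_zero]

/-- the class of a map to the sphere is a cocycle -/
theorem d_DstN_uhat {K m : ℕ} {P : Type} [TopologicalSpace P] [CompactSpace P] [T2Space P]
    (hm : 0 < m) {h : C(TT K P, T0.Sph m)} (hh : h ∞ = ∞) :
    Cc.d (DstN K (Cc.pull ((singMap h).comp (muT K P)) (uhat m))) = 0 := by
  obtain ⟨h1, h2, h3, h4⟩ := uhat_spec hm
  have hw : Vn (bdX (sing P) K) (Cc.pull ((singMap h).comp (muT K P)) (uhat m)) := by
    intro p z hz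
    refine h3 p _ fun t => ?_
    show h (smP K P (cxC z.2 t, toC z.1 t)) ≠ _
    have e3 : smP K P (cxC z.2 t, toC z.1 t) = ∞ := muT_infty K P hz t
    rw [e3, hh]
    exact OnePoint.infty_ne_coe _
  rw [← DstN_d hw, ← pull_d, h2, pull_zero, DstN_zero]

theorem isDeg_DstN_uhat {K d : ℕ} {P : Type} [TopologicalSpace P] [CompactSpace P] [T2Space P]
    (hm : 0 < d + K) (h : C(TT K P, T0.Sph (d + K))) :
    Cc.IsDeg d (DstN K (Cc.pull ((singMap h).comp (muT K P)) (uhat (d + K)))) :=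
  isDeg_DstN ((uhat_spec hm).1.pull _)

namespace Tub

variable {q i : ℕ} (D : Tub (q + q + (i + 1)) (i + 1))

/-- **Duality**: the intersection form of a framed manifold is nonsingular. -/
theorem nondeg [CompactSpace (Mfd D.F)] [T2Space (Mfd D.F)] (hq0 : 0 < q)
    (u : Cc (sing (Mfd D.F))) (hu : Cc.IsDeg q u) (du : Cc.d u = 0) (hne : ¬ ∃ a, u = Cc.d a) :
    ∃ (v : Cc (sing (Mfd D.F))) (hv : Cc.IsDeg q v) (dv : Cc.d v = 0),
      Int (P := Mfd D.F) (d := q + q) (i := i) ⟨D.c0, D.continuous_c0⟩ (isDeg_cup1 hv hu)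
        (d_cup1_zero dv du) ≠ 0 := by
  obtain ⟨T, hT, hH⟩ := D.exists_Th
  have hm : 0 < q + q + (i + 1) := by omega
  obtain ⟨ι, _, x, s, hs⟩ := kun_top' (X := Mfd D.F) (Y := Mfd D.F) (fun j _ => D.finC j)
    (isDeg_DstN_uhat hm T) (d_DstN_uhat hm hT)
  refine nondeg_mid (β := fun k => (x k).b) (α := fun k => (x k).a) (r := fun k => (x k).m)
    (p := fun k => (x k).n) (c := ⟨D.c0, D.continuous_c0⟩) hq0 (T := T) (Θ := D.Th T hT)
    (c₁ := D.cM) D.c0_infty hT (D.Th_infty hT) ?_ (fun z p => rfl) ?_ (fun k => (x k).hb)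
    (fun k => (x k).db) (fun k => (x k).ha) (fun k => (x k).da) (s₀ := s) ?_ u hu du hne
  · rintro z ⟨x, p⟩
    rw [smP_eq_prT, smP_eq_prT, D.Th_prT]
  · have h1 : D.jM = smP (q + q + (i + 1)) (Mfd D.F) := by
      apply ContinuousMap.ext
      rintro ⟨z, p⟩
      exact (smP_eq_prT z p).symm
    rw [← h1]
    exact hH.homotopic
  · exact cc_of_eq hs

end Tub

end Vale.Agent.P263.FR
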