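import Mathlib.Geometry.Manifold.SmoothApprox
import Mathlib.Topology.TietzeExtension
import Mathlib.Topology.Homotopy.Basic
import Vale.Agent.P263.FR.Trans1
import Vale.Agent.P263.FR.Trans2
import Vale.Agent.P263.FR.Tub

/-!
# P263, block F: the Pontryagin-Thom theorem

`exists_tub` : a based map `γ : Sᵐ → (ℝᴷ × P)⁺`, `P` compact, is homotopic to `Th.fmap l ∘ D.c` for a
framed manifold `D` and a map `l : Mfd D.F → P`.
-/

open OnePoint Topology Filter CategoryTheory

namespace Vale.Agent.P263.FR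

open Vale.Agent.P263.ST

section qn

variable {K : ℕ}

theorem qn_neg (v : Fin K → ℝ) : qn (-v) = qn v := by simp [qn]

theorem qn_add_le (v w : Fin K → ℝ) : qn (v + w) ≤ 2 * qn v + 2 * qn w := by
  simp only [qn, Finset.mul_sum, ← Finset.sum_add_distrib]
  apply Finset.sum_le_sum
  intro i _
  simp only [Pi.add_apply]
  nlinarith [sq_nonneg (v i - w i)]

theorem qn_le_norm (v : Fin K → ℝ) : qn v ≤ K * ‖v‖ ^ 2 := by
  have h1 : ∀ i, v i ^ 2 ≤ ‖v‖ ^ 2 := fun i => by
    have := norm_le_pi_norm v i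
    rw [Real.norm_eq_abs] at this
    rw [← sq_abs]
    exact pow_le_pow_left₀ (abs_nonneg _) this 2
  calc qn v ≤ ∑ _i : Fin K, ‖v‖ ^ 2 := Finset.sum_le_sum fun i _ => h1 i
    _ = K * ‖v‖ ^ 2 := by simp

theorem norm_sq_le_qn (v : Fin K → ℝ) : ‖v‖ ^ 2 ≤ qn v := by
  have h := norm_le_of_qn (v := v) (R := Real.sqrt (qn v)) (by rw [Real.sq_sqrt (qn_nonneg v)])
    (Real.sqrt_nonneg _)
  calc ‖v‖ ^ 2 ≤ (Real.sqrt (qn v)) ^ 2 := pow_le_pow_left₀ (norm_nonneg v) h 2
    _ = qn v := Real.sq_sqrt (qn_nonneg v)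

/-- the estimate at the boundary -/
theorem qn_far {a f : Fin K → ℝ} (ha : 1 ≤ qn a) (h : qn (f - a) ≤ 1 / 16) {τ : ℝ} (h0 : 0 ≤ τ)
    (h1 : τ ≤ 1) : 1 ≤ 4 * qn ((1 - τ) • a + τ • f) := by
  have h2 : a = ((1 - τ) • a + τ • f) + -(τ • (f - a)) := by module
  have h3 : qn a ≤ 2 * qn ((1 - τ) • a + τ • f) + 2 * qn (-(τ • (f - a))) :=
    (congrArg qn h2).le.trans (qn_add_le _ _)
  rw [qn_neg, qn_smul] at h3
  have h4 : τ ^ 2 * qn (f - a) ≤ 1 / 16 := by
    have : τ ^ 2 ≤ 1 := pow_le_one₀ h0 h1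
    nlinarith [qn_nonneg (f - a), sq_nonneg τ]
  linarith

end qn

section homotopy

variable {m K : ℕ} {P : Type} [TopologicalSpace P]

theorem homotopicRel_pairS {A : unitInterval × OnePoint (Fin m → ℝ) → OnePoint (Fin K → ℝ)}
    (hA : Continuous A) {S : Set (unitInterval × OnePoint (Fin m → ℝ))}
    (hS : ∀ q, A q ≠ ∞ → q ∈ S) {p : S → P} (hp : Continuous p) (hi : ∀ t, A (t, ∞) = ∞)
    {g₀ g₁ : C(OnePoint (Fin m → ℝ), OnePoint ((Fin K → ℝ) × P))}
    (h0 : ∀ z, pairS A S p (0, z) = g₀ z) (h1 : ∀ z, pairS A S p (1, z) = g₁ z) :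
    g₀.HomotopicRel g₁ {∞} :=
  ⟨{ toFun := pairS A S p
     continuous_toFun := continuous_pairS hA hS hp
     map_zero_left := h0
     map_one_left := h1
     prop' := by
      rintro t z rfl
      show pairS A S p (t, ∞) = g₀ ∞
      rw [← h0 ∞, pairS_infty (hi t), pairS_infty (hi 0)] }⟩

end homotopy

/-! ### The decomposition of a map to `(ℝᴷ × P)⁺` -/

section decomp

variable {Z : Type} [TopologicalSpace Z] {K : ℕ} {P : Type} [TopologicalSpace P]

/-- the first component -/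
def fstT (w : OnePoint ((Fin K → ℝ) × P)) : OnePoint (Fin K → ℝ) :=
  OnePoint.map (fun x : (Fin K → ℝ) × P => x.1) w

theorem continuous_fstT [CompactSpace P] :
    Continuous (fstT : OnePoint ((Fin K → ℝ) × P) → OnePoint (Fin K → ℝ)) := by
  rw [continuous_iff_continuousAt]
  intro w
  induction w using OnePoint.rec with
  | infty =>
    show Tendsto _ _ (𝓝 ∞)
    apply tendsto_inftyS
    intro R
    have hc : IsCompact {x : (Fin K → ℝ) × P | qn x.1 ≤ R} := by
      have : {x : (Fin K → ℝ) × P | qn x.1 ≤ R} = {v | qn v ≤ R} ×ˢ Set.univ := by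
        ext x
        simp
      rw [this]
      exact (isCompact_qn R).prod isCompact_univ
    have hcl : IsClosed {x : (Fin K → ℝ) × P | qn x.1 ≤ R} :=
      isClosed_le (continuous_qn.comp continuous_fst) continuous_const
    have h1 : (((↑) '' {x : (Fin K → ℝ) × P | qn x.1 ≤ R})ᶜ : Set (OnePoint ((Fin K → ℝ) × P))) ∈
        𝓝 ∞ := (OnePoint.isClosed_image_coe.2 ⟨hcl, hc⟩).isOpen_compl.mem_nhds
          OnePoint.infty_notMem_image_coe
    filter_upwards [h1] with w hw v hv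
    induction w using OnePoint.rec with
    | infty => exact absurd hv (OnePoint.infty_ne_coe v)
    | coe x =>
      have hv' : x.1 = v := OnePoint.coe_injective hv
      by_contra hlt
      refine hw ⟨x, ?_, rfl⟩
      show qn x.1 ≤ R
      rw [hv']
      exact not_lt.1 hlt
  | coe x =>
    rw [OnePoint.continuousAt_coe]
    exact (OnePoint.continuous_coe.comp continuous_fst).continuousAt

/-- the second component, on the points with finite value -/
noncomputable def sndT (g : Z → OnePoint ((Fin K → ℝ) × P)) (z : {z | g z ≠ ∞}) : P :=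
  (Classical.choose (OnePoint.ne_infty_iff_exists.1 z.2)).2

omit [TopologicalSpace Z] [TopologicalSpace P] in
theorem exists_coe_sndT (g : Z → OnePoint ((Fin K → ℝ) × P)) (z : {z | g z ≠ ∞}) :
    ∃ v : Fin K → ℝ, g z.1 = ((v, sndT g z) : (Fin K → ℝ) × P) :=
  ⟨(Classical.choose (OnePoint.ne_infty_iff_exists.1 z.2)).1,
    (Classical.choose_spec (OnePoint.ne_infty_iff_exists.1 z.2)).symm⟩

omit [TopologicalSpace Z] [TopologicalSpace P] in
theorem prT_sndT (g : Z → OnePoint ((Fin K → ℝ) × P)) (z : {z | g z ≠ ∞}) :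
    prT (fstT (g z.1)) (sndT g z) = g z.1 := by
  obtain ⟨v, hv⟩ := exists_coe_sndT g z
  rw [hv]
  rfl

theorem continuous_sndT {g : Z → OnePoint ((Fin K → ℝ) × P)} (hg : Continuous g) :
    Continuous (sndT g) := by
  have h1 : Continuous fun z : {z | g z ≠ ∞} =>
      Classical.choose (OnePoint.ne_infty_iff_exists.1 z.2) := by
    rw [(OnePoint.isOpenEmbedding_coe (X := (Fin K → ℝ) × P)).isInducing.continuous_iff]
    refine (hg.comp continuous_subtype_val).congr fun z => ?_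
    exact (Classical.choose_spec (OnePoint.ne_infty_iff_exists.1 z.2)).symm
  exact continuous_snd.comp h1

omit [TopologicalSpace P] in
theorem fstT_eq_infty {w : OnePoint ((Fin K → ℝ) × P)} : fstT w = ∞ ↔ w = ∞ := by
  induction w using OnePoint.rec with
  | infty => exact ⟨fun _ => rfl, fun _ => rfl⟩
  | coe x => exact ⟨fun h => absurd h (OnePoint.coe_ne_infty _),
      fun h => absurd h (OnePoint.coe_ne_infty _)⟩

end decomp

/-! ### The perturbation -/

section pert

variable {m K : ℕ}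

theorem contDiff_pert {f : (Fin m → ℝ) → (Fin K → ℝ)} {k : WithTop ℕ∞} (hf : ContDiff ℝ k f)
    (b : Fin K → ℝ) (B : Fin K → Fin m → ℝ) : ContDiff ℝ k (pert f b B) := by
  rw [contDiff_pi]
  intro i
  show ContDiff ℝ k fun x => f x i + b i + ∑ k, B i k * x k
  exact ((contDiff_pi.1 hf i).add contDiff_const).add
    (ContDiff.sum fun j _ => contDiff_const.mul (contDiff_apply ℝ ℝ j))

theorem norm_pert_sub_le (f : (Fin m → ℝ) → (Fin K → ℝ)) (b : Fin K → ℝ)
    (B : Fin K → Fin m → ℝ) (x : Fin m → ℝ) :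
    ‖pert f b B x - f x‖ ≤ ‖b‖ + m * (‖B‖ * ‖x‖) := by
  rw [pi_norm_le_iff_of_nonneg (by positivity)]
  intro i
  show ‖f x i + b i + ∑ k, B i k * x k - f x i‖ ≤ _
  have h1 : f x i + b i + ∑ k, B i k * x k - f x i = b i + ∑ k, B i k * x k := by ring
  rw [h1]
  refine (norm_add_le _ _).trans (add_le_add (norm_le_pi_norm b i) ?_)
  refine (norm_sum_le _ _).trans ?_
  refine (Finset.sum_le_sum fun k _ => (show ‖B i k * x k‖ ≤ ‖B‖ * ‖x‖ from ?_)).trans ?_
  · rw [norm_mul]
    exact mul_le_mul ((norm_le_pi_norm (B i) k).trans (norm_le_pi_norm B i))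
      (norm_le_pi_norm x k) (norm_nonneg _) (norm_nonneg _)
  · simp

/-- **the regular smooth approximation** of a continuous map on a compact set -/
theorem exists_approx {C : Set (Fin m → ℝ)} (hC : IsCompact C) {a : (Fin m → ℝ) → (Fin K → ℝ)}
    (ha : ContinuousOn a C) {ε : ℝ} (hε : 0 < ε) :
    ∃ f : (Fin m → ℝ) → (Fin K → ℝ), ContDiff ℝ ((⊤ : ℕ∞) : WithTop ℕ∞) f ∧
      (∀ x ∈ C, ‖f x - a x‖ ≤ ε) ∧ ∀ x, f x = 0 → Function.Surjective (fderiv ℝ f x) := by
  obtain ⟨R, hR⟩ := hC.isBounded.exists_norm_le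
  obtain ⟨θ, hθ⟩ := ContinuousMap.exists_restrict_eq hC.isClosed
    (⟨C.domRestrict a, continuousOn_iff_continuous_domRestrict.1 ha⟩ : C(C, Fin K → ℝ))
  have hθ' : ∀ x ∈ C, θ x = a x := fun x hx => by
    have := DFunLike.congr_fun hθ ⟨x, hx⟩
    exact this
  obtain ⟨f₁, h1, h2, -⟩ := Continuous.exists_contDiff_approx (⊤ : ℕ∞) θ.continuous
    (continuous_const (y := ε / 2)) (fun _ => by linarith)
  have hR' : 0 ≤ |R| := abs_nonneg R
  set ε' : ℝ := ε / 2 / (1 + m * |R|) with hε'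
  have hε'0 : 0 < ε' := by positivity
  obtain ⟨b, B, hb, hB, h3⟩ := exists_regular (h1.of_le
    (WithTop.coe_le_coe.2 (le_top : (2 : ℕ∞) ≤ ⊤))) hε'0
  refine ⟨pert f₁ b B, contDiff_pert h1 b B, fun x hx => ?_, h3⟩
  have h4 : ‖pert f₁ b B x - f₁ x‖ ≤ ε / 2 := by
    refine (norm_pert_sub_le f₁ b B x).trans ?_
    have h5 : ‖x‖ ≤ |R| := (hR x hx).trans (le_abs_self R)
    have h6 : ‖B‖ * ‖x‖ ≤ ε' * |R| := mul_le_mul hB.le h5 (norm_nonneg _) hε'0.le
    have h7 : (m : ℝ) * (‖B‖ * ‖x‖) ≤ m * (ε' * |R|) :=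
      mul_le_mul_of_nonneg_left h6 (Nat.cast_nonneg m)
    have h8 : ε' + m * (ε' * |R|) = ε / 2 := by
      rw [hε']
      field_simp
    linarith
  have h5 : ‖f₁ x - a x‖ ≤ ε / 2 := by
    rw [← hθ' x hx, ← dist_eq_norm]
    exact (h2 x).le
  calc ‖pert f₁ b B x - a x‖ = ‖(pert f₁ b B x - f₁ x) + (f₁ x - a x)‖ := by abel_nf
    _ ≤ ‖pert f₁ b B x - f₁ x‖ + ‖f₁ x - a x‖ := norm_add_le _ _
    _ ≤ ε := by linarith

end pert

/-! ### The theorem -/

section main

variable {m K : ℕ} {P : Type} [TopologicalSpace P]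

theorem map_pairS {Z N N' : Type} (l : N → N') (A : Z → OnePoint (Fin K → ℝ)) (S : Set Z)
    (p : S → N) (z : Z) :
    OnePoint.map (fun x : (Fin K → ℝ) × N => (x.1, l x.2)) (pairS A S p z) =
      pairS A S (l ∘ p) z := by
  by_cases hz : z ∈ S
  · rw [pairS_of_mem hz, pairS_of_mem hz]
    generalize A z = w
    induction w using OnePoint.rec <;> rfl
  · rw [pairS_of_notMem hz, pairS_of_notMem hz]
    rfl

/-- the map `z ↦ (F z, l (ρ z))` -/
noncomputable def Tub.lc (D : Tub m K) (l : C(Mfd D.F, P)) :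
    C(OnePoint (Fin m → ℝ), OnePoint ((Fin K → ℝ) × P)) :=
  ⟨pairS D.F0 {z | D.F0 z ≠ ∞} (l ∘ D.ret),
    continuous_pairS D.continuous_F0 (fun _ h => h) (l.continuous.comp D.continuous_ret)⟩

theorem Tub.lc_apply (D : Tub m K) (l : C(Mfd D.F, P)) (z : OnePoint (Fin m → ℝ)) :
    D.lc l z = Th.fmap (X := Mfd D.F) (Y := TopCat.of P) l (D.c0 z) :=
  (map_pairS l _ _ _ z).symm

@[simp] theorem Tub.lc_infty (D : Tub m K) (l : C(Mfd D.F, P)) : D.lc l ∞ = ∞ :=
  pairS_infty D.F0_infty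

/-- **The Pontryagin-Thom theorem** -/
theorem exists_tub [CompactSpace P] (γ : C(OnePoint (Fin m → ℝ), OnePoint ((Fin K → ℝ) × P)))
    (hγ : γ ∞ = ∞) : ∃ (D : Tub m K) (l : C(Mfd D.F, P)), γ.HomotopicRel (D.lc l) {∞} := by
  -- the components
  let A : OnePoint (Fin m → ℝ) → OnePoint (Fin K → ℝ) := fun z => fstT (γ z)
  have hA : Continuous A := continuous_fstT.comp γ.continuous
  have hAi : A ∞ = ∞ := by
    show fstT (γ ∞) = ∞
    rw [hγ]
    rfl
  have hAne : ∀ z, A z ≠ ∞ → γ z ≠ ∞ := fun z h h' => h (by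
    show fstT (γ z) = ∞
    rw [h']
    rfl)
  let lt : {z | γ z ≠ ∞} → P := sndT γ
  have hlt : Continuous lt := continuous_sndT γ.continuous
  let a : (Fin m → ℝ) → (Fin K → ℝ) := fun x => crd (A x)
  have haA : ∀ x : Fin m → ℝ, A x ≠ ∞ → A x = ((a x : Fin K → ℝ) : OnePoint (Fin K → ℝ)) := by
    intro x hx
    show A x = (crd (A x) : Fin K → ℝ)
    revert hx
    generalize A x = w
    intro hx
    induction w using OnePoint.rec with
    | infty => exact absurd rfl hx
    | coe v => rfl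
  have hO : IsOpen {x : Fin m → ℝ | A x ≠ ∞} :=
    isOpen_ne.preimage (hA.comp OnePoint.continuous_coe)
  have hac : ContinuousOn a {x : Fin m → ℝ | A x ≠ ∞} := fun x hx =>
    (ContinuousAt.comp (g := crd) (f := fun x : Fin m → ℝ => A x) (continuousAt_crd hx)
      (hA.comp OnePoint.continuous_coe).continuousAt).continuousWithinAt
  let C : Set (Fin m → ℝ) := {x | A x ≠ ∞ ∧ qn (a x) ≤ 1}
  let U : Set (Fin m → ℝ) := {x | A x ≠ ∞ ∧ qn (a x) < 1}
  have hUC : U ⊆ C := fun x hx => ⟨hx.1, hx.2.le⟩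
  have hU : IsOpen U := by
    have := hac.isOpen_inter_preimage hO (isOpen_lt (continuous_qn (K := K))
      (continuous_const (y := (1 : ℝ))))
    exact this
  have hCimg : IsClosed ((↑) '' C : Set (OnePoint (Fin m → ℝ))) := by
    have h1 : ((↑) '' C : Set (OnePoint (Fin m → ℝ))) =
        A ⁻¹' ((↑) '' {v : Fin K → ℝ | qn v ≤ 1}) := by
      ext z
      constructor
      · rintro ⟨x, hx, rfl⟩
        exact ⟨a x, hx.2, (haA x hx.1).symm⟩
      · rintro ⟨v, hv, hvz⟩
        induction z using OnePoint.rec with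
        | infty =>
          rw [hAi] at hvz
          exact absurd hvz (OnePoint.coe_ne_infty v)
        | coe x =>
          have hne : A x ≠ ∞ := by rw [← hvz]; exact OnePoint.coe_ne_infty v
          refine ⟨x, ⟨hne, ?_⟩, rfl⟩
          have h2 : v = a x := OnePoint.coe_injective (hvz.trans (haA x hne))
          rw [← h2]
          exact hv
    rw [h1]
    exact (OnePoint.isClosed_image_coe.2 ⟨isClosed_le continuous_qn continuous_const,
      isCompact_qn 1⟩).preimage hA
  obtain ⟨hCc, hC⟩ := OnePoint.isClosed_image_coe.1 hCimg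
  have haC : ContinuousOn a C := hac.mono fun x hx => hx.1
  -- the approximation
  obtain ⟨f, hf, hfa, hreg⟩ := exists_approx hC haC (ε := 1 / (4 * (K + 1))) (by positivity)
  have hfa' : ∀ x ∈ C, qn (f x - a x) ≤ 1 / 16 := fun x hx => by
    refine (qn_le_norm _).trans ?_
    have h1 := hfa x hx
    have h2 : ‖f x - a x‖ ^ 2 ≤ (1 / (4 * (K + 1))) ^ 2 :=
      pow_le_pow_left₀ (norm_nonneg _) h1 2
    calc (K : ℝ) * ‖f x - a x‖ ^ 2 ≤ K * (1 / (4 * (K + 1))) ^ 2 :=
          mul_le_mul_of_nonneg_left h2 (Nat.cast_nonneg K)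
      _ ≤ 1 / 16 := by
          have hK : (0 : ℝ) ≤ K := Nat.cast_nonneg K
          rw [div_pow, one_pow, mul_one_div, div_le_div_iff₀ (by positivity) (by norm_num)]
          nlinarith
  have hfar : ∀ x ∈ C, x ∉ U → ∀ τ : ℝ, 0 ≤ τ → τ ≤ 1 →
      1 ≤ 4 * qn ((1 - τ) • a x + τ • f x) := by
    intro x hx hxU τ h0 h1
    refine qn_far ?_ (hfa' x hx) h0 h1
    by_contra hlt
    exact hxU ⟨hx.1, not_le.1 hlt⟩
  have hfar1 : ∀ x ∈ C, x ∉ U → 1 ≤ 4 * qn (f x) := by
    intro x hx hxU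
    have := hfar x hx hxU 1 zero_le_one le_rfl
    simpa using this
  have hz : ∀ x ∈ C, f x = 0 → x ∈ U := by
    intro x hx h0
    by_contra hxU
    have := hfar1 x hx hxU
    rw [h0, qn_zero] at this
    linarith
  obtain ⟨δ, hδ, ρ, hρc, hρ, hρi, L, hL⟩ := exists_retraction (hf.of_le
    (WithTop.coe_le_coe.2 (le_top : (1 : ℕ∞) ≤ ⊤))) hU hC hUC hz (fun x _ h0 => hreg x h0) hU
    (fun x hx _ => hx)
  let s : ℝ := max 4 (1 / δ ^ 2)
  have hs4 : 4 ≤ s := le_max_left _ _
  have hs : 0 < s := by linarith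
  have hsδ : ∀ x : Fin m → ℝ, s * qn (f x) ≤ 1 → ‖f x‖ ≤ δ := by
    intro x hx
    have h1 : 1 / δ ^ 2 * qn (f x) ≤ 1 :=
      (mul_le_mul_of_nonneg_right (le_max_right _ _) (qn_nonneg _)).trans hx
    have h2 : qn (f x) ≤ δ ^ 2 := by
      rw [one_div, inv_mul_le_iff₀ (by positivity), mul_one] at h1
      exact h1
    exact norm_le_of_qn h2 hδ.le
  let D : Tub m K :=
    { f := f, smooth := hf, C := C, U := U, isOpen_U := hU, isCompact_C := hC, subset := hUC
      s := s, s_pos := hs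
      far := fun x hx hxU => (hfar1 x hx hxU).trans
        (mul_le_mul_of_nonneg_right hs4 (qn_nonneg _))
      surj := fun x _ h0 => hreg x h0
      ρ := ρ
      ρ_cont := hρc.mono fun x hx => ⟨hx.1, hsδ x hx.2⟩
      ρ_mem := fun x hx h => ⟨hUC (hρ x hx (hsδ x h)).1, (hρ x hx (hsδ x h)).2.1⟩
      ρ_seg := fun x hx h => (hρ x hx (hsδ x h)).2.2
      ρ_id := fun x hx h0 => hρi x (hz x hx h0) h0
      L := L
      ρ_near := fun x hx h => hL x hx (hsδ x h) }
  have hCS : ∀ x ∈ C, γ x ≠ ∞ := fun x hx => hAne x hx.1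
  let l : C(Mfd D.F, P) :=
    ⟨fun v => lt ⟨(v.1 : OnePoint (Fin m → ℝ)), hCS v.1 (D.mem_Mfd v).1⟩, by
      refine hlt.comp (Continuous.subtype_mk ?_ _)
      exact OnePoint.continuous_coe.comp continuous_subtype_val⟩
  refine ⟨D, l, ?_⟩
  -- the homotopies
  let S1 : Set (unitInterval × OnePoint (Fin m → ℝ)) := {q | γ q.2 ≠ ∞}
  let p1 : S1 → P := fun q => lt ⟨q.1.2, q.2⟩
  have hp1 : Continuous p1 :=
    hlt.comp (Continuous.subtype_mk (continuous_snd.comp continuous_subtype_val) _)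
  let A1 : unitInterval × OnePoint (Fin m → ℝ) → OnePoint (Fin K → ℝ) := fun q =>
    Psi (4 * (q.1 : ℝ)) (A q.2)
  have hA1 : Continuous A1 := by
    rw [← continuousOn_univ]
    refine ContinuousOn.psi ?_ ?_ fun q _ => ?_
    · exact (continuous_const.mul (continuous_subtype_val.comp continuous_fst)).continuousOn
    · exact (hA.comp continuous_snd).continuousOn
    · have := q.1.2.1
      positivity
  let A2 : unitInterval × OnePoint (Fin m → ℝ) → OnePoint (Fin K → ℝ) :=
    extC C fun q : unitInterval × (Fin m → ℝ) =>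
      Psi 4 (((1 - (q.1 : ℝ)) • a q.2 + (q.1 : ℝ) • f q.2 : Fin K → ℝ) : OnePoint (Fin K → ℝ))
  have hA2 : Continuous A2 := by
    refine continuous_extC hC hCc hU hUC ?_ ?_
    · refine ContinuousOn.psi continuousOn_const ?_ fun _ _ => by norm_num
      refine OnePoint.continuous_coe.comp_continuousOn ?_
      have h1 : ContinuousOn (fun q : unitInterval × (Fin m → ℝ) => a q.2) (Set.univ ×ˢ C) :=
        haC.comp continuousOn_snd fun q hq => hq.2
      have h2 : Continuous fun q : unitInterval × (Fin m → ℝ) => (q.1 : ℝ) :=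
        continuous_subtype_val.comp continuous_fst
      exact (((continuous_const.sub h2).continuousOn).smul h1).add
        (h2.smul (hf.continuous.comp continuous_snd)).continuousOn
    · intro t x hx hxU
      exact Psi_of_le (hfar x hx hxU t t.2.1 t.2.2)
  let A3 : unitInterval × OnePoint (Fin m → ℝ) → OnePoint (Fin K → ℝ) :=
    extC C fun q : unitInterval × (Fin m → ℝ) =>
      Psi (4 + (q.1 : ℝ) * (s - 4)) ((f q.2 : Fin K → ℝ) : OnePoint (Fin K → ℝ))
  have hs3 : ∀ t : unitInterval, 4 ≤ 4 + (t : ℝ) * (s - 4) := fun t => by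
    have := mul_nonneg t.2.1 (sub_nonneg.2 hs4)
    linarith
  have hA3 : Continuous A3 := by
    refine continuous_extC hC hCc hU hUC ?_ ?_
    · refine ContinuousOn.psi ?_ ?_ fun q _ => by linarith [hs3 q.1]
      · exact (continuous_const.add ((continuous_subtype_val.comp continuous_fst).mul
          continuous_const)).continuousOn
      · exact (OnePoint.continuous_coe.comp (hf.continuous.comp continuous_snd)).continuousOn
    · intro t x hx hxU
      exact Psi_of_le ((hfar1 x hx hxU).trans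
        (mul_le_mul_of_nonneg_right (hs3 t) (qn_nonneg _)))
  have hS1 : ∀ q, A1 q ≠ ∞ → q ∈ S1 := fun q hq h => hq (by
    show Psi (4 * (q.1 : ℝ)) (fstT (γ q.2)) = ∞
    rw [h]
    rfl)
  have hS2 : ∀ q, A2 q ≠ ∞ → q ∈ S1 := by
    rintro ⟨t, z⟩ hq
    obtain ⟨x, rfl, hx, -⟩ := extC_ne hq
    exact hCS x hx
  have hS3 : ∀ q, A3 q ≠ ∞ → q ∈ S1 := by
    rintro ⟨t, z⟩ hq
    obtain ⟨x, rfl, hx, -⟩ := extC_ne hq
    exact hCS x hx
  have e12 : ∀ z, A2 (0, z) = A1 (1, z) := by
    intro z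
    show extC C _ (0, z) = Psi (4 * ((1 : unitInterval) : ℝ)) (A z)
    rw [Set.Icc.coe_one, mul_one]
    induction z using OnePoint.rec with
    | infty => rw [hAi]; rfl
    | coe x =>
      by_cases hx : x ∈ C
      · rw [extC_of_mem hx, haA x hx.1]
        show Psi 4 ((((1 - ((0 : unitInterval) : ℝ)) • a x + ((0 : unitInterval) : ℝ) • f x :
          Fin K → ℝ)) : OnePoint (Fin K → ℝ)) = _
        rw [Set.Icc.coe_zero, sub_zero, one_smul, zero_smul, add_zero]
      · rw [extC_of_notMem hx]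
        by_cases h : A x = ∞
        · rw [h]; rfl
        · rw [haA x h]
          refine (Psi_of_le ?_).symm
          have : ¬ qn (a x) ≤ 1 := fun h' => hx ⟨h, h'⟩
          linarith [not_le.1 this]
  have e23 : ∀ z, A3 (0, z) = A2 (1, z) := by
    intro z
    show extC C _ (0, z) = extC C _ (1, z)
    induction z using OnePoint.rec with
    | infty => rfl
    | coe x =>
      by_cases hx : x ∈ C
      · rw [extC_of_mem hx, extC_of_mem hx]
        show Psi (4 + ((0 : unitInterval) : ℝ) * (s - 4)) _ = Psi 4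
          ((((1 - ((1 : unitInterval) : ℝ)) • a x + ((1 : unitInterval) : ℝ) • f x :
          Fin K → ℝ)) : OnePoint (Fin K → ℝ))
        rw [Set.Icc.coe_zero, Set.Icc.coe_one, sub_self, zero_smul, one_smul, zero_add,
          zero_mul, add_zero]
      · rw [extC_of_notMem hx, extC_of_notMem hx]
  have e34 : ∀ z, D.F0 z = A3 (1, z) := by
    intro z
    show extC C _ ((), z) = extC C _ (1, z)
    induction z using OnePoint.rec with
    | infty => rfl
    | coe x =>
      by_cases hx : x ∈ C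
      · rw [extC_of_mem hx, extC_of_mem hx]
        show Psi s _ = Psi (4 + ((1 : unitInterval) : ℝ) * (s - 4)) _
        rw [Set.Icc.coe_one, one_mul, add_sub_cancel]
      · rw [extC_of_notMem hx, extC_of_notMem hx]
  have hend : Continuous fun z : OnePoint (Fin m → ℝ) => ((1 : unitInterval), z) :=
    Continuous.prodMk_right 1
  let g1 : C(OnePoint (Fin m → ℝ), OnePoint ((Fin K → ℝ) × P)) :=
    ⟨fun z => pairS A1 S1 p1 (1, z), (continuous_pairS hA1 hS1 hp1).comp hend⟩
  let g2 : C(OnePoint (Fin m → ℝ), OnePoint ((Fin K → ℝ) × P)) :=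
    ⟨fun z => pairS A2 S1 p1 (1, z), (continuous_pairS hA2 hS2 hp1).comp hend⟩
  let g3 : C(OnePoint (Fin m → ℝ), OnePoint ((Fin K → ℝ) × P)) :=
    ⟨fun z => pairS A3 S1 p1 (1, z), (continuous_pairS hA3 hS3 hp1).comp hend⟩
  have hcongr : ∀ (B B' : unitInterval × OnePoint (Fin m → ℝ) → OnePoint (Fin K → ℝ))
      (t t' : unitInterval) (z : OnePoint (Fin m → ℝ)), B (t, z) = B' (t', z) →
      pairS B S1 p1 (t, z) = pairS B' S1 p1 (t', z) := by
    intro B B' t t' z h
    by_cases hz : γ z ≠ ∞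
    · rw [pairS_of_mem (show (t, z) ∈ S1 from hz), pairS_of_mem (show (t', z) ∈ S1 from hz), h]
    · rw [pairS_of_notMem (show (t, z) ∉ S1 from hz), pairS_of_notMem (show (t', z) ∉ S1 from hz)]
  have H1 : γ.HomotopicRel g1 {∞} := by
    refine homotopicRel_pairS hA1 hS1 hp1 (fun t => ?_) (fun z => ?_) fun z => rfl
    · show Psi _ (A ∞) = ∞
      rw [hAi]; rfl
    · by_cases hz : γ z ≠ ∞
      · rw [pairS_of_mem (show ((0 : unitInterval), z) ∈ S1 from hz)]
        show prT (Psi (4 * ((0 : unitInterval) : ℝ)) (A z)) (lt ⟨z, hz⟩) = γ z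
        rw [Set.Icc.coe_zero, mul_zero, Psi_zero]
        exact prT_sndT γ ⟨z, hz⟩
      · rw [pairS_of_notMem (show ((0 : unitInterval), z) ∉ S1 from hz)]
        exact (not_not.1 hz).symm
  have H2 : g1.HomotopicRel g2 {∞} :=
    homotopicRel_pairS hA2 hS2 hp1 (fun t => extC_infty _ _ _)
      (fun z => hcongr A2 A1 0 1 z (e12 z)) fun z => rfl
  have H3 : g2.HomotopicRel g3 {∞} :=
    homotopicRel_pairS hA3 hS3 hp1 (fun t => extC_infty _ _ _)
      (fun z => hcongr A3 A2 0 1 z (e23 z)) fun z => rfl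
  let S4 : Set (unitInterval × OnePoint (Fin m → ℝ)) := {q | D.F0 q.2 ≠ ∞}
  have hseg : ∀ q ∈ S4, (1 - (q.1 : ℝ)) • crd q.2 + (q.1 : ℝ) • ρ (crd q.2) ∈ U := by
    rintro ⟨t, z⟩ hq
    obtain ⟨x, rfl, hx, h1⟩ := D.F0_ne hq
    refine D.ρ_seg x hx h1.le ?_
    exact ⟨1 - (t : ℝ), t, sub_nonneg.2 t.2.2, t.2.1, sub_add_cancel _ _, rfl⟩
  let p4 : S4 → P := fun q => lt ⟨(((1 - (q.1.1 : ℝ)) • crd q.1.2 + (q.1.1 : ℝ) • ρ (crd q.1.2) :
    Fin m → ℝ) : OnePoint (Fin m → ℝ)), hCS _ (hUC (hseg q.1 q.2))⟩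
  have hp4 : Continuous p4 := by
    refine hlt.comp (Continuous.subtype_mk (OnePoint.continuous_coe.comp ?_) _)
    have h1 : Continuous fun q : S4 => crd q.1.2 := by
      rw [continuous_iff_continuousAt]
      intro q
      obtain ⟨x, hx, -, -⟩ := D.F0_ne q.2
      exact ContinuousAt.comp (g := crd) (f := fun q : S4 => q.1.2)
        (continuousAt_crd (by rw [hx]; exact OnePoint.coe_ne_infty _))
        (continuous_snd.comp continuous_subtype_val).continuousAt
    have h2 : Continuous fun q : S4 => ρ (crd q.1.2) := by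
      refine D.ρ_cont.comp_continuous h1 fun q => ?_
      obtain ⟨x, hx, hC, h1⟩ := D.F0_ne q.2
      rw [hx]
      exact ⟨hC, h1.le⟩
    have h3 : Continuous fun q : S4 => ((q.1.1 : ℝ)) :=
      continuous_subtype_val.comp (continuous_fst.comp continuous_subtype_val)
    exact ((continuous_const.sub h3).smul h1).add (h3.smul h2)
  have H4 : g3.HomotopicRel (D.lc l) {∞} := by
    refine homotopicRel_pairS (A := fun q => D.F0 q.2) (D.continuous_F0.comp continuous_snd)
      (S := S4) (fun q hq => hq) hp4 (fun t => D.F0_infty) (fun z => ?_) fun z => ?_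
    · show pairS _ S4 p4 (0, z) = pairS A3 S1 p1 (1, z)
      by_cases hz : D.F0 z ≠ ∞
      · obtain ⟨x, rfl, hx, h1⟩ := D.F0_ne hz
        rw [pairS_of_mem (show ((0 : unitInterval), ((x : Fin m → ℝ) : OnePoint (Fin m → ℝ))) ∈ S4
          from hz), pairS_of_mem (show ((1 : unitInterval), ((x : Fin m → ℝ) :
            OnePoint (Fin m → ℝ))) ∈ S1 from hCS x hx), ← e34]
        show prT _ (lt _) = prT _ (lt _)
        congr 2
        apply Subtype.ext
        show (((1 - ((0 : unitInterval) : ℝ)) • x + ((0 : unitInterval) : ℝ) • ρ x :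
          Fin m → ℝ) : OnePoint (Fin m → ℝ)) = x
        rw [Set.Icc.coe_zero, sub_zero, one_smul, zero_smul, add_zero]
      · rw [pairS_of_notMem (show ((0 : unitInterval), z) ∉ S4 from hz)]
        refine (pairS_infty ?_).symm
        rw [← e34]
        exact not_not.1 hz
    · show pairS _ S4 p4 (1, z) = pairS D.F0 {z | D.F0 z ≠ ∞} (l ∘ D.ret) z
      by_cases hz : D.F0 z ≠ ∞
      · rw [pairS_of_mem (show ((1 : unitInterval), z) ∈ S4 from hz),
          pairS_of_mem (show z ∈ {z | D.F0 z ≠ ∞} from hz)]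
        show prT _ (lt _) = prT _ (lt _)
        congr 2
        apply Subtype.ext
        show (((1 - ((1 : unitInterval) : ℝ)) • crd z + ((1 : unitInterval) : ℝ) • ρ (crd z) :
          Fin m → ℝ) : OnePoint (Fin m → ℝ)) = ((ρ (crd z) : Fin m → ℝ) : OnePoint (Fin m → ℝ))
        rw [Set.Icc.coe_one, sub_self, zero_smul, one_smul, zero_add]
      · rw [pairS_of_notMem (show ((1 : unitInterval), z) ∉ S4 from hz),
          pairS_of_notMem (show z ∉ {z | D.F0 z ≠ ∞} from hz)]
  exact ((H1.trans H2).trans H3).trans H4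

end main

end Vale.Agent.P263.FR
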