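import Vale.Agent.P263.FR.Loc
import Vale.Agent.P263.KJ.Lam
import Vale.Agent.P251.G.ThMap
import Mathlib.Analysis.SpecialFunctions.Trigonometric.Basic

/-!
# P263, block G of the framed version: the Kahn-Priddy map and the squaring map

`V` a finite-dimensional real inner product space, `p` a rank one orthogonal projection of `V`.

* `homotopic_of_germ` : two morphisms to `E⁺` are homotopic if they are connected near the zeros
  by a homotopy of maps to `E` without further zeros;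
* `SB p z t = (z - p z + 2 t p z, t² - ⟨z, p z⟩)`;
* `lam_homotopic` : `λ ∧ id : ((P × V) × ℝ)⁺ → (V × ℝ)⁺` is homotopic to
  `((p, z), t) ↦ SB p z t - (0, c)`, `0 ≤ c ≤ 1`.
-/

open CategoryTheory MonoidalCategory Filter Topology OnePoint InnerProductSpace RealInnerProductSpace

namespace Vale.Agent.P263.FR

open Vale.Agent.P251.G Vale.Agent.P251.G.LC Vale.Agent.P263.KJ

section germ

variable {X : LC} {E : Type} [NormedAddCommGroup E] [NormedSpace ℝ E] [FiniteDimensional ℝ E]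

/-- **Homotopy of germs in `LC`.** -/
theorem homotopic_of_germ {f g : X ⟶ LC.of E} {K U : Set X} (hK : IsCompact K) (hU : IsOpen U)
    (hUK : U ⊆ K) {h₀ h₁ : C(K, E)}
    (hh : h₀.HomotopicWith h₁ fun h => ∀ x, h x = 0 → (x : X) ∈ U)
    (h0 : ∀ x : K, app f ((x : X) : OnePoint X) = (h₀ x : OnePoint E))
    (h1 : ∀ x : K, app g ((x : X) : OnePoint X) = (h₁ x : OnePoint E))
    (hf : ∀ x : X, app f (x : OnePoint X) = ((0 : E) : OnePoint E) → x ∈ U)
    (hg : ∀ x : X, app g (x : OnePoint X) = ((0 : E) : OnePoint E) → x ∈ U) : Homotopic f g := by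
  classical
  obtain ⟨F⟩ := hh
  rw [homotopic_iff]
  let e : OnePoint X → Option K := fun y => y.elim none fun x =>
    if h : x ∈ K then Option.some ⟨x, h⟩ else none
  have he : ∀ x : K, e ((x : X) : OnePoint X) = Option.some x := fun x => dif_pos x.2
  let H : unitInterval × OnePoint X → E := fun q => (e q.2).elim 0 fun x => F (q.1, x)
  have hH0 : ∀ (τ : unitInterval) (x : K), H (τ, ((x : X) : OnePoint X)) = F (τ, x) := by
    intro τ x
    show (e ((x : X) : OnePoint X)).elim 0 _ = _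
    rw [he]
    rfl
  have : CompactSpace K := isCompact_iff_compactSpace.1 hK
  let j : unitInterval × K → unitInterval × OnePoint X := fun q => (q.1, ((q.2 : X) : OnePoint X))
  have hj : IsClosedEmbedding j := by
    refine Continuous.isClosedEmbedding (continuous_fst.prodMk
      (OnePoint.continuous_coe.comp (continuous_subtype_val.comp continuous_snd))) ?_
    rintro ⟨a, x⟩ ⟨b, y⟩ h
    simp only [j, Prod.mk.injEq] at h
    obtain ⟨rfl, h⟩ := h
    rw [Subtype.ext (OnePoint.coe_injective h)]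
  have hr : Set.range j = {q | q.2 ∈ ((↑) : X → OnePoint X) '' K} := by
    ext ⟨τ, y⟩
    constructor
    · rintro ⟨⟨a, x⟩, h⟩
      simp only [j, Prod.mk.injEq] at h
      exact ⟨x, x.2, h.2⟩
    · rintro ⟨x, hx, h⟩
      exact ⟨(τ, ⟨x, hx⟩), Prod.ext rfl h⟩
  have hH : ContinuousOn H {q | q.2 ∈ ((↑) : X → OnePoint X) '' K} := by
    rw [← hr, continuousOn_iff_continuous_domRestrict]
    have e1 : (Set.range j).domRestrict H = (fun q => F q) ∘ hj.isEmbedding.toHomeomorph.symm := by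
      funext q
      obtain ⟨q', rfl⟩ := hj.isEmbedding.toHomeomorph.surjective q
      rw [Function.comp_apply, Homeomorph.symm_apply_apply]
      exact hH0 q'.1 q'.2
    rw [e1]
    exact (map_continuous F).comp (Homeomorph.continuous _)
  have hint : ∀ x ∈ U, ((x : X) : OnePoint X) ∈ interior (((↑) : X → OnePoint X) '' K) := by
    intro x hx
    have h3 : IsOpen (((↑) : X → OnePoint X) '' U) :=
      OnePoint.isOpenEmbedding_coe.isOpenMap _ hU
    exact interior_maximal (Set.image_mono hUK) h3 ⟨x, hx, rfl⟩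
  refine germ_homotopic (Z := OnePoint X) (X := E)
    (hK.image OnePoint.continuous_coe).isClosed H hH ?_ ?_ ?_ ?_ ?_ ?_ ?_
  · rintro _ ⟨x, hx, rfl⟩
    rw [hH0 0 ⟨x, hx⟩]
    refine (h0 ⟨x, hx⟩).trans ?_
    rw [F.apply_zero]
  · rintro _ ⟨x, hx, rfl⟩
    rw [hH0 1 ⟨x, hx⟩]
    refine (h1 ⟨x, hx⟩).trans ?_
    rw [F.apply_one]
  · rintro τ _ ⟨x, hx, rfl⟩ h
    rw [hH0 τ ⟨x, hx⟩] at h
    exact hint x (F.prop τ ⟨x, hx⟩ h)
  · intro y h
    induction y using OnePoint.rec with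
    | infty =>
      have h4 := (app_infty f).symm.trans h
      exact absurd h4 (OnePoint.infty_ne_coe _)
    | coe x => exact hint x (hf x h)
  · intro y h
    induction y using OnePoint.rec with
    | infty =>
      have h4 := (app_infty g).symm.trans h
      exact absurd h4 (OnePoint.infty_ne_coe _)
    | coe x => exact hint x (hg x h)
  · rintro y rfl
    exact app_infty f
  · rintro y rfl
    exact app_infty g

end germ

variable {V : Type} [NormedAddCommGroup V] [InnerProductSpace ℝ V]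

/-- `(z - B z + 2 t B z, t² - ⟨z, B z⟩)` -/
noncomputable def SB (B : V →L[ℝ] V) (z : V) (t : ℝ) : V × ℝ :=
  (z - B z + (2 * t) • B z, t ^ 2 - ⟪z, B z⟫_ℝ)

section alg

theorem PV.inner_eq (p : PV V) (z : V) : ⟪z, p.1 z⟫_ℝ = ‖p.1 z‖ ^ 2 := by
  obtain ⟨p, u, hu, rfl⟩ := p
  show ⟪z, ten u u z⟫_ℝ = ‖ten u u z‖ ^ 2
  rw [ten_apply, inner_smul_right, norm_smul, hu, mul_one, Real.norm_eq_abs, sq_abs,
    real_inner_comm z u]
  ring

theorem PV.idem (p : PV V) (z : V) : p.1 (p.1 z) = p.1 z := by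
  obtain ⟨p, u, hu, rfl⟩ := p
  show ten u u (ten u u z) = ten u u z
  rw [ten_apply u u z, map_smul, ten_self hu]

theorem PV.norm_sq (p : PV V) (z : V) (s : ℝ) :
    ‖z - p.1 z + s • p.1 z‖ ^ 2 = ‖z - p.1 z‖ ^ 2 + s ^ 2 * ‖p.1 z‖ ^ 2 := by
  have h : ⟪z - p.1 z, p.1 z⟫_ℝ = 0 := by
    rw [inner_sub_left, PV.inner_eq, real_inner_self_eq_norm_sq, sub_self]
  rw [@norm_add_sq_real, inner_smul_right, h, norm_smul, mul_pow, Real.norm_eq_abs, sq_abs]
  ring

theorem PV.norm_sq' (p : PV V) (z : V) : ‖z‖ ^ 2 = ‖z - p.1 z‖ ^ 2 + ‖p.1 z‖ ^ 2 := by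
  have := PV.norm_sq p z 1
  rwa [one_smul, sub_add_cancel, one_pow, one_mul] at this

theorem PV.ten_eq (p : PV V) {z : V} (h : p.1 z ≠ 0) :
    ten (‖p.1 z‖⁻¹ • p.1 z) (‖p.1 z‖⁻¹ • p.1 z) = p.1 := by
  obtain ⟨p, u, hu, rfl⟩ := p
  show ten (‖ten u u z‖⁻¹ • ten u u z) (‖ten u u z‖⁻¹ • ten u u z) = ten u u
  change ten u u z ≠ 0 at h
  rw [ten_apply] at h ⊢
  obtain ⟨a, ha⟩ : ∃ a, a = ⟪u, z⟫_ℝ := ⟨_, rfl⟩
  rw [← ha] at h ⊢
  have ha0 : a ≠ 0 := left_ne_zero_of_smul h
  rw [norm_smul, hu, mul_one, smul_smul, Real.norm_eq_abs]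
  rcases lt_or_gt_of_ne ha0 with h3 | h3
  · rw [abs_of_neg h3, inv_neg, neg_mul, inv_mul_cancel₀ ha0, neg_one_smul, ten_neg_neg]
  · rw [abs_of_pos h3, inv_mul_cancel₀ ha0, one_smul]

/-- properness -/
theorem PV.bound (p : PV V) (z : V) (t b R : ℝ) (hb : |b| ≤ 1) (hR : 0 ≤ R)
    (h : ‖SB p.1 z t + (0, b)‖ ≤ R) : ‖z‖ ≤ R + 1 ∧ |t| ≤ R + 1 := by
  have h1 : ‖z - p.1 z + (2 * t) • p.1 z‖ ≤ R := by
    refine le_trans ?_ h
    refine le_trans (le_of_eq ?_) (norm_fst_le _)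
    show _ = ‖(SB p.1 z t).1 + (0 : V)‖
    rw [add_zero]
    rfl
  have h2 : |t ^ 2 - ‖p.1 z‖ ^ 2 + b| ≤ R := by
    refine le_trans ?_ h
    refine le_trans (le_of_eq ?_) (norm_snd_le _)
    show _ = ‖(SB p.1 z t).2 + b‖
    show _ = ‖t ^ 2 - ⟪z, p.1 z⟫_ℝ + b‖
    rw [PV.inner_eq, Real.norm_eq_abs]
  have h3 : ‖z - p.1 z‖ ^ 2 + (2 * t) ^ 2 * ‖p.1 z‖ ^ 2 ≤ R ^ 2 := by
    rw [← PV.norm_sq]
    exact pow_le_pow_left₀ (norm_nonneg _) h1 2
  have h4 := PV.norm_sq' p z
  obtain ⟨n, hn⟩ : ∃ n, n = ‖p.1 z‖ ^ 2 := ⟨_, rfl⟩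
  have hn0 : 0 ≤ n := by rw [hn]; positivity
  obtain ⟨m, hm⟩ : ∃ m, m = ‖z - p.1 z‖ ^ 2 := ⟨_, rfl⟩
  have hm0 : 0 ≤ m := by rw [hm]; positivity
  rw [← hn] at h2 h3 h4
  rw [← hm] at h3 h4
  have h5 : |t ^ 2 - n| ≤ R + 1 := by
    rw [abs_le] at h2 hb ⊢
    constructor <;> linarith [h2.1, h2.2, hb.1, hb.2]
  have h6 : (t ^ 2 - n) ^ 2 ≤ (R + 1) ^ 2 := by
    rw [← sq_abs]
    exact pow_le_pow_left₀ (abs_nonneg _) h5 2
  have h7 : (t ^ 2 + n) ^ 2 ≤ (2 * R + 1) ^ 2 := by nlinarith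
  have h8 : t ^ 2 + n ≤ 2 * R + 1 := by
    exact (abs_le_of_sq_le_sq' h7 (by positivity)).2
  constructor
  · refine (abs_le_of_sq_le_sq' ?_ (by linarith)).2
    nlinarith [sq_nonneg t]
  · refine (abs_le_of_sq_le_sq' ?_ (by linarith)).2
    rw [sq_abs]
    nlinarith [sq_nonneg R]

end alg

/-! ### the local homotopy -/

section core

/-- `P × V × ℝ` -/
abbrev PVR (V : Type) [NormedAddCommGroup V] [InnerProductSpace ℝ V] : Type := (PV V × V) × ℝ

/-- a neighbourhood of `{z = ± u, t = 0}`, `p = u ⊗ u` -/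
def kSet (V : Type) [NormedAddCommGroup V] [InnerProductSpace ℝ V] : Set (PVR V) :=
  {q | ‖q.1.2 - q.1.1.1 q.1.2‖ ≤ 1 / 10 ∧ |‖q.1.1.1 q.1.2‖ - 1| ≤ 1 / 10 ∧ |q.2| ≤ 1 / 10}

def uSet (V : Type) [NormedAddCommGroup V] [InnerProductSpace ℝ V] : Set (PVR V) :=
  {q | ‖q.1.2 - q.1.1.1 q.1.2‖ < 1 / 10 ∧ |‖q.1.1.1 q.1.2‖ - 1| < 1 / 10 ∧ |q.2| < 1 / 10}

theorem continuous_ev {α : Type*} [TopologicalSpace α] {f : α → PV V} {g : α → V}
    (hf : Continuous f) (hg : Continuous g) : Continuous fun a => (f a).1 (g a) :=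
  (continuous_subtype_val.comp hf).clm_apply hg

theorem isOpen_uSet : IsOpen (uSet V) := by
  have h : Continuous fun q : PVR V => q.1.1.1 q.1.2 := continuous_ev (by fun_prop) (by fun_prop)
  have h1 : Continuous fun q : PVR V => ‖q.1.2 - q.1.1.1 q.1.2‖ := by fun_prop
  have h2 : Continuous fun q : PVR V => |‖q.1.1.1 q.1.2‖ - 1| := by fun_prop
  have h3 : Continuous fun q : PVR V => |q.2| := by fun_prop
  exact (isOpen_lt h1 continuous_const).inter
    ((isOpen_lt h2 continuous_const).inter (isOpen_lt h3 continuous_const))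

theorem uSet_subset : uSet V ⊆ kSet V := fun _ h => ⟨h.1.le, h.2.1.le, h.2.2.le⟩

theorem isCompact_kSet [FiniteDimensional ℝ V] : IsCompact (kSet V) := by
  have h : Continuous fun q : PVR V => q.1.1.1 q.1.2 := continuous_ev (by fun_prop) (by fun_prop)
  have h1 : Continuous fun q : PVR V => ‖q.1.2 - q.1.1.1 q.1.2‖ := by fun_prop
  have h2 : Continuous fun q : PVR V => |‖q.1.1.1 q.1.2‖ - 1| := by fun_prop
  have h3 : Continuous fun q : PVR V => |q.2| := by fun_prop
  have hc : IsClosed (kSet V) := (isClosed_le h1 continuous_const).inter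
    ((isClosed_le h2 continuous_const).inter (isClosed_le h3 continuous_const))
  have : ProperSpace V := FiniteDimensional.proper_real V
  refine ((isCompact_univ (X := PV V)).prod (isCompact_closedBall (0 : V) 2)).prod
    (isCompact_closedBall (0 : ℝ) 1) |>.of_isClosed_subset hc ?_
  rintro ⟨⟨p, z⟩, t⟩ ⟨h1, h2, h3⟩
  dsimp only at h1 h2 h3
  refine ⟨⟨Set.mem_univ _, ?_⟩, ?_⟩
  · rw [mem_closedBall_zero_iff]
    have h4 : ‖z‖ ≤ ‖z - p.1 z‖ + ‖p.1 z‖ := by
      have := norm_add_le (z - p.1 z) (p.1 z)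
      rwa [sub_add_cancel] at this
    have h5 := (abs_le.1 h2).2
    show ‖z‖ ≤ 2
    linarith
  · rw [mem_closedBall_zero_iff, Real.norm_eq_abs]
    show |t| ≤ 1
    linarith

variable (q : kSet V)

/-- `z - p z` -/
def zp (q : kSet V) : V := q.1.1.2 - q.1.1.1.1 q.1.1.2

/-- `|p z|` -/
noncomputable def nn (q : kSet V) : ℝ := ‖q.1.1.1.1 q.1.1.2‖

/-- `p z / |p z|` -/
noncomputable def ee (q : kSet V) : V := (nn q)⁻¹ • q.1.1.1.1 q.1.1.2

/-- `t` -/
def tt (q : kSet V) : ℝ := q.1.2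

/-- `|p z| - 1` -/
noncomputable def ss (q : kSet V) : ℝ := nn q - 1

theorem nn_pos : 0 < nn q := by
  have := (abs_le.1 q.2.2.1).1
  unfold nn
  linarith

theorem pz_eq : q.1.1.1.1 q.1.1.2 = (1 + ss q) • ee q := by
  unfold ee ss
  rw [smul_smul, add_sub_cancel, mul_inv_cancel₀ (nn_pos q).ne', one_smul]

theorem norm_ee : ‖ee q‖ = 1 := by
  unfold ee
  rw [norm_smul, norm_inv, Real.norm_eq_abs, abs_of_pos (nn_pos q)]
  exact inv_mul_cancel₀ (nn_pos q).ne'

theorem p_ee : q.1.1.1.1 (ee q) = ee q := by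
  unfold ee
  rw [map_smul, PV.idem]

theorem p_zp : q.1.1.1.1 (zp q) = 0 := by
  unfold zp
  rw [map_sub, PV.idem, sub_self]

theorem z_sub_ee : q.1.1.2 - ee q = zp q + ss q • ee q := by
  have h := pz_eq q
  have h2 : q.1.1.2 = zp q + (1 + ss q) • ee q := by
    rw [← h]
    unfold zp
    abel
  rw [h2, add_smul, one_smul]
  abel

theorem norm_z_sub_ee : ‖q.1.1.2 - ee q‖ ≤ 1 / 5 := by
  rw [z_sub_ee]
  refine (norm_add_le _ _).trans ?_
  rw [norm_smul, norm_ee, mul_one, Real.norm_eq_abs]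
  have h1 : ‖zp q‖ ≤ 1 / 10 := q.2.1
  have h2 : |ss q| ≤ 1 / 10 := q.2.2.1
  linarith

theorem piP_ee : piP V ⟨ee q, by rw [mem_sphere_zero_iff_norm]; exact norm_ee q⟩ = q.1.1.1 := by
  apply Subtype.ext
  refine PV.ten_eq q.1.1.1 ?_
  intro h
  have h1 := nn_pos q
  unfold nn at h1
  rw [h, norm_zero] at h1
  exact lt_irrefl _ h1

/-- the factor of the Kahn-Priddy map -/
noncomputable def kk' (q : kSet V) : ℝ := (1 / 4 - ‖q.1.1.2 - ee q‖)⁻¹

theorem kk'_pos : 0 < kk' q := by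
  unfold kk'
  have := norm_z_sub_ee q
  have : 0 < 1 / 4 - ‖q.1.1.2 - ee q‖ := by linarith
  positivity

theorem split {m α : ℝ} (hm : 0 < m) (h : m • zp q + α • ee q = 0) : zp q = 0 ∧ α = 0 := by
  have h1 := congrArg (q.1.1.1.1) h
  rw [map_add, map_smul, map_smul, p_zp, p_ee, smul_zero, zero_add, map_zero] at h1
  have h2 : α = 0 := by
    rcases smul_eq_zero.1 h1 with h2 | h2
    · exact h2
    · have h3 := norm_ee q
      rw [h2, norm_zero] at h3
      exact absurd h3 zero_ne_one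
  rw [h1, add_zero] at h
  exact ⟨(smul_eq_zero.1 h).resolve_left hm.ne', h2⟩

theorem mem_uSet (h1 : zp q = 0) (h2 : ss q = 0) (h3 : tt q = 0) : q.1 ∈ uSet V := by
  unfold zp at h1
  unfold ss nn at h2
  unfold tt at h3
  refine ⟨?_, ?_, ?_⟩
  · rw [h1]; norm_num
  · rw [h2]; norm_num
  · rw [h3]; norm_num

theorem continuous_nn : Continuous (nn (V := V)) :=
  (continuous_ev (by fun_prop) (by fun_prop)).norm

theorem continuous_ss : Continuous (ss (V := V)) := continuous_nn.sub continuous_const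

theorem continuous_tt : Continuous (tt (V := V)) := by
  unfold tt
  fun_prop

theorem continuous_zp : Continuous (zp (V := V)) := by
  have h : Continuous fun q : kSet V => q.1.1.1.1 q.1.1.2 :=
    continuous_ev (by fun_prop) (by fun_prop)
  unfold zp
  fun_prop

theorem continuous_ee : Continuous (ee (V := V)) :=
  (continuous_nn.inv₀ fun q => (nn_pos q).ne').smul (continuous_ev (by fun_prop) (by fun_prop))

theorem continuous_kk' : Continuous (kk' (V := V)) := by
  refine Continuous.inv₀ ?_ fun q => ?_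
  · have := continuous_ee (V := V)
    fun_prop
  · have := norm_z_sub_ee q
    have : 0 < 1 / 4 - ‖q.1.1.2 - ee q‖ := by linarith
    exact this.ne'

/-- the target of the local homotopies -/
noncomputable def mkh (m α β : kSet V → ℝ) (hm : Continuous m) (hα : Continuous α)
    (hβ : Continuous β) : C(kSet V, V × ℝ) :=
  ⟨fun q => (m q • zp q + α q • ee q, β q),
    ((hm.smul continuous_zp).add (hα.smul continuous_ee)).prodMk hβ⟩

theorem htpy_of (m α β : unitInterval × kSet V → ℝ) (hm : Continuous m) (hα : Continuous α)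
    (hβ : Continuous β) (hm0 : ∀ q, 0 < m q)
    (h : ∀ τ q, α (τ, q) = 0 → β (τ, q) = 0 → ss q = 0 ∧ tt q = 0) {h₀ h₁ : C(kSet V, V × ℝ)}
    (e0 : ∀ q, h₀ q = (m (0, q) • zp q + α (0, q) • ee q, β (0, q)))
    (e1 : ∀ q, h₁ q = (m (1, q) • zp q + α (1, q) • ee q, β (1, q))) :
    h₀.HomotopicWith h₁ fun h => ∀ x, h x = 0 → (x : PVR V) ∈ uSet V :=
  ⟨{ toFun := fun q => (m q • zp q.2 + α q • ee q.2, β q)
     continuous_toFun := ((hm.smul (continuous_zp.comp continuous_snd)).add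
       (hα.smul (continuous_ee.comp continuous_snd))).prodMk hβ
     map_zero_left := fun q => (e0 q).symm
     map_one_left := fun q => (e1 q).symm
     prop' := fun τ q hq => by
       have h1 : m (τ, q) • zp q + α (τ, q) • ee q = 0 := congrArg Prod.fst hq
       have h2 : β (τ, q) = 0 := congrArg Prod.snd hq
       obtain ⟨h3, h4⟩ := split q (hm0 _) h1
       obtain ⟨h5, h6⟩ := h τ q h4 h2
       exact mem_uSet q h3 h5 h6 }⟩

/-- the linear scaling -/
theorem htpyA {h₀ h₁ : C(kSet V, V × ℝ)}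
    (e0 : ∀ q, h₀ q = (kk' q • (zp q + ss q • ee q), tt q))
    (e1 : ∀ q, h₁ q = (zp q + ss q • ee q, tt q)) :
    h₀.HomotopicWith h₁ fun h => ∀ x, h x = 0 → (x : PVR V) ∈ uSet V := by
  have hk := continuous_kk' (V := V)
  have hs := continuous_ss (V := V)
  have ht := continuous_tt (V := V)
  have hm0 : ∀ q : unitInterval × kSet V, 0 < (q.1 : ℝ) + (1 - q.1) * kk' q.2 := by
    intro q
    have h1 := q.1.2.1
    have h2 := q.1.2.2
    have h3 := kk'_pos q.2
    rcases h1.eq_or_lt with h4 | h4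
    · rw [← h4]; linarith
    · have := mul_nonneg (sub_nonneg.2 h2) h3.le
      linarith
  refine htpy_of (fun q => (q.1 : ℝ) + (1 - q.1) * kk' q.2)
    (fun q => ((q.1 : ℝ) + (1 - q.1) * kk' q.2) * ss q.2) (fun q => tt q.2)
    (by fun_prop) (by fun_prop) (by fun_prop) hm0 ?_ ?_ ?_
  · intro τ q h1 h2
    exact ⟨(mul_eq_zero.1 h1).resolve_left (hm0 (τ, q)).ne', h2⟩
  · intro q
    rw [e0]
    refine Prod.ext ?_ rfl
    simp [smul_add, smul_smul]
  · intro q
    rw [e1]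
    refine Prod.ext ?_ rfl
    simp

/-- the rotation -/
theorem htpyB {h₀ h₁ : C(kSet V, V × ℝ)}
    (e0 : ∀ q, h₀ q = (zp q + ss q • ee q, tt q))
    (e1 : ∀ q, h₁ q = (zp q + tt q • ee q, -ss q)) :
    h₀.HomotopicWith h₁ fun h => ∀ x, h x = 0 → (x : PVR V) ∈ uSet V := by
  have hs := continuous_ss (V := V)
  have ht := continuous_tt (V := V)
  refine htpy_of (fun _ => 1)
    (fun q => Real.cos (q.1 * (Real.pi / 2)) * ss q.2 + Real.sin (q.1 * (Real.pi / 2)) * tt q.2)
    (fun q => Real.cos (q.1 * (Real.pi / 2)) * tt q.2 - Real.sin (q.1 * (Real.pi / 2)) * ss q.2)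
    continuous_const (by fun_prop) (by fun_prop) (fun _ => one_pos) ?_ ?_ ?_
  · intro τ q h1 h2
    dsimp only at h1 h2
    have h3 := Real.sin_sq_add_cos_sq ((τ : ℝ) * (Real.pi / 2))
    constructor
    · linear_combination (-(ss q)) * h3 + Real.cos (τ * (Real.pi / 2)) * h1 -
        Real.sin (τ * (Real.pi / 2)) * h2
    · linear_combination (-(tt q)) * h3 + Real.sin (τ * (Real.pi / 2)) * h1 +
        Real.cos (τ * (Real.pi / 2)) * h2
  · intro q
    rw [e0]
    refine Prod.ext ?_ ?_ <;> simp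
  · intro q
    rw [e1]
    refine Prod.ext ?_ ?_ <;> simp

/-- the nonlinear terms -/
theorem htpyC {h₀ h₁ : C(kSet V, V × ℝ)}
    (e0 : ∀ q, h₀ q = (zp q + tt q • ee q, -ss q))
    (e1 : ∀ q, h₁ q = (zp q + (2 * tt q * (1 + ss q)) • ee q, tt q ^ 2 - 2 * ss q - ss q ^ 2)) :
    h₀.HomotopicWith h₁ fun h => ∀ x, h x = 0 → (x : PVR V) ∈ uSet V := by
  have hs := continuous_ss (V := V)
  have ht := continuous_tt (V := V)
  refine htpy_of (fun _ => 1)
    (fun q => tt q.2 * (1 + q.1 * (1 + 2 * ss q.2)))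
    (fun q => -ss q.2 + q.1 * (tt q.2 ^ 2 - ss q.2 - ss q.2 ^ 2))
    continuous_const (by fun_prop) (by fun_prop) (fun _ => one_pos) ?_ ?_ ?_
  · intro τ q h1 h2
    dsimp only at h1 h2
    have h3 := τ.2.1
    have h5 := abs_le.1 q.2.2.1
    have h6 : ss q = ‖q.1.1.1.1 q.1.1.2‖ - 1 := rfl
    rw [← h6] at h5
    have h7 : 0 < 1 + (τ : ℝ) * (1 + 2 * ss q) := by nlinarith [h5.1]
    have h8 : tt q = 0 := (mul_eq_zero.1 h1).resolve_right h7.ne'
    refine ⟨?_, h8⟩
    rw [h8] at h2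
    have h9 : ss q * (1 + τ + τ * ss q) = 0 := by linear_combination -h2
    have h10 : 0 < 1 + (τ : ℝ) + τ * ss q := by nlinarith [h5.1]
    exact (mul_eq_zero.1 h9).resolve_right h10.ne'
  · intro q
    rw [e0]
    refine Prod.ext ?_ ?_ <;> simp
  · intro q
    rw [e1]
    refine Prod.ext ?_ ?_
    · simp only [one_smul, Set.Icc.coe_one]
      congr 2
      ring
    · simp only [Set.Icc.coe_one]
      ring

end core

/-! ### the homotopy -/

section final

theorem continuous_SB {α : Type*} [TopologicalSpace α] {f : α → V →L[ℝ] V} {g : α → V} {t : α → ℝ}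
    (hf : Continuous f) (hg : Continuous g) (ht : Continuous t) :
    Continuous fun a => SB (f a) (g a) (t a) := by
  unfold SB
  fun_prop

variable [FiniteDimensional ℝ V]

theorem isProperMap_SB {T : Type} [TopologicalSpace T] [CompactSpace T] {b : T → ℝ}
    (hb : Continuous b) (hb1 : ∀ τ, |b τ| ≤ 1) :
    IsProperMap fun q : PVR V × T => SB q.1.1.1.1 q.1.1.2 q.1.2 + ((0 : V), b q.2) := by
  have : ProperSpace V := FiniteDimensional.proper_real V
  have hc : Continuous fun q : PVR V × T => SB q.1.1.1.1 q.1.1.2 q.1.2 + ((0 : V), b q.2) := by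
    have := continuous_SB (α := PVR V × T) (f := fun q => q.1.1.1.1) (g := fun q => q.1.1.2)
      (t := fun q => q.1.2) (by fun_prop) (by fun_prop) (by fun_prop)
    fun_prop
  rw [isProperMap_iff_isCompact_preimage]
  refine ⟨hc, fun C hC => ?_⟩
  obtain ⟨R, hR0, hR⟩ := hC.isBounded.subset_closedBall_lt 0 (0 : V × ℝ)
  refine (((isCompact_univ (X := PV V)).prod (isCompact_closedBall (0 : V) (R + 1))).prod
    (isCompact_closedBall (0 : ℝ) (R + 1))).prod (isCompact_univ (X := T)) |>.of_isClosed_subset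
      (hC.isClosed.preimage hc) ?_
  rintro ⟨⟨⟨p, z⟩, t⟩, τ⟩ h
  have h1 := hR h
  rw [mem_closedBall_zero_iff] at h1
  obtain ⟨h2, h3⟩ := PV.bound p z t (b τ) R (hb1 τ) hR0.le h1
  refine ⟨⟨⟨Set.mem_univ _, ?_⟩, ?_⟩, Set.mem_univ _⟩
  · rw [mem_closedBall_zero_iff]
    exact h2
  · rw [mem_closedBall_zero_iff, Real.norm_eq_abs]
    exact h3

theorem tendsto_SB (c : ℝ) (hc : |c| ≤ 1) :
    Tendsto (fun q : PVR V => SB q.1.1.1 q.1.2 q.2 + ((0 : V), c)) (cocompact (PVR V))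
      (cocompact (V × ℝ)) := by
  have : ProperSpace V := FiniteDimensional.proper_real V
  have h := isProperMap_SB (V := V) (T := Unit) (b := fun _ => c) continuous_const fun _ => hc
  have h1 := (isProperMap_iff_isCompact_preimage.1 h).2
  have h2 : IsProperMap (fun q : PVR V => SB q.1.1.1 q.1.2 q.2 + ((0 : V), c)) := by
    rw [isProperMap_iff_isCompact_preimage]
    refine ⟨(continuous_SB (by fun_prop) (by fun_prop) (by fun_prop)).add continuous_const,
      fun C hC => ?_⟩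
    have h3 := (h1 hC).image continuous_fst
    convert h3 using 1
    ext q
    constructor
    · intro hq
      exact ⟨(q, ()), hq, rfl⟩
    · rintro ⟨⟨q', _⟩, hq, rfl⟩
      exact hq
  exact (isProperMap_iff_tendsto_cocompact.1 h2).2

variable (V)

/-- `((p, z), t) ↦ SB p z t + (0, c)` -/
noncomputable def sqm (c : ℝ) (hc : |c| ≤ 1) : LC.of (PVR V) ⟶ LC.of (V × ℝ) :=
  ofProper (X := LC.of (PVR V)) (Y := LC.of (V × ℝ))
    (fun q => SB q.1.1.1 q.1.2 q.2 + ((0 : V), c))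
    ((continuous_SB (by fun_prop) (by fun_prop) (by fun_prop)).add continuous_const)
    (tendsto_SB c hc)

theorem sqm_homotopic (a b : ℝ) (ha : |a| ≤ 1) (hb : |b| ≤ 1) :
    Homotopic (sqm V a ha) (sqm V b hb) := by
  have h := isProperMap_SB (V := V) (T := unitInterval) (b := fun τ => a + τ * (b - a))
    (by fun_prop) fun τ => by
      have h1 := abs_le.1 ha
      have h2 := abs_le.1 hb
      rw [abs_le]
      have := τ.2.1
      have := τ.2.2
      constructor <;> nlinarith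
  have h1 := isProperMap_iff_tendsto_cocompact.1 h
  refine Th.homotopic_of (X := LC.of (PVR V)) (Y := LC.of (V × ℝ)) _ h1.1 h1.2 ?_ ?_
  · intro x
    show ((_ : V × ℝ) : OnePoint (V × ℝ)) = _
    simp
  · intro x
    show ((_ : V × ℝ) : OnePoint (V × ℝ)) = _
    simp

/-- **The Kahn-Priddy map and the squaring map.** -/
theorem lam_homotopic (c : ℝ) (hc : |c| ≤ 1) :
    Homotopic (tensorHom' (lam V) (𝟙 RR)) (sqm V c hc) := by
  refine Homotopic.trans ?_ (sqm_homotopic V 1 c (by norm_num) hc)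
  let h₀ : C(kSet V, V × ℝ) := ⟨fun q => (kk' q • (zp q + ss q • ee q), tt q), by
    have := continuous_kk' (V := V)
    have := continuous_zp (V := V)
    have := continuous_ss (V := V)
    have := continuous_ee (V := V)
    have := continuous_tt (V := V)
    fun_prop⟩
  let hA : C(kSet V, V × ℝ) := ⟨fun q => (zp q + ss q • ee q, tt q), by
    have := continuous_zp (V := V)
    have := continuous_ss (V := V)
    have := continuous_ee (V := V)
    have := continuous_tt (V := V)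
    fun_prop⟩
  let hB : C(kSet V, V × ℝ) := ⟨fun q => (zp q + tt q • ee q, -ss q), by
    have := continuous_zp (V := V)
    have := continuous_ss (V := V)
    have := continuous_ee (V := V)
    have := continuous_tt (V := V)
    fun_prop⟩
  let h₁ : C(kSet V, V × ℝ) :=
    ⟨fun q => (zp q + (2 * tt q * (1 + ss q)) • ee q, tt q ^ 2 - 2 * ss q - ss q ^ 2), by
    have := continuous_zp (V := V)
    have := continuous_ss (V := V)
    have := continuous_ee (V := V)
    have := continuous_tt (V := V)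
    fun_prop⟩
  refine homotopic_of_germ (X := LC.of (PVR V)) (K := kSet V) (U := uSet V) isCompact_kSet
    isOpen_uSet uSet_subset (h₀ := h₀) (h₁ := h₁) ((htpyA (h₁ := hA) (fun _ => rfl) fun _ => rfl).trans
      ((htpyB (h₁ := hB) (fun _ => rfl) fun _ => rfl).trans (htpyC (fun _ => rfl) fun _ => rfl)))
    ?_ ?_ ?_ ?_
  · intro q
    show smash (app (lam V) (((q.1.1.1, q.1.1.2) : PV V × V) : OnePoint (PV V × V)))
      ((q.1.2 : ℝ) : OnePoint ℝ) = _
    rw [← piP_ee q, app_lam_of_lt _ (lt_of_le_of_lt (norm_z_sub_ee q) (by norm_num))]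
    show (((_, _) : V × ℝ) : OnePoint (V × ℝ)) = _
    rw [z_sub_ee]
    show _ = (((kk' q • (zp q + ss q • ee q), tt q) : V × ℝ) : OnePoint (V × ℝ))
    unfold kk'
    rw [z_sub_ee]
    rfl
  · intro q
    show ((SB q.1.1.1.1 q.1.1.2 q.1.2 + ((0 : V), (1 : ℝ)) : V × ℝ) : OnePoint (V × ℝ)) =
      (((zp q + (2 * tt q * (1 + ss q)) • ee q, tt q ^ 2 - 2 * ss q - ss q ^ 2) : V × ℝ) :
        OnePoint (V × ℝ))
    congr 1
    unfold SB
    refine Prod.ext ?_ ?_
    · show q.1.1.2 - q.1.1.1.1 q.1.1.2 + (2 * q.1.2) • q.1.1.1.1 q.1.1.2 + 0 = _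
      rw [add_zero]
      show zp q + (2 * tt q) • q.1.1.1.1 q.1.1.2 = _
      rw [pz_eq, smul_smul]
    · show q.1.2 ^ 2 - ⟪q.1.1.2, q.1.1.1.1 q.1.1.2⟫_ℝ + 1 = tt q ^ 2 - 2 * ss q - ss q ^ 2
      rw [PV.inner_eq]
      unfold ss nn tt
      ring
  · rintro ⟨⟨p, z⟩, t⟩ h
    change smash (app (lam V) (((p, z) : PV V × V) : OnePoint (PV V × V)))
      ((t : ℝ) : OnePoint ℝ) = _ at h
    obtain ⟨u, hu⟩ := surjective_piP V p
    have key : ∀ u : SV V, piP V u = p → ‖z - u‖ < 1 / 4 → (((p, z), t) : PVR V) ∈ uSet V := by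
      intro u hu hz
      rw [← hu, app_lam_of_lt u hz, smash_coe_coe] at h
      have h1 := OnePoint.coe_injective h
      have h2 : (1 / 4 - ‖z - (u : V)‖)⁻¹ • (z - (u : V)) = 0 := congrArg Prod.fst h1
      have h3 : t = 0 := congrArg Prod.snd h1
      have h4 : 0 < (1 / 4 - ‖z - (u : V)‖)⁻¹ := inv_pos.2 (by linarith)
      have h5 : z = u := sub_eq_zero.1 ((smul_eq_zero.1 h2).resolve_left h4.ne')
      have h6 : p.1 z = z := by
        rw [← hu, h5]
        exact ten_self (norm_SV u) _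
      refine ⟨?_, ?_, ?_⟩
      · show ‖z - p.1 z‖ < 1 / 10
        rw [h6, sub_self, norm_zero]
        norm_num
      · show |‖p.1 z‖ - 1| < 1 / 10
        rw [h6, h5, norm_SV, sub_self, abs_zero]
        norm_num
      · show |t| < 1 / 10
        rw [h3, abs_zero]
        norm_num
    by_cases h1 : ‖z - u‖ < 1 / 4
    · exact key u hu h1
    · by_cases h2 : ‖z - ((-u : SV V) : V)‖ < 1 / 4
      · exact key (-u) ((piP_neg u).trans hu) h2
      · rw [app_lam_of_le p fun u' hu' => ?_, smash_infty_left] at h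
        · exact absurd h (OnePoint.infty_ne_coe _)
        · rcases piP_eq (hu.trans hu'.symm) with h3 | h3
          · rw [h3]; exact not_lt.1 h1
          · rw [h3, ← coe_neg_sphere]; exact not_lt.1 h2
  · rintro ⟨⟨p, z⟩, t⟩ h
    change ((SB p.1 z t + ((0 : V), (1 : ℝ)) : V × ℝ) : OnePoint (V × ℝ)) = _ at h
    have h1 := OnePoint.coe_injective h
    have h2 : z - p.1 z + (2 * t) • p.1 z + 0 = 0 := congrArg Prod.fst h1
    have h3 : t ^ 2 - ⟪z, p.1 z⟫_ℝ + 1 = 0 := congrArg Prod.snd h1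
    rw [add_zero] at h2
    rw [PV.inner_eq] at h3
    have h4 := PV.norm_sq p z (2 * t)
    rw [h2, norm_zero] at h4
    have h5 : 0 ≤ ‖z - p.1 z‖ ^ 2 := by positivity
    have h6 : 0 ≤ (2 * t) ^ 2 * ‖p.1 z‖ ^ 2 := by positivity
    have h7 : ‖z - p.1 z‖ ^ 2 = 0 := by nlinarith
    have h8 : (2 * t) ^ 2 * ‖p.1 z‖ ^ 2 = 0 := by nlinarith
    have h9 : ‖p.1 z‖ ^ 2 = t ^ 2 + 1 := by linarith
    have h10 : t = 0 := by
      rw [h9] at h8
      rcases mul_eq_zero.1 h8 with h | h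
      · nlinarith
      · nlinarith [sq_nonneg t]
    have h11 : ‖p.1 z‖ = 1 := by
      rw [h10] at h9
      have : 0 ≤ ‖p.1 z‖ := norm_nonneg _
      nlinarith
    refine ⟨?_, ?_, ?_⟩
    · show ‖z - p.1 z‖ < 1 / 10
      rw [pow_eq_zero_iff (by norm_num)] at h7
      rw [h7]
      norm_num
    · show |‖p.1 z‖ - 1| < 1 / 10
      rw [h11, sub_self, abs_zero]
      norm_num
    · show |t| < 1 / 10
      rw [h10, abs_zero]
      norm_num

end final

end Vale.Agent.P263.FR
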