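import Mathlib.Analysis.InnerProductSpace.Calculus
import Mathlib.Analysis.Complex.Tietze
import Vale.Agent.P263.FR.Sq
import Vale.Agent.P263.FR.PT

/-!
# P263, block G: the squaring map near the projections

* `exists_smooth` : smooth approximation of a continuous map on a compact set.
* `sfc B (z, (w, t)) = (z - B z + 2 t B z, (w, t² - ⟨z, B z⟩ - 1/4))`; its zeros for `B` near a
  projection, `1/4 ≤ |t| ≤ 1`, are `z = 0`, `w = 0`, `t² = 1/4`.
* `hasFDerivAt_sfc`, `surjective_dsf` : the derivative at the zeros.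
-/

open Topology Filter InnerProductSpace RealInnerProductSpace

namespace Vale.Agent.P263.FR

open Vale.Agent.P263.KJ

/-- smooth approximation of a continuous map on a compact set -/
theorem exists_smooth {m : ℕ} {C : Set (Fin m → ℝ)} (hC : IsCompact C) {E : Type}
    [NormedAddCommGroup E] [NormedSpace ℝ E] [FiniteDimensional ℝ E] {a : (Fin m → ℝ) → E}
    (ha : ContinuousOn a C) {ε : ℝ} (hε : 0 < ε) :
    ∃ B : (Fin m → ℝ) → E, ContDiff ℝ ((⊤ : ℕ∞) : WithTop ℕ∞) B ∧ ∀ x ∈ C, ‖B x - a x‖ ≤ ε := by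
  have : TietzeExtension.{0} E := TietzeExtension.of_tvs ℝ
  obtain ⟨θ, hθ⟩ := ContinuousMap.exists_restrict_eq hC.isClosed
    (⟨C.domRestrict a, continuousOn_iff_continuous_domRestrict.1 ha⟩ : C(C, E))
  have hθ' : ∀ x ∈ C, θ x = a x := fun x hx => by
    have := DFunLike.congr_fun hθ ⟨x, hx⟩
    exact this
  obtain ⟨f₁, h1, h2, -⟩ := Continuous.exists_contDiff_approx (⊤ : ℕ∞) θ.continuous
    (continuous_const (y := ε)) (fun _ => hε)
  refine ⟨f₁, h1, fun x hx => ?_⟩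
  rw [← hθ' x hx, ← dist_eq_norm]
  exact (h2 x).le

variable {V : Type} [NormedAddCommGroup V] [InnerProductSpace ℝ V]
variable {W : Type} [NormedAddCommGroup W] [NormedSpace ℝ W]

/-- the estimate near a projection -/
theorem inj_near (p : PV V) {B : V →L[ℝ] V} (hB : ‖B - p.1‖ ≤ 1 / 40) {t : ℝ} (h1 : 1 / 4 ≤ |t|)
    (h2 : |t| ≤ 1) {z : V} (hz : z - B z + (2 * t) • B z = 0) : z = 0 := by
  obtain ⟨p, u, hu, rfl⟩ := p
  change ‖B - ten u u‖ ≤ 1 / 40 at hB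
  set E : V →L[ℝ] V := B - ten u u with hE
  have hBE : B = ten u u + E := by rw [hE]; abel
  have hEz : ‖E z‖ ≤ 1 / 40 * ‖z‖ :=
    (E.le_opNorm z).trans (mul_le_mul_of_nonneg_right hB (norm_nonneg z))
  have hBz : B z = ⟪u, z⟫_ℝ • u + E z := by
    rw [hBE, add_apply, ten_apply]
  have huu : ⟪u, u⟫_ℝ = 1 := by rw [real_inner_self_eq_norm_sq, hu, one_pow]
  have h3 : z = -((2 * t - 1) • (⟪u, z⟫_ℝ • u + E z)) := by
    rw [hBz] at hz
    have : z + (2 * t - 1) • (⟪u, z⟫_ℝ • u + E z) = 0 := by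
      rw [← hz]; module
    rw [← add_eq_zero_iff_eq_neg]
    exact this
  have h4 : 2 * t * ⟪u, z⟫_ℝ = -((2 * t - 1) * ⟪u, E z⟫_ℝ) := by
    have h5 := congrArg (fun y => ⟪u, y⟫_ℝ) h3
    simp only [inner_neg_right, inner_smul_right, inner_add_right, huu, mul_one] at h5
    linarith
  have h6 : |2 * t - 1| ≤ 3 := by
    rw [abs_le] at h2 ⊢
    constructor <;> linarith [h2.1, h2.2]
  have h7 : |⟪u, E z⟫_ℝ| ≤ 1 / 40 * ‖z‖ := by
    refine (abs_real_inner_le_norm u (E z)).trans ?_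
    rw [hu, one_mul]
    exact hEz
  have h8 : |⟪u, z⟫_ℝ| ≤ 3 / 20 * ‖z‖ := by
    have h9 : |2 * t * ⟪u, z⟫_ℝ| ≤ 3 * (1 / 40 * ‖z‖) := by
      rw [h4, abs_neg, abs_mul]
      exact mul_le_mul h6 h7 (abs_nonneg _) (by norm_num)
    rw [abs_mul, abs_mul, abs_two] at h9
    have h10 : 2 * |t| * |⟪u, z⟫_ℝ| ≥ 2 * (1 / 4) * |⟪u, z⟫_ℝ| := by
      apply mul_le_mul_of_nonneg_right _ (abs_nonneg _)
      linarith
    linarith
  have h11 : ‖z‖ ≤ 3 * (3 / 20 * ‖z‖ + 1 / 40 * ‖z‖) := by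
    have h12 : ‖z‖ = |2 * t - 1| * ‖⟪u, z⟫_ℝ • u + E z‖ := by
      conv_lhs => rw [h3]
      rw [norm_neg, norm_smul, Real.norm_eq_abs]
    rw [h12]
    have h13 : ‖⟪u, z⟫_ℝ • u + E z‖ ≤ 3 / 20 * ‖z‖ + 1 / 40 * ‖z‖ := by
      refine (norm_add_le _ _).trans (add_le_add ?_ hEz)
      rw [norm_smul, hu, mul_one, Real.norm_eq_abs]
      exact h8
    refine (mul_le_mul h6 h13 (norm_nonneg _) (by norm_num)).trans ?_
    rw [← h12]
  have h14 : ‖z‖ ≤ 0 := by nlinarith [norm_nonneg z]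
  exact norm_le_zero_iff.1 h14

/-- the squaring map in the coordinates `V × (W × ℝ)` -/
noncomputable def sfc (B : V →L[ℝ] V) (q : V × (W × ℝ)) : V × (W × ℝ) :=
  ((SB B q.1 q.2.2).1, (q.2.1, (SB B q.1 q.2.2).2 - 1 / 4))

omit [NormedSpace ℝ W] in
theorem sfc_eq_zero (p : PV V) {B : V →L[ℝ] V} (hB : ‖B - p.1‖ ≤ 1 / 40) {q : V × (W × ℝ)}
    (h1 : 1 / 4 ≤ |q.2.2|) (h2 : |q.2.2| ≤ 1) (h0 : sfc B q = 0) :
    q.1 = 0 ∧ q.2.1 = 0 ∧ q.2.2 ^ 2 = 1 / 4 := by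
  have hz : q.1 = 0 := inj_near p hB h1 h2 (congrArg Prod.fst h0)
  refine ⟨hz, congrArg (fun x => x.2.1) h0, ?_⟩
  have h3 : q.2.2 ^ 2 - ⟪q.1, B q.1⟫_ℝ - 1 / 4 = 0 := congrArg (fun x => x.2.2) h0
  rw [hz, inner_zero_left] at h3
  linarith

omit [NormedSpace ℝ W] in
theorem sfc_eq_zero' (p : PV V) {q : V × (W × ℝ)} (h0 : sfc p.1 q = 0) :
    q.1 = 0 ∧ q.2.1 = 0 ∧ q.2.2 ^ 2 = 1 / 4 := by
  obtain ⟨p, u, hu, rfl⟩ := p
  have hz : q.1 - ten u u q.1 + (2 * q.2.2) • ten u u q.1 = 0 := congrArg Prod.fst h0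
  have h3 : q.2.2 ^ 2 - ⟪q.1, ten u u q.1⟫_ℝ - 1 / 4 = 0 := congrArg (fun x => x.2.2) h0
  rw [ten_apply] at hz
  rw [ten_apply, inner_smul_right, real_inner_comm u q.1] at h3
  have huu : ⟪u, u⟫_ℝ = 1 := by rw [real_inner_self_eq_norm_sq, hu, one_pow]
  have h4 : 2 * q.2.2 * ⟪u, q.1⟫_ℝ = 0 := by
    have h5 := congrArg (fun y => ⟪u, y⟫_ℝ) hz
    simp only [inner_add_right, inner_sub_right, inner_smul_right, huu, mul_one,
      inner_zero_right] at h5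
    linarith
  have ht : q.2.2 ≠ 0 := by
    intro ht
    rw [ht] at h3
    nlinarith [mul_self_nonneg ⟪u, q.1⟫_ℝ]
  have h6 : ⟪u, q.1⟫_ℝ = 0 := by
    rcases mul_eq_zero.1 h4 with h | h
    · exact absurd h (mul_ne_zero two_ne_zero ht)
    · exact h
  rw [h6, zero_smul, sub_zero, smul_zero, add_zero] at hz
  refine ⟨hz, congrArg (fun x => x.2.1) h0, ?_⟩
  rw [h6] at h3
  linarith

omit [NormedSpace ℝ W] in
theorem sfc_of_eq {B : V →L[ℝ] V} {q : V × (W × ℝ)} (h1 : q.1 = 0) (h2 : q.2.1 = 0)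
    (h3 : q.2.2 ^ 2 = 1 / 4) : sfc B q = 0 := by
  unfold sfc SB
  rw [h1, h2, h3]
  simp

theorem contDiff_sfc {n : WithTop ℕ∞} {E : Type} [NormedAddCommGroup E] [NormedSpace ℝ E]
    {B : E → V →L[ℝ] V} {q : E → V × (W × ℝ)} (hB : ContDiff ℝ n B) (hq : ContDiff ℝ n q) :
    ContDiff ℝ n fun x => sfc (B x) (q x) := by
  have h1 : ContDiff ℝ n fun x => (q x).1 := hq.fst
  have h2 : ContDiff ℝ n fun x => (q x).2.1 := hq.snd.fst
  have h3 : ContDiff ℝ n fun x => (q x).2.2 := hq.snd.snd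
  have h4 : ContDiff ℝ n fun x => B x (q x).1 := hB.clm_apply h1
  unfold sfc SB
  refine ContDiff.prodMk ?_ (ContDiff.prodMk h2 ?_)
  · exact (h1.sub h4).add ((contDiff_const.mul h3).smul h4)
  · exact ((h3.pow 2).sub (h1.inner ℝ h4)).sub contDiff_const

/-- the derivative of `sfc` at the points with `z = 0` -/
noncomputable def dsf (B : V →L[ℝ] V) (t : ℝ) : (V × (W × ℝ)) →L[ℝ] (V × (W × ℝ)) :=
  ((ContinuousLinearMap.id ℝ V - B + (2 * t) • B).comp (ContinuousLinearMap.fst ℝ V (W × ℝ))).prod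
    (((ContinuousLinearMap.fst ℝ W ℝ).comp (ContinuousLinearMap.snd ℝ V (W × ℝ))).prod
      ((2 * t) • (ContinuousLinearMap.snd ℝ W ℝ).comp (ContinuousLinearMap.snd ℝ V (W × ℝ))))

theorem dsf_apply (B : V →L[ℝ] V) (t : ℝ) (q : V × (W × ℝ)) :
    dsf B t q = (q.1 - B q.1 + (2 * t) • B q.1, (q.2.1, 2 * t * q.2.2)) := rfl

theorem hasFDerivAt_sfc {E : Type} [NormedAddCommGroup E] [NormedSpace ℝ E]
    {B : E → V →L[ℝ] V} {q : E → V × (W × ℝ)} {x : E} {B' : E →L[ℝ] (V →L[ℝ] V)}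
    {q' : E →L[ℝ] V × (W × ℝ)} (hB : HasFDerivAt B B' x) (hq : HasFDerivAt q q' x)
    (h0 : (q x).1 = 0) :
    HasFDerivAt (fun x => sfc (B x) (q x)) ((dsf (B x) (q x).2.2).comp q') x := by
  have h1 : HasFDerivAt (fun x => (q x).1) ((ContinuousLinearMap.fst ℝ V (W × ℝ)).comp q') x :=
    hq.fst
  have h2 : HasFDerivAt (fun x => (q x).2.1) ((ContinuousLinearMap.fst ℝ W ℝ).comp
    ((ContinuousLinearMap.snd ℝ V (W × ℝ)).comp q')) x := hq.snd.fst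
  have h3 : HasFDerivAt (fun x => (q x).2.2) ((ContinuousLinearMap.snd ℝ W ℝ).comp
    ((ContinuousLinearMap.snd ℝ V (W × ℝ)).comp q')) x := hq.snd.snd
  have h4 := hB.clm_apply h1
  have h5 := (h3.const_mul 2).smul h4
  have h6 := h3.pow 2
  have h7 := h1.inner ℝ h4
  have h8 := ((h1.sub h4).add h5).prodMk (h2.prodMk ((h6.sub h7).sub_const (1 / 4)))
  refine HasFDerivAt.congr_fderiv (f := fun x => sfc (B x) (q x)) h8 ?_
  ext v
  all_goals simp [h0, dsf_apply, fderivInnerCLM_apply]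

theorem surjective_dsf [FiniteDimensional ℝ V] (p : PV V) {B : V →L[ℝ] V}
    (hB : ‖B - p.1‖ ≤ 1 / 40) {t : ℝ} (ht : t ^ 2 = 1 / 4) :
    Function.Surjective (dsf (W := W) B t) := by
  have h1 : |t| = 1 / 2 := by
    rw [← abs_of_pos (show (0 : ℝ) < 1 / 2 by norm_num), ← sq_eq_sq_iff_abs_eq_abs, ht]
    norm_num
  have ht0 : t ≠ 0 := by
    rintro rfl
    norm_num at ht
  let A : V →ₗ[ℝ] V := (ContinuousLinearMap.id ℝ V - B + (2 * t) • B : V →L[ℝ] V)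
  have hA : Function.Injective A := by
    rw [injective_iff_map_eq_zero]
    intro z hz
    exact inj_near p hB (by rw [h1]; norm_num) (by rw [h1]; norm_num) hz
  have hAs : Function.Surjective A := LinearMap.injective_iff_surjective.1 hA
  rintro ⟨a, b, τ⟩
  obtain ⟨z, hz⟩ := hAs a
  refine ⟨(z, (b, τ / (2 * t))), ?_⟩
  rw [dsf_apply]
  refine Prod.ext hz (Prod.ext rfl ?_)
  show 2 * t * (τ / (2 * t)) = τ
  field_simp

end Vale.Agent.P263.FR
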