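import Vale.Agent.P263.FR.PT

/-!
# P263, block G: homotopies of maps to `(ℝᴷ × N)⁺` which agree near the zeros

`germT` : two maps `c, c' : Z → (ℝᴷ × N)⁺`, `Z` and `N` compact, are homotopic if the zeros of their
first components lie in the interior of `O` and they are connected on `O` by a homotopy of maps to
`ℝᴷ × N` without further zeros.
-/

open OnePoint Topology Filter

namespace Vale.Agent.P263.FR

section general

variable {Z : Type} [TopologicalSpace Z] {K : ℕ} {P : Type} [TopologicalSpace P]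

theorem homotopicRel_pairS' {A : unitInterval × Z → OnePoint (Fin K → ℝ)}
    (hA : Continuous A) {T : Set (unitInterval × Z)}
    (hT : ∀ q, A q ≠ ∞ → q ∈ T) {p : T → P} (hp : Continuous p) {S : Set Z}
    (hi : ∀ t, ∀ z ∈ S, A (t, z) = ∞)
    {g₀ g₁ : C(Z, OnePoint ((Fin K → ℝ) × P))}
    (h0 : ∀ z, pairS A T p (0, z) = g₀ z) (h1 : ∀ z, pairS A T p (1, z) = g₁ z) :
    g₀.HomotopicRel g₁ S :=
  ⟨{ toFun := pairS A T p
     continuous_toFun := continuous_pairS hA hT hp
     map_zero_left := h0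
     map_one_left := h1
     prop' := by
      intro t z hz
      show pairS A T p (t, z) = g₀ z
      rw [← h0 z, pairS_infty (hi t z hz), pairS_infty (hi 0 z hz)] }⟩

/-- localisation of the first component -/
noncomputable def psT [CompactSpace P] (s : ℝ) (hs : 0 ≤ s)
    (c : C(Z, OnePoint ((Fin K → ℝ) × P))) : C(Z, OnePoint ((Fin K → ℝ) × P)) :=
  ⟨pairS (fun z => Psi s (fstT (c z))) {z | c z ≠ ∞} (sndT c), by
    refine continuous_pairS ?_ ?_ (continuous_sndT c.continuous)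
    · rw [← continuousOn_univ]
      exact ContinuousOn.psi continuousOn_const
        (continuous_fstT.comp c.continuous).continuousOn fun _ _ => hs
    · intro z hz h
      apply hz
      rw [h]
      rfl⟩

theorem psT_apply [CompactSpace P] {s : ℝ} (hs : 0 ≤ s) (c : C(Z, OnePoint ((Fin K → ℝ) × P)))
    (z : Z) : psT s hs c z = pairS (fun z => Psi s (fstT (c z))) {z | c z ≠ ∞} (sndT c) z := rfl

theorem psT_infty [CompactSpace P] {s : ℝ} (hs : 0 ≤ s) {c : C(Z, OnePoint ((Fin K → ℝ) × P))}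
    {z : Z} (h : c z = ∞) : psT s hs c z = ∞ := by
  rw [psT_apply]
  refine pairS_infty ?_
  rw [h]
  rfl

theorem psT_coe [CompactSpace P] {s : ℝ} (hs : 0 ≤ s) {c : C(Z, OnePoint ((Fin K → ℝ) × P))}
    {z : Z} {v : Fin K → ℝ} {x : P} (h : c z = ((v, x) : (Fin K → ℝ) × P)) :
    psT s hs c z = prT (Psi s (v : OnePoint (Fin K → ℝ))) x := by
  have hz : c z ≠ ∞ := by rw [h]; exact OnePoint.coe_ne_infty _
  rw [psT_apply, pairS_of_mem (show z ∈ {z | c z ≠ ∞} from hz)]
  have h1 := prT_sndT c ⟨z, hz⟩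
  have h2 : sndT c ⟨z, hz⟩ = x := by
    obtain ⟨v', hv'⟩ := exists_coe_sndT c ⟨z, hz⟩
    have h3 : ((v', sndT c ⟨z, hz⟩) : (Fin K → ℝ) × P) = (v, x) :=
      OnePoint.coe_injective (hv'.symm.trans h)
    exact congrArg Prod.snd h3
  rw [h2, h]
  rfl

/-- a map is homotopic to its localisation -/
theorem psT_homotopic [CompactSpace P] {s : ℝ} (hs : 0 ≤ s)
    (c : C(Z, OnePoint ((Fin K → ℝ) × P))) {S : Set Z} (hS : ∀ z ∈ S, c z = ∞) :
    c.HomotopicRel (psT s hs c) S := by
  let T : Set (unitInterval × Z) := {q | c q.2 ≠ ∞}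
  let p : T → P := fun q => sndT c ⟨q.1.2, q.2⟩
  have hp : Continuous p := (continuous_sndT c.continuous).comp
    (Continuous.subtype_mk (continuous_snd.comp continuous_subtype_val) _)
  have hA : Continuous fun q : unitInterval × Z => Psi (s * (q.1 : ℝ)) (fstT (c q.2)) := by
    rw [← continuousOn_univ]
    refine ContinuousOn.psi ?_ ?_ fun q _ => mul_nonneg hs q.1.2.1
    · exact (continuous_const.mul (continuous_subtype_val.comp continuous_fst)).continuousOn
    · exact (continuous_fstT.comp (c.continuous.comp continuous_snd)).continuousOn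
  refine homotopicRel_pairS' hA (T := T) (fun q hq h => hq ?_) hp (fun t z hz => ?_)
    (fun z => ?_) fun z => ?_
  · rw [h]; rfl
  · show Psi _ (fstT (c z)) = ∞
    rw [hS z hz]; rfl
  · by_cases hz : c z ≠ ∞
    · rw [pairS_of_mem (show ((0 : unitInterval), z) ∈ T from hz)]
      show prT (Psi (s * ((0 : unitInterval) : ℝ)) (fstT (c z))) (sndT c ⟨z, hz⟩) = c z
      rw [Set.Icc.coe_zero, mul_zero, Psi_zero]
      exact prT_sndT c ⟨z, hz⟩
    · rw [pairS_of_notMem (show ((0 : unitInterval), z) ∉ T from hz)]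
      exact (not_not.1 hz).symm
  · by_cases hz : c z ≠ ∞
    · rw [pairS_of_mem (show ((1 : unitInterval), z) ∈ T from hz)]
      rw [psT_apply, pairS_of_mem (show z ∈ {z | c z ≠ ∞} from hz)]
      show prT (Psi (s * ((1 : unitInterval) : ℝ)) (fstT (c z))) (sndT c ⟨z, hz⟩) = _
      rw [Set.Icc.coe_one, mul_one]
    · rw [pairS_of_notMem (show ((1 : unitInterval), z) ∉ T from hz), psT_infty hs (not_not.1 hz)]

/-- far from the zeros -/
theorem exists_far [CompactSpace Z] {A : Z → OnePoint (Fin K → ℝ)} (hA : Continuous A) {O : Set Z}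
    (hz : ∀ z, A z = ((0 : Fin K → ℝ) : OnePoint (Fin K → ℝ)) → z ∈ interior O) :
    ∃ s₀ : ℝ, 0 < s₀ ∧ ∀ s, s₀ ≤ s → ∀ z, z ∉ interior O → Psi s (A z) = ∞ := by
  let Q : Set Z := (interior O)ᶜ ∩ A ⁻¹' ((↑) '' {v : Fin K → ℝ | qn v ≤ 1})
  have hQ : IsCompact Q := by
    refine IsClosed.isCompact (IsClosed.inter isOpen_interior.isClosed_compl ?_)
    exact (OnePoint.isClosed_image_coe.2 ⟨isClosed_le continuous_qn continuous_const,
      isCompact_qn 1⟩).preimage hA
  have hfin : ∀ z ∈ Q, ∃ v : Fin K → ℝ, A z = v ∧ qn v ≤ 1 := by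
    rintro z ⟨-, v, hv, hvz⟩
    exact ⟨v, hvz.symm, hv⟩
  have hc : ContinuousOn (fun z => qn (crd (A z))) Q := by
    intro z hz
    obtain ⟨v, hv, -⟩ := hfin z hz
    have h1 : ContinuousAt crd (A z) := continuousAt_crd (by
      rw [hv]; exact OnePoint.coe_ne_infty v)
    exact (continuous_qn.continuousAt.comp (ContinuousAt.comp (g := crd) (f := A) h1
      hA.continuousAt)).continuousWithinAt
  have hpos : ∀ z ∈ Q, 0 < qn (crd (A z)) := by
    intro z hzQ
    obtain ⟨v, hv, -⟩ := hfin z hzQ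
    rw [hv, crd_coe]
    refine qn_pos fun h0 => hzQ.1 (hz z ?_)
    rw [hv, h0]
  obtain ⟨δ, hδ, hmin⟩ := hQ.exists_forall_le' hc hpos
  refine ⟨max 1 (1 / δ), lt_max_of_lt_left one_pos, fun s hs z hzO => ?_⟩
  obtain ⟨w, hw⟩ : ∃ w, w = A z := ⟨_, rfl⟩
  induction w using OnePoint.rec with
  | infty => rw [← hw, Psi_infty]
  | coe v =>
    rw [← hw]
    apply Psi_of_le
    by_cases hv : qn v ≤ 1
    · have h1 : z ∈ Q := ⟨hzO, v, hv, hw⟩
      have h2 := hmin z h1
      rw [← hw, crd_coe] at h2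
      have h3 : 1 / δ ≤ s := (le_max_right _ _).trans hs
      have h4 : 1 = 1 / δ * δ := by field_simp
      rw [h4]
      exact mul_le_mul h3 h2 hδ.le ((by positivity : (0 : ℝ) ≤ 1 / δ).trans h3)
    · have h3 : 1 ≤ s := (le_max_left _ _).trans hs
      nlinarith [not_le.1 hv]

end general

section germ

variable {Z : Type} [TopologicalSpace Z] [CompactSpace Z] {K : ℕ} {N : Type}
  [TopologicalSpace N] [CompactSpace N]

/-- **the germ lemma** -/
theorem germT {c c' : C(Z, OnePoint ((Fin K → ℝ) × N))} {O : Set Z} (hO : IsClosed O)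
    (H : unitInterval × Z → (Fin K → ℝ)) (hH : ContinuousOn H {q | q.2 ∈ O})
    (p : {q : unitInterval × Z | q.2 ∈ O} → N) (hp : Continuous p)
    (h0 : ∀ z (hz : z ∈ O), c z = ((H (0, z), p ⟨(0, z), hz⟩) : (Fin K → ℝ) × N))
    (h1 : ∀ z (hz : z ∈ O), c' z = ((H (1, z), p ⟨(1, z), hz⟩) : (Fin K → ℝ) × N))
    (hne : ∀ τ, ∀ z ∈ O, H (τ, z) = 0 → z ∈ interior O)
    (hc : ∀ z x, c z = (((0 : Fin K → ℝ), x) : (Fin K → ℝ) × N) → z ∈ interior O)
    (hc' : ∀ z x, c' z = (((0 : Fin K → ℝ), x) : (Fin K → ℝ) × N) → z ∈ interior O)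
    {S : Set Z} (hS : ∀ z ∈ S, c z = ∞) (hS' : ∀ z ∈ S, c' z = ∞) : c.HomotopicRel c' S := by
  have hz0 : ∀ (g : C(Z, OnePoint ((Fin K → ℝ) × N))),
      (∀ z x, g z = (((0 : Fin K → ℝ), x) : (Fin K → ℝ) × N) → z ∈ interior O) →
      ∀ z, fstT (g z) = ((0 : Fin K → ℝ) : OnePoint (Fin K → ℝ)) → z ∈ interior O := by
    intro g hg z h
    obtain ⟨w, hw⟩ : ∃ w, w = g z := ⟨_, rfl⟩
    induction w using OnePoint.rec with
    | infty =>
      rw [← hw] at h
      exact absurd h (OnePoint.infty_ne_coe _)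
    | coe w =>
      rw [← hw] at h
      have h2 : w.1 = 0 := OnePoint.coe_injective h
      refine hg z w.2 ?_
      rw [← hw, ← h2]
  obtain ⟨s₁, hs₁, f1⟩ := exists_far (continuous_fstT.comp c.continuous) (hz0 c hc)
  obtain ⟨s₂, hs₂, f2⟩ := exists_far (continuous_fstT.comp c'.continuous) (hz0 c' hc')
  -- the frontier
  have hQ : IsCompact ((Set.univ : Set unitInterval) ×ˢ (O \ interior O)) :=
    isCompact_univ.prod (hO.isCompact.diff isOpen_interior)
  obtain ⟨δ, hδ, hmin⟩ := hQ.exists_forall_le' (f := fun q => qn (H q)) (a := 0)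
    (continuous_qn.comp_continuousOn (hH.mono fun q hq => hq.2.1)) (fun q hq =>
      qn_pos fun h => hq.2.2 (hne q.1 q.2 hq.2.1 h))
  let s : ℝ := max (max s₁ s₂) (1 / δ)
  have hs1 : s₁ ≤ s := (le_max_left _ _).trans (le_max_left _ _)
  have hs2 : s₂ ≤ s := (le_max_right _ _).trans (le_max_left _ _)
  have hs0 : 0 ≤ s := hs₁.le.trans hs1
  have hsδ : ∀ t, ∀ z ∈ O, z ∉ interior O → 1 ≤ s * qn (H (t, z)) := by
    intro t z hz hzi
    have h2 : δ ≤ qn (H (t, z)) := hmin (t, z) ⟨Set.mem_univ _, hz, hzi⟩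
    have h3 : 1 / δ ≤ s := le_max_right _ _
    have h4 : 1 = 1 / δ * δ := by field_simp
    rw [h4]
    exact mul_le_mul h3 h2 hδ.le ((by positivity : (0 : ℝ) ≤ 1 / δ).trans h3)
  let A : unitInterval × Z → OnePoint (Fin K → ℝ) :=
    cut {q | q.2 ∈ O} fun q => Psi s ((H q : Fin K → ℝ) : OnePoint (Fin K → ℝ))
  have hA : Continuous A := by
    refine continuous_cut (C := {q : unitInterval × Z | q.2 ∈ O})
      (U := {q : unitInterval × Z | q.2 ∈ interior O})
      (hO.preimage continuous_snd) (isOpen_interior.preimage continuous_snd)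
      (fun q hq => show q.2 ∈ O from interior_subset (show q.2 ∈ interior O from hq)) ?_ ?_
    · exact ContinuousOn.psi continuousOn_const (OnePoint.continuous_coe.comp_continuousOn hH)
        fun _ _ => hs0
    · rintro ⟨t, z⟩ hq hq'
      exact Psi_of_le (hsδ t z hq hq')
  have hT : ∀ q, A q ≠ ∞ → q ∈ {q : unitInterval × Z | q.2 ∈ O} := by
    intro q hq
    by_contra h
    exact hq (cut_of_notMem h)
  have key : ∀ (g : C(Z, OnePoint ((Fin K → ℝ) × N))) (t : unitInterval),
      (∀ z (hz : z ∈ O), g z = ((H (t, z), p ⟨(t, z), hz⟩) : (Fin K → ℝ) × N)) →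
      (∀ z, z ∉ interior O → Psi s (fstT (g z)) = ∞) →
      ∀ z, pairS A {q : unitInterval × Z | q.2 ∈ O} p (t, z) = psT s hs0 g z := by
    intro g t hg hf z
    by_cases hz : z ∈ O
    · rw [pairS_of_mem (show (t, z) ∈ {q : unitInterval × Z | q.2 ∈ O} from hz),
        psT_coe hs0 (hg z hz)]
      show prT (cut _ _ (t, z)) _ = _
      rw [cut_of_mem (show (t, z) ∈ {q : unitInterval × Z | q.2 ∈ O} from hz)]
    · rw [pairS_of_notMem (show (t, z) ∉ {q : unitInterval × Z | q.2 ∈ O} from hz)]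
      rw [psT_apply]
      exact (pairS_infty (A := fun z => Psi s (fstT (g z)))
        (hf z fun h => hz (interior_subset h))).symm
  have hmid : (psT s hs0 c).HomotopicRel (psT s hs0 c') S := by
    refine homotopicRel_pairS' hA hT hp (fun t z hz => ?_) (key c 0 h0 (f1 s hs1))
      (key c' 1 h1 (f2 s hs2))
    refine cut_of_notMem fun h => ?_
    have := h0 z h
    rw [hS z hz] at this
    exact OnePoint.infty_ne_coe _ this
  exact ((psT_homotopic hs0 c hS).trans hmid).trans (psT_homotopic hs0 c' hS').symm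

end germ

end Vale.Agent.P263.FR
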