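import Vale.Agent.P263.FR.Tub

/-!
# P263, block G: framed manifolds given by a smooth map on a compact set, second form

`Pre m K` : `Tub m K` without the conditions `ρ_seg`, `ρ_near`; `D.F`, `D.c`, `D.regular`,
`D.isCollapse` as for `Tub`.
-/

open OnePoint Topology Filter CategoryTheory

namespace Vale.Agent.P263.FR

open Vale.Agent.P263.ST

/-- a smooth map `f` with regular zeros in the compact set `C`, and a retraction -/
structure Pre (m K : ℕ) where
  /-- the map -/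
  f : (Fin m → ℝ) → (Fin K → ℝ)
  smooth : ContDiff ℝ ((⊤ : ℕ∞) : WithTop ℕ∞) f
  /-- the compact set -/
  C : Set (Fin m → ℝ)
  /-- an open subset -/
  U : Set (Fin m → ℝ)
  isOpen_U : IsOpen U
  isCompact_C : IsCompact C
  subset : U ⊆ C
  /-- the parameter -/
  s : ℝ
  s_pos : 0 < s
  far : ∀ x ∈ C, x ∉ U → 1 ≤ s * qn (f x)
  surj : ∀ x ∈ C, f x = 0 → Function.Surjective (fderiv ℝ f x)
  /-- the retraction -/
  ρ : (Fin m → ℝ) → (Fin m → ℝ)
  ρ_cont : ContinuousOn ρ {x | x ∈ C ∧ s * qn (f x) ≤ 1}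
  ρ_mem : ∀ x ∈ C, s * qn (f x) ≤ 1 → ρ x ∈ C ∧ f (ρ x) = 0
  ρ_id : ∀ x ∈ C, f x = 0 → ρ x = x

namespace Pre

variable {m K : ℕ} (D : Pre m K)

/-- the map on the sphere -/
noncomputable def F0 (z : OnePoint (Fin m → ℝ)) : OnePoint (Fin K → ℝ) :=
  extC D.C (fun q : Unit × (Fin m → ℝ) => Psi D.s ((D.f q.2 : Fin K → ℝ) : OnePoint (Fin K → ℝ)))
    ((), z)

theorem continuous_F0 : Continuous D.F0 := by
  have h1 : Continuous fun q : Unit × (Fin m → ℝ) =>
      Psi D.s ((D.f q.2 : Fin K → ℝ) : OnePoint (Fin K → ℝ)) := by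
    rw [← continuousOn_univ]
    exact ContinuousOn.psi continuousOn_const
      ((OnePoint.continuous_coe.comp (D.smooth.continuous.comp continuous_snd)).continuousOn)
      fun _ _ => D.s_pos.le
  exact (continuous_extC D.isCompact_C D.isCompact_C.isClosed D.isOpen_U D.subset h1.continuousOn
    fun _ x hx hU => Psi_of_le (D.far x hx hU)).comp (Continuous.prodMk_right ())

/-- the map `Sᵐ → Sᴷ` -/
noncomputable def F : Sph m ⟶ Sph K := TopCat.ofHom ⟨D.F0, D.continuous_F0⟩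

theorem F_apply (z : Sph m) : D.F z = D.F0 z := rfl

@[simp] theorem F0_infty : D.F0 ∞ = ∞ := rfl

theorem F_pt : D.F (pt m) = pt K := rfl

theorem F0_of_mem {x : Fin m → ℝ} (hx : x ∈ D.C) :
    D.F0 (x : OnePoint (Fin m → ℝ)) = Psi D.s ((D.f x : Fin K → ℝ) : OnePoint (Fin K → ℝ)) :=
  extC_of_mem hx

theorem F0_of_notMem {x : Fin m → ℝ} (hx : x ∉ D.C) : D.F0 (x : OnePoint (Fin m → ℝ)) = ∞ :=
  extC_of_notMem hx

theorem F0_of_lt {x : Fin m → ℝ} (hx : x ∈ D.C) (h : D.s * qn (D.f x) < 1) :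
    D.F0 (x : OnePoint (Fin m → ℝ)) = (((1 - D.s * qn (D.f x))⁻¹ • D.f x : Fin K → ℝ) :
      OnePoint (Fin K → ℝ)) := by
  rw [D.F0_of_mem hx, Psi_of_lt h]

theorem F0_ne {z : OnePoint (Fin m → ℝ)} (h : D.F0 z ≠ ∞) :
    ∃ x : Fin m → ℝ, z = x ∧ x ∈ D.C ∧ D.s * qn (D.f x) < 1 := by
  obtain ⟨x, rfl, hx, h1⟩ := extC_ne h
  obtain ⟨v, hv, h2⟩ := Psi_ne h1
  rw [OnePoint.coe_eq_coe] at hv
  rw [← hv] at h2
  exact ⟨x, rfl, hx, h2⟩

theorem F0_eq_zero {x : Fin m → ℝ} :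
    D.F0 (x : OnePoint (Fin m → ℝ)) = ((0 : Fin K → ℝ) : OnePoint (Fin K → ℝ)) ↔
      x ∈ D.C ∧ D.f x = 0 := by
  constructor
  · intro h
    have hne : D.F0 (x : OnePoint (Fin m → ℝ)) ≠ ∞ := by rw [h]; exact OnePoint.coe_ne_infty _
    obtain ⟨x', hx', hC, -⟩ := D.F0_ne hne
    rw [OnePoint.coe_eq_coe] at hx'
    rw [← hx'] at hC
    rw [D.F0_of_mem hC, Psi_eq_zero, OnePoint.coe_eq_coe] at h
    exact ⟨hC, h⟩
  · rintro ⟨hC, h⟩
    rw [D.F0_of_mem hC, h]
    exact Psi_eq_zero.2 rfl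

theorem F_eq_zero {x : Fin m → ℝ} : D.F (at' x) = at' 0 ↔ x ∈ D.C ∧ D.f x = 0 := D.F0_eq_zero

/-- the points of the manifold -/
theorem mem_Mfd (v : Mfd D.F) : v.1 ∈ D.C ∧ D.f v.1 = 0 := D.F_eq_zero.1 v.2

theorem isCompact_zeros : IsCompact {x | x ∈ D.C ∧ D.f x = 0} :=
  D.isCompact_C.inter_right (isClosed_eq D.smooth.continuous continuous_const)

theorem compactSpace_Mfd : CompactSpace (Mfd D.F) := by
  have h : IsCompact {x : Fin m → ℝ | D.F (at' x) = at' 0} := by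
    have : {x : Fin m → ℝ | D.F (at' x) = at' 0} = {x | x ∈ D.C ∧ D.f x = 0} := by
      ext x
      exact D.F_eq_zero
    rw [this]
    exact D.isCompact_zeros
  exact isCompact_iff_compactSpace.1 h

theorem t2Space_Mfd : T2Space (Mfd D.F) :=
  inferInstanceAs (T2Space {x : Fin m → ℝ // D.F (at' x) = at' 0})

/-- the retraction on the points of the sphere with finite value -/
noncomputable def ret (z : {z : OnePoint (Fin m → ℝ) | D.F0 z ≠ ∞}) : Mfd D.F :=
  ⟨D.ρ (crd z.1), D.F_eq_zero.2 (by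
    obtain ⟨x, hx, hC, hlt⟩ := D.F0_ne z.2
    rw [hx, crd_coe]
    exact D.ρ_mem x hC hlt.le)⟩

theorem continuous_ret : Continuous D.ret := by
  apply Continuous.subtype_mk
  rw [continuous_iff_continuousAt]
  intro z
  obtain ⟨x, hx, hC, hlt⟩ := D.F0_ne z.2
  have h1 : ContinuousAt (fun z : {z : OnePoint (Fin m → ℝ) | D.F0 z ≠ ∞} => crd z.1) z :=
    ContinuousAt.comp (continuousAt_crd (by rw [hx]; exact OnePoint.coe_ne_infty _))
      continuous_subtype_val.continuousAt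
  have h2 : ∀ z : {z : OnePoint (Fin m → ℝ) | D.F0 z ≠ ∞},
      crd z.1 ∈ {x | x ∈ D.C ∧ D.s * qn (D.f x) ≤ 1} := fun z => by
    obtain ⟨x, hx, hC, hlt⟩ := D.F0_ne z.2
    rw [hx]
    exact ⟨hC, hlt.le⟩
  have h3 := D.ρ_cont (crd z.1) (h2 z)
  exact h3.tendsto.comp (tendsto_nhdsWithin_iff.2 ⟨h1, Eventually.of_forall h2⟩)

/-- the collapse map -/
noncomputable def c0 (z : OnePoint (Fin m → ℝ)) : OnePoint ((Fin K → ℝ) × Mfd D.F) :=
  pairS D.F0 {z | D.F0 z ≠ ∞} D.ret z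

theorem continuous_c0 : Continuous D.c0 :=
  continuous_pairS D.continuous_F0 (fun _ h => h) D.continuous_ret

/-- the collapse map -/
noncomputable def c : Sph m ⟶ Th K (Mfd D.F) := TopCat.ofHom ⟨D.c0, D.continuous_c0⟩

theorem c_apply (z : Sph m) : D.c z = D.c0 z := rfl

@[simp] theorem c0_infty : D.c0 ∞ = ∞ := pairS_infty D.F0_infty

theorem c_pt : D.c (pt m) = ∞ := D.c0_infty

theorem c0_of_ne {z : OnePoint (Fin m → ℝ)} (h : D.F0 z ≠ ∞) :
    D.c0 z = prT (D.F0 z) (D.ret ⟨z, h⟩) := pairS_of_mem h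

theorem isCollapse : IsCollapse D.F D.c := by
  refine ⟨fun z => map_fst_pairS (fun _ h => h) z, fun v => ?_⟩
  have h1 : D.F0 ((v.1 : Fin m → ℝ) : OnePoint (Fin m → ℝ)) = ((0 : Fin K → ℝ) :
    OnePoint (Fin K → ℝ)) := v.2
  have h2 : D.F0 ((v.1 : Fin m → ℝ) : OnePoint (Fin m → ℝ)) ≠ ∞ := by
    rw [h1]; exact OnePoint.coe_ne_infty _
  show D.c0 ((v.1 : Fin m → ℝ) : OnePoint (Fin m → ℝ)) = _
  rw [D.c0_of_ne h2, h1, prT_coe]
  have h3 : D.ret ⟨((v.1 : Fin m → ℝ) : OnePoint (Fin m → ℝ)), h2⟩ = v := by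
    apply Subtype.ext
    exact D.ρ_id v.1 (D.mem_Mfd v).1 (D.mem_Mfd v).2
  rw [h3]

/-- the open set of the points with finite value -/
theorem isOpen_dom : IsOpen {x : Fin m → ℝ | x ∈ D.U ∧ D.s * qn (D.f x) < 1} :=
  D.isOpen_U.inter (isOpen_lt (continuous_const.mul (continuous_qn.comp D.smooth.continuous))
    continuous_const)

theorem regular : Regular D.F := by
  refine ⟨{x : Fin m → ℝ | x ∈ D.U ∧ D.s * qn (D.f x) < 1},
    fun x => (1 - D.s * qn (D.f x))⁻¹ • D.f x, D.isOpen_dom, ?_, ?_, ?_⟩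
  · refine ContDiffOn.smul (f := fun x => (1 - D.s * qn (D.f x))⁻¹) (g := D.f) ?_
      D.smooth.contDiffOn
    apply ContDiffOn.inv
    · exact (contDiff_const.sub (contDiff_const.mul (Tub.contDiff_qn.comp D.smooth))).contDiffOn
    · rintro x ⟨-, hx⟩
      linarith
  · rintro x ⟨hU, hx⟩
    exact D.F0_of_lt (D.subset hU) hx
  · intro x hx
    obtain ⟨hC, h0⟩ := D.F_eq_zero.1 hx
    have hq : D.s * qn (D.f x) = 0 := by rw [h0, qn_zero, mul_zero]
    have hU : x ∈ D.U := by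
      by_contra h
      have := D.far x hC h
      linarith
    refine ⟨⟨hU, by rw [hq]; norm_num⟩, ?_⟩
    have h1 : DifferentiableAt ℝ D.f x := D.smooth.differentiable (by simp) x
    have h2 : DifferentiableAt ℝ (fun x => (1 - D.s * qn (D.f x))⁻¹) x := by
      apply DifferentiableAt.inv
      · exact ((contDiff_const.sub (contDiff_const.mul (Tub.contDiff_qn.comp D.smooth))).differentiable
          (by simp)) x
      · rw [hq]; norm_num
    have h3 : fderiv ℝ (fun x => (1 - D.s * qn (D.f x))⁻¹ • D.f x) x = fderiv ℝ D.f x := by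
      rw [fderiv_fun_smul h2 h1, hq, h0]
      ext v
      simp
    rw [h3]
    exact D.surj x hC h0

end Pre

end Vale.Agent.P263.FR
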