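import Vale.Agent.P263.FR.FNa
import Vale.Agent.P263.FR.Pre
import Vale.Agent.P263.FR.Germ

/-!
# P263, block G: the framed manifold `N = M ⊔ M'`

* `BD D l` : a smooth map `B` near the map `x ↦ l (ρ x)` to the projections.
* `BD.pre` : `N` as a `Pre (m + 1) (K + 1)`, the zeros of `φ (sfc (B x) (f x, t))`.
-/

open OnePoint Topology Filter CategoryTheory

namespace Vale.Agent.P263.FR

open Vale.Agent.P263.ST Vale.Agent.P263.KJ

/-! ### coordinates -/

section crd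

variable {m : ℕ}

/-- the first coordinates -/
def xp (y : Fin (m + 1) → ℝ) (i : Fin m) : ℝ := y (Fin.castAdd 1 i)

/-- the last coordinate -/
def tp (y : Fin (m + 1) → ℝ) : ℝ := y (Fin.natAdd m 0)

/-- the point with the coordinates `x, t` -/
def ap (x : Fin m → ℝ) (t : ℝ) : Fin (m + 1) → ℝ := Fin.append x fun _ => t

@[simp] theorem xp_ap (x : Fin m → ℝ) (t : ℝ) : xp (ap x t) = x := by
  funext i
  exact Fin.append_left x (fun _ => t) i

@[simp] theorem tp_ap (x : Fin m → ℝ) (t : ℝ) : tp (ap x t) = t :=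
  Fin.append_right x (fun _ => t) 0

@[simp] theorem ap_xp_tp (y : Fin (m + 1) → ℝ) : ap (xp y) (tp y) = y := by
  funext i
  refine Fin.addCases (fun i => ?_) (fun i => ?_) i
  · exact Fin.append_left _ _ i
  · have : i = 0 := Subsingleton.elim _ _
    subst this
    exact Fin.append_right _ _ _

/-- the projection to the first coordinates, linear -/
noncomputable def xpL (m : ℕ) : (Fin (m + 1) → ℝ) →L[ℝ] (Fin m → ℝ) :=
  ContinuousLinearMap.pi fun i => ContinuousLinearMap.proj (Fin.castAdd 1 i)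

/-- the last coordinate, linear -/
noncomputable def tpL (m : ℕ) : (Fin (m + 1) → ℝ) →L[ℝ] ℝ :=
  ContinuousLinearMap.proj (Fin.natAdd m 0)

theorem xpL_apply (y : Fin (m + 1) → ℝ) : xpL m y = xp y := rfl
theorem tpL_apply (y : Fin (m + 1) → ℝ) : tpL m y = tp y := rfl

theorem continuous_xp : Continuous (xp (m := m)) := (xpL m).continuous
theorem continuous_tp : Continuous (tp (m := m)) := (tpL m).continuous

theorem continuous_ap : Continuous fun q : (Fin m → ℝ) × ℝ => ap q.1 q.2 := by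
  refine continuous_pi fun i => ?_
  refine Fin.addCases (fun i => ?_) (fun i => ?_) i
  · refine ((continuous_apply i).comp continuous_fst).congr fun q => ?_
    exact (Fin.append_left _ _ i).symm
  · refine continuous_snd.congr fun q => ?_
    exact (Fin.append_right q.1 (fun _ => q.2) i).symm

theorem norm_ap_le (y : Fin (m + 1) → ℝ) {R : ℝ} (hR : 0 ≤ R) (h1 : ‖xp y‖ ≤ R)
    (h2 : |tp y| ≤ R) : ‖y‖ ≤ R := by
  rw [pi_norm_le_iff_of_nonneg hR]
  intro i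
  refine Fin.addCases (fun i => ?_) (fun i => ?_) i
  · exact (norm_le_pi_norm (xp y) i).trans h1
  · have : i = 0 := Subsingleton.elim _ _
    subst this
    exact h2

end crd

section main

variable {V : Type} [NormedAddCommGroup V] [InnerProductSpace ℝ V] [FiniteDimensional ℝ V]
variable {W : Type} [NormedAddCommGroup W] [NormedSpace ℝ W]
variable {m K : ℕ} (D : Tub m K) (l : C(Mfd D.F, PV V))

/-- the projection over the points of the tube -/
noncomputable def aP (x : Fin m → ℝ) : V →L[ℝ] V := by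
  classical
  exact if h : D.F0 (x : OnePoint (Fin m → ℝ)) ≠ ∞ then (l (D.ret ⟨_, h⟩)).1 else 0

variable {D} in
theorem ne_of_lt {x : Fin m → ℝ} (hC : x ∈ D.C) (h : D.s * qn (D.f x) < 1) :
    D.F0 (x : OnePoint (Fin m → ℝ)) ≠ ∞ := by
  rw [D.F0_of_lt hC h]
  exact OnePoint.coe_ne_infty _

variable {D} in
theorem ne_of_half {x : Fin m → ℝ} (hC : x ∈ D.C) (h : D.s * qn (D.f x) ≤ 1 / 2) :
    D.F0 (x : OnePoint (Fin m → ℝ)) ≠ ∞ := ne_of_lt hC (by linarith)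

omit [FiniteDimensional ℝ V] in
theorem aP_of {x : Fin m → ℝ} (h : D.F0 (x : OnePoint (Fin m → ℝ)) ≠ ∞) :
    aP D l x = (l (D.ret ⟨_, h⟩)).1 := dif_pos h

omit [FiniteDimensional ℝ V] in
theorem continuousOn_aP :
    ContinuousOn (aP D l) {x : Fin m → ℝ | D.F0 (x : OnePoint (Fin m → ℝ)) ≠ ∞} := by
  rw [continuousOn_iff_continuous_domRestrict]
  have h1 : Continuous fun x : {x : Fin m → ℝ | D.F0 (x : OnePoint (Fin m → ℝ)) ≠ ∞} =>
      ((l (D.ret ⟨_, x.2⟩)).1 : V →L[ℝ] V) := by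
    refine continuous_subtype_val.comp (l.continuous.comp (D.continuous_ret.comp ?_))
    exact Continuous.subtype_mk (OnePoint.continuous_coe.comp continuous_subtype_val) _
  exact h1.congr fun x => (aP_of D l x.2).symm

theorem isCompact_half : IsCompact {x | x ∈ D.C ∧ D.s * qn (D.f x) ≤ 1 / 2} :=
  D.isCompact_C.inter_right (isClosed_le
    (continuous_const.mul (continuous_qn.comp D.smooth.continuous)) continuous_const)

/-- a smooth map near the map to the projections -/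
structure BD where
  /-- the map -/
  B : (Fin m → ℝ) → (V →L[ℝ] V)
  smooth : ContDiff ℝ ((⊤ : ℕ∞) : WithTop ℕ∞) B
  near : ∀ x, x ∈ D.C → D.s * qn (D.f x) ≤ 1 / 2 → ‖B x - aP D l x‖ ≤ 1 / 40

theorem exists_BD : Nonempty (BD D l) := by
  obtain ⟨B, h1, h2⟩ := exists_smooth (isCompact_half D)
    ((continuousOn_aP D l).mono fun x hx => ne_of_half hx.1 hx.2) (ε := 1 / 40) (by norm_num)
  exact ⟨⟨B, h1, fun x hx h => h2 x ⟨hx, h⟩⟩⟩

variable {D l} (T : BD D l) (φ₀ : (V × W) ≃L[ℝ] (Fin K → ℝ))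
  (φ : (V × (W × ℝ)) ≃L[ℝ] (Fin (K + 1) → ℝ))

/-- the coordinates of `(v, t)` -/
noncomputable def qc (v : Fin K → ℝ) (t : ℝ) : V × (W × ℝ) :=
  ((φ₀.symm v).1, ((φ₀.symm v).2, t))

omit [FiniteDimensional ℝ V] in
theorem qc_eq_zero {v : Fin K → ℝ} {t : ℝ} (h1 : (qc φ₀ v t).1 = 0) (h2 : (qc φ₀ v t).2.1 = 0) :
    v = 0 := by
  have h3 : φ₀.symm v = 0 := Prod.ext h1 h2
  rw [← φ₀.apply_symm_apply v, h3, map_zero]

omit [FiniteDimensional ℝ V] in
theorem qc_zero (t : ℝ) : (qc φ₀ 0 t) = ((0 : V), ((0 : W), t)) := by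
  unfold qc
  rw [map_zero]
  rfl

omit [FiniteDimensional ℝ V] in
theorem continuous_qc : Continuous fun q : (Fin K → ℝ) × ℝ => qc φ₀ q.1 q.2 := by
  unfold qc
  have h1 : Continuous fun q : (Fin K → ℝ) × ℝ => φ₀.symm q.1 :=
    φ₀.symm.continuous.comp continuous_fst
  exact h1.fst.prodMk (h1.snd.prodMk continuous_snd)

/-- the map `f₂` -/
noncomputable def BD.f2 (y : Fin (m + 1) → ℝ) : Fin (K + 1) → ℝ :=
  φ (sfc (T.B (xp y)) (qc φ₀ (D.f (xp y)) (tp y)))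

/-- the compact set -/
def C2 (D : Tub m K) : Set (Fin (m + 1) → ℝ) :=
  {y | xp y ∈ D.C ∧ D.s * qn (D.f (xp y)) ≤ 1 / 2 ∧ 1 / 4 ≤ |tp y| ∧ |tp y| ≤ 1}

/-- the open set -/
def U2 (D : Tub m K) : Set (Fin (m + 1) → ℝ) :=
  {y | xp y ∈ D.U ∧ D.s * qn (D.f (xp y)) < 1 / 2 ∧ 1 / 4 < |tp y| ∧ |tp y| < 1}

theorem U2_subset (D : Tub m K) : U2 D ⊆ C2 D := fun _ h =>
  ⟨D.subset h.1, h.2.1.le, h.2.2.1.le, h.2.2.2.le⟩

theorem isOpen_U2 (D : Tub m K) : IsOpen (U2 D) := by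
  have h1 : Continuous fun y : Fin (m + 1) → ℝ => D.s * qn (D.f (xp y)) :=
    continuous_const.mul (continuous_qn.comp (D.smooth.continuous.comp continuous_xp))
  have h2 : Continuous fun y : Fin (m + 1) → ℝ => |tp y| := continuous_abs.comp continuous_tp
  exact (D.isOpen_U.preimage continuous_xp).inter ((isOpen_lt h1 continuous_const).inter
    ((isOpen_lt continuous_const h2).inter (isOpen_lt h2 continuous_const)))

theorem isCompact_C2 (D : Tub m K) : IsCompact (C2 D) := by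
  have h1 : Continuous fun y : Fin (m + 1) → ℝ => D.s * qn (D.f (xp y)) :=
    continuous_const.mul (continuous_qn.comp (D.smooth.continuous.comp continuous_xp))
  have h2 : Continuous fun y : Fin (m + 1) → ℝ => |tp y| := continuous_abs.comp continuous_tp
  have hcl : IsClosed (C2 D) :=
    (D.isCompact_C.isClosed.preimage continuous_xp).inter ((isClosed_le h1 continuous_const).inter
      ((isClosed_le continuous_const h2).inter (isClosed_le h2 continuous_const)))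
  obtain ⟨R, hR⟩ := D.isCompact_C.isBounded.exists_norm_le
  refine Metric.isCompact_of_isClosed_isBounded hcl ?_
  rw [isBounded_iff_forall_norm_le]
  exact ⟨max |R| 1, fun y hy => norm_ap_le y (le_max_of_le_right zero_le_one)
    ((hR _ hy.1).trans ((le_abs_self R).trans (le_max_left _ _))) (hy.2.2.2.trans
      (le_max_right _ _))⟩

theorem mem_U2_of {D : Tub m K} {y : Fin (m + 1) → ℝ} (h1 : xp y ∈ D.C) (h2 : D.f (xp y) = 0)
    (h3 : tp y ^ 2 = 1 / 4) : y ∈ U2 D := by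
  have hq : D.s * qn (D.f (xp y)) = 0 := by rw [h2, qn_zero, mul_zero]
  have ht : |tp y| = 1 / 2 := by
    rw [← abs_of_pos (show (0 : ℝ) < 1 / 2 by norm_num), ← sq_eq_sq_iff_abs_eq_abs, h3]
    norm_num
  refine ⟨?_, by rw [hq]; norm_num, by rw [ht]; norm_num, by rw [ht]; norm_num⟩
  by_contra h
  have := D.far _ h1 h
  linarith

omit [FiniteDimensional ℝ V] in
/-- the convex combination of `B` and the projections -/
theorem BD.near' {x : Fin m → ℝ} (hx : x ∈ D.C) (h : D.s * qn (D.f x) ≤ 1 / 2) {τ : ℝ}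
    (h0 : 0 ≤ τ) (h1 : τ ≤ 1) :
    ‖((1 - τ) • T.B x + τ • aP D l x) - aP D l x‖ ≤ 1 / 40 := by
  have h2 : ((1 - τ) • T.B x + τ • aP D l x) - aP D l x = (1 - τ) • (T.B x - aP D l x) := by
    module
  rw [h2, norm_smul, Real.norm_eq_abs, abs_of_nonneg (by linarith)]
  have h3 := T.near x hx h
  nlinarith [norm_nonneg (T.B x - aP D l x)]

omit [FiniteDimensional ℝ V] in
/-- the zeros -/
theorem BD.zeros {x : Fin m → ℝ} (hx : x ∈ D.C) (h : D.s * qn (D.f x) ≤ 1 / 2) {τ : ℝ}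
    (h0 : 0 ≤ τ) (h1 : τ ≤ 1) {v : Fin K → ℝ} {t : ℝ} (ht : 1 / 4 ≤ |t|) (ht' : |t| ≤ 1)
    (hz : φ (sfc ((1 - τ) • T.B x + τ • aP D l x) (qc φ₀ v t)) = 0) : v = 0 ∧ t ^ 2 = 1 / 4 := by
  have h2 : sfc ((1 - τ) • T.B x + τ • aP D l x) (qc φ₀ v t) = 0 := by
    rw [← φ.symm_apply_apply (sfc _ _), hz, map_zero]
  have h3 := T.near' hx h h0 h1
  rw [aP_of D l (ne_of_half hx h)] at h3 h2
  obtain ⟨e1, e2, e3⟩ := sfc_eq_zero _ h3 ht ht' h2
  exact ⟨qc_eq_zero φ₀ e1 e2, e3⟩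

omit [FiniteDimensional ℝ V] in
theorem BD.f2_zeros {y : Fin (m + 1) → ℝ} (hy : y ∈ C2 D) (hz : T.f2 φ₀ φ y = 0) :
    D.f (xp y) = 0 ∧ tp y ^ 2 = 1 / 4 := by
  refine T.zeros φ₀ φ hy.1 hy.2.1 le_rfl zero_le_one hy.2.2.1 hy.2.2.2 (t := tp y) ?_
  rw [sub_zero, one_smul, zero_smul, add_zero]
  exact hz

omit [FiniteDimensional ℝ V] in
theorem BD.f2_of {y : Fin (m + 1) → ℝ} (h1 : D.f (xp y) = 0) (h2 : tp y ^ 2 = 1 / 4) :
    T.f2 φ₀ φ y = 0 := by
  unfold BD.f2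
  rw [h1, qc_zero, sfc_of_eq rfl rfl h2, map_zero]

omit [FiniteDimensional ℝ V] in
theorem contDiff_qc {E : Type} [NormedAddCommGroup E] [NormedSpace ℝ E] {n : WithTop ℕ∞}
    {v : E → (Fin K → ℝ)} {t : E → ℝ} (hv : ContDiff ℝ n v) (ht : ContDiff ℝ n t) :
    ContDiff ℝ n fun x => qc φ₀ (v x) (t x) := by
  unfold qc
  have h1 : ContDiff ℝ n fun x => φ₀.symm (v x) := φ₀.symm.contDiff.comp hv
  exact h1.fst.prodMk (h1.snd.prodMk ht)

omit [FiniteDimensional ℝ V] in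
theorem BD.contDiff_f2 : ContDiff ℝ ((⊤ : ℕ∞) : WithTop ℕ∞) (T.f2 φ₀ φ) := by
  unfold BD.f2
  refine φ.contDiff.comp (contDiff_sfc (T.smooth.comp (xpL m).contDiff) ?_)
  exact contDiff_qc φ₀ (D.smooth.comp (xpL m).contDiff) (tpL m).contDiff

theorem BD.f2_surj {y : Fin (m + 1) → ℝ} (hy : y ∈ C2 D) (hz : T.f2 φ₀ φ y = 0) :
    Function.Surjective (fderiv ℝ (T.f2 φ₀ φ) y) := by
  obtain ⟨hf, ht⟩ := T.f2_zeros φ₀ φ hy hz
  have hB : HasFDerivAt (fun y => T.B (xp y)) ((fderiv ℝ T.B (xp y)).comp (xpL m)) y :=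
    ((T.smooth.differentiable (by simp)) (xp y)).hasFDerivAt.comp y (xpL m).hasFDerivAt
  have hfd : HasFDerivAt (fun y => D.f (xp y)) ((fderiv ℝ D.f (xp y)).comp (xpL m)) y :=
    ((D.smooth.differentiable (by simp)) (xp y)).hasFDerivAt.comp y (xpL m).hasFDerivAt
  have h1 : HasFDerivAt (fun y => φ₀.symm (D.f (xp y)))
      ((φ₀.symm : (Fin K → ℝ) →L[ℝ] V × W).comp ((fderiv ℝ D.f (xp y)).comp (xpL m))) y :=
    (φ₀.symm : (Fin K → ℝ) →L[ℝ] V × W).hasFDerivAt.comp y hfd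
  have h2 := h1.fst.prodMk (h1.snd.prodMk (tpL m).hasFDerivAt)
  have h3 := hasFDerivAt_sfc hB h2 (by
    show (φ₀.symm (D.f (xp y))).1 = 0
    rw [hf, map_zero]
    rfl)
  have h4 := (φ : (V × (W × ℝ)) →L[ℝ] (Fin (K + 1) → ℝ)).hasFDerivAt.comp y h3
  have h5 : fderiv ℝ (T.f2 φ₀ φ) y = _ := h4.fderiv
  rw [h5]
  have hx : xp y ∈ D.C := hy.1
  have hs := D.surj (xp y) hx hf
  have hn := T.near (xp y) hx hy.2.1
  rw [aP_of D l (ne_of_half hx hy.2.1)] at hn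
  have hd := surjective_dsf (W := W) (l (D.ret ⟨_, ne_of_half hx hy.2.1⟩)) hn ht
  intro η
  obtain ⟨q, hq⟩ := hd (φ.symm η)
  obtain ⟨ξ, hξ⟩ := hs (φ₀ (q.1, q.2.1))
  refine ⟨ap ξ q.2.2, ?_⟩
  show φ (dsf (T.B (xp y)) (tp y) ((φ₀.symm (fderiv ℝ D.f (xp y) (xp (ap ξ q.2.2)))).1,
    ((φ₀.symm (fderiv ℝ D.f (xp y) (xp (ap ξ q.2.2)))).2, tp (ap ξ q.2.2)))) = η
  rw [xp_ap, tp_ap, hξ, φ₀.symm_apply_apply]
  show φ (dsf (T.B (xp y)) (tp y) q) = η
  rw [hq, φ.apply_symm_apply]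

/-- the parameter -/
theorem BD.exists_s : ∃ s : ℝ, 0 < s ∧ ∀ y ∈ C2 D, y ∉ U2 D → 1 ≤ s * qn (T.f2 φ₀ φ y) := by
  have h1 : IsCompact (C2 D \ U2 D) := (isCompact_C2 D).diff (isOpen_U2 D)
  obtain ⟨δ, hδ, h2⟩ := h1.exists_forall_le' (f := fun y => qn (T.f2 φ₀ φ y)) (a := 0)
    (continuous_qn.comp (T.contDiff_f2 φ₀ φ).continuous).continuousOn (fun y hy => qn_pos
      fun h => hy.2 (by
        obtain ⟨e1, e2⟩ := T.f2_zeros φ₀ φ hy.1 h
        exact mem_U2_of hy.1.1 e1 e2))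
  refine ⟨1 / δ, by positivity, fun y hy hy' => ?_⟩
  have h3 := h2 y ⟨hy, hy'⟩
  rw [one_div, le_inv_mul_iff₀ hδ, mul_one]
  exact h3

/-- **the framed manifold `N`** -/
noncomputable def BD.pre : Pre (m + 1) (K + 1) where
  f := T.f2 φ₀ φ
  smooth := T.contDiff_f2 φ₀ φ
  C := C2 D
  U := U2 D
  isOpen_U := isOpen_U2 D
  isCompact_C := isCompact_C2 D
  subset := U2_subset D
  s := Classical.choose (T.exists_s φ₀ φ)
  s_pos := (Classical.choose_spec (T.exists_s φ₀ φ)).1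
  far := (Classical.choose_spec (T.exists_s φ₀ φ)).2
  surj := fun _ hy hz => T.f2_surj φ₀ φ hy hz
  ρ := fun y => ap (D.ρ (xp y)) (tp y / (2 * |tp y|))
  ρ_cont := by
    refine continuous_ap.comp_continuousOn (ContinuousOn.prodMk ?_ ?_)
    · exact D.ρ_cont.comp continuous_xp.continuousOn fun y hy => ⟨hy.1.1, by linarith [hy.1.2.1]⟩
    · refine ContinuousOn.div continuous_tp.continuousOn
        (continuous_const.mul (continuous_abs.comp continuous_tp)).continuousOn fun y hy => ?_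
      have := hy.1.2.2.1
      positivity
  ρ_mem := by
    intro y hy _
    have ht : 0 < |tp y| := by linarith [hy.2.2.1]
    obtain ⟨h1, h2⟩ := D.ρ_mem (xp y) hy.1 (by linarith [hy.2.1])
    have h3 : (tp y / (2 * |tp y|)) ^ 2 = 1 / 4 := by
      rw [div_pow, mul_pow, sq_abs]
      have : tp y ^ 2 ≠ 0 := pow_ne_zero 2 (abs_pos.1 ht)
      rw [div_eq_div_iff (mul_ne_zero (by norm_num) this) (by norm_num)]
      ring
    have h4 : xp (ap (D.ρ (xp y)) (tp y / (2 * |tp y|))) ∈ D.C := by rw [xp_ap]; exact h1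
    have h5 : D.f (xp (ap (D.ρ (xp y)) (tp y / (2 * |tp y|)))) = 0 := by rw [xp_ap]; exact h2
    have h6 : tp (ap (D.ρ (xp y)) (tp y / (2 * |tp y|))) ^ 2 = 1 / 4 := by rw [tp_ap]; exact h3
    exact ⟨U2_subset D (mem_U2_of h4 h5 h6), T.f2_of φ₀ φ h5 h6⟩
  ρ_id := by
    intro y hy hz
    obtain ⟨h1, h2⟩ := T.f2_zeros φ₀ φ hy hz
    have ht : |tp y| = 1 / 2 := by
      rw [← abs_of_pos (show (0 : ℝ) < 1 / 2 by norm_num), ← sq_eq_sq_iff_abs_eq_abs, h2]
      norm_num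
    rw [D.ρ_id (xp y) hy.1 h1, ht]
    norm_num

end main

end Vale.Agent.P263.FR
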