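import Vale.Agent.P263.FR.FNb

/-!
# P263, block G: the collapse map of the framed manifold `N = M ⊔ M'`

* `BD.homeo` : `N ≃ₜ M × Bool`.
* `BD.ce` : the collapse map of `N` as a map to `(ℝᴷ⁺¹ × (M × Bool))⁺`.
* `BD.homotopic` : it is homotopic to `G ∘ (c ∧ id)`.
-/

open OnePoint Topology Filter CategoryTheory

namespace Vale.Agent.P263.FR

open Vale.Agent.P263.ST Vale.Agent.P263.KJ

section main

variable {V : Type} [NormedAddCommGroup V] [InnerProductSpace ℝ V] [FiniteDimensional ℝ V]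
variable {W : Type} [NormedAddCommGroup W] [NormedSpace ℝ W]
variable {m K : ℕ} {D : Tub m K} {l : C(Mfd D.F, PV V)} (T : BD D l)
  (φ₀ : (V × W) ≃L[ℝ] (Fin K → ℝ)) (φ : (V × (W × ℝ)) ≃L[ℝ] (Fin (K + 1) → ℝ))

/-- half of the sign -/
noncomputable def hb (b : Bool) : ℝ := if b then 1 / 2 else -(1 / 2)

theorem hb_sq (b : Bool) : hb b ^ 2 = 1 / 4 := by
  cases b <;> norm_num [hb]

theorem decide_hb (b : Bool) : decide (0 < hb b) = b := by
  cases b <;> norm_num [hb]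

theorem hb_decide {t : ℝ} (ht : t ^ 2 = 1 / 4) : hb (decide (0 < t)) = t := by
  have h1 : (t - 1 / 2) * (t + 1 / 2) = 0 := by ring_nf; rw [ht]; norm_num
  rcases mul_eq_zero.1 h1 with h | h
  · have : t = 1 / 2 := by linarith
    rw [this]
    norm_num [hb]
  · have : t = -(1 / 2) := by linarith
    rw [this]
    norm_num [hb]

theorem continuous_decide {A : Type*} [TopologicalSpace A] {t : A → ℝ} (ht : Continuous t)
    (h0 : ∀ a, t a ≠ 0) : Continuous fun a => decide (0 < t a) := by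
  rw [continuous_bool_rng true]
  have h1 : (fun a => decide (0 < t a)) ⁻¹' {true} = {a | 0 < t a} := by
    ext a
    simp
  rw [h1]
  refine ⟨?_, isOpen_lt continuous_const ht⟩
  have h2 : {a | 0 < t a} = {a | 0 ≤ t a} := by
    ext a
    exact ⟨fun h => le_of_lt (show 0 < t a from h),
      fun h => lt_of_le_of_ne (show 0 ≤ t a from h) (h0 a).symm⟩
  rw [h2]
  exact isClosed_le continuous_const ht

theorem BD.mem (v : Mfd (T.pre φ₀ φ).F) :
    xp v.1 ∈ D.C ∧ D.f (xp v.1) = 0 ∧ tp v.1 ^ 2 = 1 / 4 := by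
  obtain ⟨h1, h2⟩ := (T.pre φ₀ φ).mem_Mfd v
  obtain ⟨h3, h4⟩ := T.f2_zeros φ₀ φ h1 h2
  exact ⟨h1.1, h3, h4⟩

/-- **`N = M ⊔ M'`** -/
noncomputable def BD.homeo : Mfd (T.pre φ₀ φ).F ≃ₜ Mfd D.F × Bool where
  toFun v := (⟨xp v.1, D.F_eq_zero.2 ⟨(T.mem φ₀ φ v).1, (T.mem φ₀ φ v).2.1⟩⟩,
    decide (0 < tp v.1))
  invFun q := ⟨ap q.1.1 (hb q.2), (T.pre φ₀ φ).F_eq_zero.2 (by
    have h1 : xp (ap q.1.1 (hb q.2)) ∈ D.C := by rw [xp_ap]; exact (D.mem_Mfd q.1).1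
    have h2 : D.f (xp (ap q.1.1 (hb q.2))) = 0 := by rw [xp_ap]; exact (D.mem_Mfd q.1).2
    have h3 : tp (ap q.1.1 (hb q.2)) ^ 2 = 1 / 4 := by rw [tp_ap]; exact hb_sq _
    exact ⟨U2_subset D (mem_U2_of h1 h2 h3), T.f2_of φ₀ φ h2 h3⟩)⟩
  left_inv v := by
    apply Subtype.ext
    show ap (xp v.1) (hb (decide (0 < tp v.1))) = v.1
    rw [hb_decide (T.mem φ₀ φ v).2.2, ap_xp_tp]
  right_inv q := by
    refine Prod.ext (Subtype.ext ?_) ?_
    · show xp (ap q.1.1 (hb q.2)) = q.1.1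
      rw [xp_ap]
    · show decide (0 < tp (ap q.1.1 (hb q.2))) = q.2
      rw [tp_ap, decide_hb]
  continuous_toFun := by
    refine Continuous.prodMk (Continuous.subtype_mk (continuous_xp.comp continuous_subtype_val) _)
      (continuous_decide (continuous_tp.comp continuous_subtype_val) fun v h => ?_)
    have h1 := (T.mem φ₀ φ v).2.2
    have h' : tp v.1 = 0 := h
    rw [h'] at h1
    norm_num at h1
  continuous_invFun := by
    refine Continuous.subtype_mk (continuous_ap.comp (Continuous.prodMk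
      (continuous_subtype_val.comp continuous_fst) ?_)) _
    exact (continuous_of_discreteTopology (f := hb)).comp continuous_snd

/-- the collapse map of `N`, as a map to `(ℝᴷ⁺¹ × (M × Bool))⁺` -/
noncomputable def BD.ce :
    C(OnePoint (Fin (m + 1) → ℝ), OnePoint ((Fin (K + 1) → ℝ) × (Mfd D.F × Bool))) :=
  ⟨pairS (T.pre φ₀ φ).F0 {z | (T.pre φ₀ φ).F0 z ≠ ∞} ((T.homeo φ₀ φ) ∘ (T.pre φ₀ φ).ret),
    continuous_pairS (T.pre φ₀ φ).continuous_F0 (fun _ h => h)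
      ((T.homeo φ₀ φ).continuous.comp (T.pre φ₀ φ).continuous_ret)⟩

theorem BD.ce_apply (z : OnePoint (Fin (m + 1) → ℝ)) :
    T.ce φ₀ φ z = OnePoint.map (fun p : (Fin (K + 1) → ℝ) × Mfd (T.pre φ₀ φ).F =>
      (p.1, T.homeo φ₀ φ p.2)) ((T.pre φ₀ φ).c0 z) := (map_pairS _ _ _ _ z).symm

@[simp] theorem BD.ce_infty : T.ce φ₀ φ ∞ = ∞ := pairS_infty (T.pre φ₀ φ).F0_infty

/-- the factor of `F` -/
noncomputable def mu' (D : Tub m K) (x : Fin m → ℝ) : ℝ := (1 - D.s * qn (D.f x))⁻¹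

/-- the second map -/
noncomputable def BD.g2 (_T : BD D l) (y : Fin (m + 1) → ℝ) : Fin (K + 1) → ℝ :=
  φ (sfc (aP D l (xp y)) (qc φ₀ (mu' D (xp y) • D.f (xp y)) (tp y)))

omit [FiniteDimensional ℝ V] in
theorem continuous_sfc : Continuous fun p : (V →L[ℝ] V) × (V × (W × ℝ)) => sfc p.1 p.2 :=
  (contDiff_sfc (n := 0) contDiff_fst contDiff_snd).continuous

theorem C2_ne {y : Fin (m + 1) → ℝ} (hy : y ∈ C2 D) :
    D.F0 (xp y : OnePoint (Fin m → ℝ)) ≠ ∞ := ne_of_half hy.1 hy.2.1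

theorem continuousOn_mu : ContinuousOn (fun y => mu' D (xp y)) (C2 D) := by
  unfold mu'
  refine ContinuousOn.inv₀ ?_ fun y hy => ?_
  · exact (continuous_const.sub (continuous_const.mul (continuous_qn.comp
      (D.smooth.continuous.comp continuous_xp)))).continuousOn
  · have := hy.2.1
    linarith

omit [FiniteDimensional ℝ V] in
theorem BD.continuousOn_g2 : ContinuousOn (T.g2 φ₀ φ) (C2 D) := by
  unfold BD.g2
  refine φ.continuous.comp_continuousOn (continuous_sfc.comp_continuousOn (ContinuousOn.prodMk ?_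
    ((continuous_qc φ₀).comp_continuousOn (ContinuousOn.prodMk ?_ continuous_tp.continuousOn))))
  · exact (continuousOn_aP D l).comp continuous_xp.continuousOn fun y hy => C2_ne hy
  · exact continuousOn_mu.smul (D.smooth.continuous.comp continuous_xp).continuousOn

/-- the closed set -/
def BD.O' (s' : ℝ) : Set (Fin (m + 1) → ℝ) :=
  {y | y ∈ C2 D ∧ (T.pre φ₀ φ).s * qn (T.f2 φ₀ φ y) ≤ 1 / 2 ∧ s' * qn (T.g2 φ₀ φ y) ≤ 1 / 2}

/-- the homotopy -/
noncomputable def BD.hfun (s' : ℝ) (q : unitInterval × (Fin (m + 1) → ℝ)) : Fin (K + 1) → ℝ :=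
  ((1 - (q.1 : ℝ)) * (1 - (T.pre φ₀ φ).s * qn (T.f2 φ₀ φ q.2))⁻¹ +
    (q.1 : ℝ) * (1 - s' * qn (T.g2 φ₀ φ q.2))⁻¹) •
      φ (sfc ((1 - (q.1 : ℝ)) • T.B (xp q.2) + (q.1 : ℝ) • aP D l (xp q.2))
        (qc φ₀ (((1 - (q.1 : ℝ)) + (q.1 : ℝ) * mu' D (xp q.2)) • D.f (xp q.2)) (tp q.2)))

theorem BD.isClosed_O' (s' : ℝ) : IsClosed (T.O' φ₀ φ s') := by
  have h1 : ContinuousOn (fun y => s' * qn (T.g2 φ₀ φ y)) (C2 D) :=
    continuousOn_const.mul (continuous_qn.comp_continuousOn (T.continuousOn_g2 φ₀ φ))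
  have h2 : Continuous fun y => (T.pre φ₀ φ).s * qn (T.f2 φ₀ φ y) :=
    continuous_const.mul (continuous_qn.comp (T.contDiff_f2 φ₀ φ).continuous)
  have h3 : IsClosed (C2 D ∩ (fun y => s' * qn (T.g2 φ₀ φ y)) ⁻¹' Set.Iic (1 / 2)) :=
    h1.preimage_isClosed_of_isClosed (isCompact_C2 D).isClosed isClosed_Iic
  have h4 : T.O' φ₀ φ s' = (C2 D ∩ (fun y => s' * qn (T.g2 φ₀ φ y)) ⁻¹' Set.Iic (1 / 2)) ∩
      {y | (T.pre φ₀ φ).s * qn (T.f2 φ₀ φ y) ≤ 1 / 2} := by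
    ext y
    exact ⟨fun h => ⟨⟨h.1, h.2.2⟩, h.2.1⟩, fun h => ⟨h.1.1, h.2, h.1.2⟩⟩
  rw [h4]
  exact h3.inter (isClosed_le h2 continuous_const)

theorem BD.continuousOn_hfun (s' : ℝ) :
    ContinuousOn (T.hfun φ₀ φ s') (Set.univ ×ˢ T.O' φ₀ φ s') := by
  have hτ : Continuous fun q : unitInterval × (Fin (m + 1) → ℝ) => (q.1 : ℝ) :=
    continuous_subtype_val.comp continuous_fst
  have hsnd : Set.MapsTo (Prod.snd : unitInterval × (Fin (m + 1) → ℝ) → _)
      (Set.univ ×ˢ T.O' φ₀ φ s') (C2 D) := fun q hq => hq.2.1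
  have hx : Continuous fun q : unitInterval × (Fin (m + 1) → ℝ) => xp q.2 :=
    continuous_xp.comp continuous_snd
  have a1 : ContinuousOn (fun q : unitInterval × (Fin (m + 1) → ℝ) => 1 - (q.1 : ℝ))
      (Set.univ ×ˢ T.O' φ₀ φ s') := (continuous_const.sub hτ).continuousOn
  have a2 : ContinuousOn (fun q : unitInterval × (Fin (m + 1) → ℝ) =>
      (1 - (T.pre φ₀ φ).s * qn (T.f2 φ₀ φ q.2))⁻¹) (Set.univ ×ˢ T.O' φ₀ φ s') := by
    refine ContinuousOn.inv₀ ?_ fun q hq => ?_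
    · exact (continuous_const.sub (continuous_const.mul (continuous_qn.comp
        ((T.contDiff_f2 φ₀ φ).continuous.comp continuous_snd)))).continuousOn
    · have := hq.2.2.1
      linarith
  have a3 : ContinuousOn (fun q : unitInterval × (Fin (m + 1) → ℝ) =>
      (1 - s' * qn (T.g2 φ₀ φ q.2))⁻¹) (Set.univ ×ˢ T.O' φ₀ φ s') := by
    refine ContinuousOn.inv₀ ?_ fun q hq => ?_
    · exact continuousOn_const.sub (continuousOn_const.mul (continuous_qn.comp_continuousOn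
        ((T.continuousOn_g2 φ₀ φ).comp continuousOn_snd hsnd)))
    · have := hq.2.2.2
      linarith
  have a4 : ContinuousOn (fun q : unitInterval × (Fin (m + 1) → ℝ) =>
      (1 - (q.1 : ℝ)) • T.B (xp q.2) + (q.1 : ℝ) • aP D l (xp q.2))
      (Set.univ ×ˢ T.O' φ₀ φ s') :=
    (((continuous_const.sub hτ).smul (T.smooth.continuous.comp hx)).continuousOn).add
      (hτ.continuousOn.smul ((continuousOn_aP D l).comp hx.continuousOn
        fun q hq => C2_ne hq.2.1))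
  have a5 : ContinuousOn (fun q : unitInterval × (Fin (m + 1) → ℝ) =>
      ((1 - (q.1 : ℝ)) + (q.1 : ℝ) * mu' D (xp q.2)) • D.f (xp q.2))
      (Set.univ ×ˢ T.O' φ₀ φ s') :=
    (ContinuousOn.add (continuous_const.sub hτ).continuousOn
      (hτ.continuousOn.mul (continuousOn_mu.comp continuousOn_snd hsnd))).smul
        (D.smooth.continuous.comp hx).continuousOn
  have a6 : ContinuousOn (fun q : unitInterval × (Fin (m + 1) → ℝ) =>
      qc φ₀ (((1 - (q.1 : ℝ)) + (q.1 : ℝ) * mu' D (xp q.2)) • D.f (xp q.2)) (tp q.2))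
      (Set.univ ×ˢ T.O' φ₀ φ s') :=
    (continuous_qc φ₀).comp_continuousOn (a5.prodMk (continuous_tp.comp continuous_snd).continuousOn)
  have a7 := (continuous_sfc (V := V) (W := W)).comp_continuousOn (a4.prodMk a6)
  exact ((a1.mul a2).add (hτ.continuousOn.mul a3)).smul (φ.continuous.comp_continuousOn a7)

theorem mu_pos {x : Fin m → ℝ} (h : D.s * qn (D.f x) ≤ 1 / 2) : 0 < mu' D x := by
  unfold mu'
  have : 0 < 1 - D.s * qn (D.f x) := by linarith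
  positivity

/-- the zeros of the homotopy -/
theorem BD.hfun_zero {s' : ℝ} {t : unitInterval} {y : Fin (m + 1) → ℝ} (hy : y ∈ T.O' φ₀ φ s')
    (h : T.hfun φ₀ φ s' (t, y) = 0) : D.f (xp y) = 0 ∧ tp y ^ 2 = 1 / 4 := by
  have h1 : 0 < (1 - (T.pre φ₀ φ).s * qn (T.f2 φ₀ φ y))⁻¹ := by
    have : 0 < 1 - (T.pre φ₀ φ).s * qn (T.f2 φ₀ φ y) := by linarith [hy.2.1]
    positivity
  have h2 : 0 < (1 - s' * qn (T.g2 φ₀ φ y))⁻¹ := by
    have : 0 < 1 - s' * qn (T.g2 φ₀ φ y) := by linarith [hy.2.2]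
    positivity
  have ht0 := t.2.1
  have ht1 := t.2.2
  have hcomb : ∀ a b : ℝ, 0 < a → 0 < b → 0 < (1 - (t : ℝ)) * a + (t : ℝ) * b := by
    intro a b ha hb
    rcases ht0.eq_or_lt with h0 | h0
    · rw [← h0]
      linarith
    · have := mul_pos h0 hb
      have := mul_nonneg (sub_nonneg.2 ht1) ha.le
      linarith
  have h3 := hcomb _ _ h1 h2
  rcases smul_eq_zero.1 h with h4 | h4
  · exact absurd h4 h3.ne'
  · obtain ⟨e1, e2⟩ := T.zeros φ₀ φ hy.1.1 hy.1.2.1 ht0 ht1 hy.1.2.2.1 hy.1.2.2.2 h4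
    refine ⟨?_, e2⟩
    rcases smul_eq_zero.1 e1 with h5 | h5
    · have := hcomb 1 _ one_pos (mu_pos hy.1.2.1)
      rw [mul_one] at this
      exact absurd h5 this.ne'
    · exact h5

/-- the zeros lie in the interior -/
theorem BD.mem_interior {s' : ℝ} {y : Fin (m + 1) → ℝ} (h1 : xp y ∈ D.C) (h2 : D.f (xp y) = 0)
    (h3 : tp y ^ 2 = 1 / 4) :
    (y : OnePoint (Fin (m + 1) → ℝ)) ∈ interior ((↑) '' T.O' φ₀ φ s' :
      Set (OnePoint (Fin (m + 1) → ℝ))) := by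
  have hU : y ∈ U2 D := mem_U2_of h1 h2 h3
  have ho1 : IsOpen {y | (T.pre φ₀ φ).s * qn (T.f2 φ₀ φ y) < 1 / 2} :=
    isOpen_lt (continuous_const.mul (continuous_qn.comp (T.contDiff_f2 φ₀ φ).continuous))
      continuous_const
  have ho2 : IsOpen (U2 D ∩ (fun y => s' * qn (T.g2 φ₀ φ y)) ⁻¹' Set.Iio (1 / 2)) := by
    have h4 : ContinuousOn (fun y => s' * qn (T.g2 φ₀ φ y)) (U2 D) :=
      (continuousOn_const.mul (continuous_qn.comp_continuousOn (T.continuousOn_g2 φ₀ φ))).mono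
        (U2_subset D)
    exact h4.isOpen_inter_preimage (isOpen_U2 D) isOpen_Iio
  have hg : T.g2 φ₀ φ y = 0 := by
    unfold BD.g2
    rw [h2, smul_zero, qc_zero, sfc_of_eq rfl rfl h3, map_zero]
  have ho : IsOpen ((↑) '' ((U2 D ∩ (fun y => s' * qn (T.g2 φ₀ φ y)) ⁻¹' Set.Iio (1 / 2)) ∩
      {y | (T.pre φ₀ φ).s * qn (T.f2 φ₀ φ y) < 1 / 2}) : Set (OnePoint (Fin (m + 1) → ℝ))) :=
    OnePoint.isOpen_image_coe.2 (ho2.inter ho1)
  refine interior_maximal (Set.image_mono ?_) ho ⟨y, ⟨⟨hU, ?_⟩, ?_⟩, rfl⟩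
  · rintro z ⟨⟨hz1, hz2⟩, hz3⟩
    exact ⟨U2_subset D hz1, (show _ < _ from hz3).le, (show _ < _ from hz2).le⟩
  · show s' * qn (T.g2 φ₀ φ y) < 1 / 2
    rw [hg, qn_zero, mul_zero]
    norm_num
  · show (T.pre φ₀ φ).s * qn (T.f2 φ₀ φ y) < 1 / 2
    rw [T.f2_of φ₀ φ h2 h3, qn_zero, mul_zero]
    norm_num

end main

end Vale.Agent.P263.FR
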