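import Vale.Agent.P263.FR.FNc

/-!
# P263, block G: the collapse map of `N = M ⊔ M'` is `G ∘ (c ∧ id)`

`BD.homotopic`.
-/

open OnePoint Topology Filter CategoryTheory

namespace Vale.Agent.P263.FR

open Vale.Agent.P263.ST Vale.Agent.P263.KJ

section main

variable {V : Type} [NormedAddCommGroup V] [InnerProductSpace ℝ V] [FiniteDimensional ℝ V]
variable {W : Type} [NormedAddCommGroup W] [NormedSpace ℝ W]
variable {m K : ℕ} {D : Tub m K} {l : C(Mfd D.F, PV V)} (T : BD D l)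
  (φ₀ : (V × W) ≃L[ℝ] (Fin K → ℝ)) (φ : (V × (W × ℝ)) ≃L[ℝ] (Fin (K + 1) → ℝ))

/-- the second component of the homotopy -/
noncomputable def BD.pfun (s' : ℝ)
    (q : {q : unitInterval × OnePoint (Fin (m + 1) → ℝ) |
      q.2 ∈ ((↑) '' T.O' φ₀ φ s' : Set (OnePoint (Fin (m + 1) → ℝ)))}) : Mfd D.F × Bool :=
  (D.ret ⟨(xp (crd q.1.2) : OnePoint (Fin m → ℝ)), by
    obtain ⟨y, hy, hyq⟩ := q.2
    rw [← hyq, crd_coe]
    exact C2_ne hy.1⟩, decide (0 < tp (crd q.1.2)))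

theorem BD.continuous_pfun (s' : ℝ) : Continuous (T.pfun φ₀ φ s') := by
  have h1 : Continuous fun q : {q : unitInterval × OnePoint (Fin (m + 1) → ℝ) |
      q.2 ∈ ((↑) '' T.O' φ₀ φ s' : Set (OnePoint (Fin (m + 1) → ℝ)))} => crd q.1.2 := by
    rw [continuous_iff_continuousAt]
    intro q
    obtain ⟨y, hy, hyq⟩ := q.2
    refine ContinuousAt.comp (g := crd) (f := fun q : {q : unitInterval ×
      OnePoint (Fin (m + 1) → ℝ) | q.2 ∈ ((↑) '' T.O' φ₀ φ s' :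
        Set (OnePoint (Fin (m + 1) → ℝ)))} => q.1.2) (continuousAt_crd ?_)
      (continuous_snd.comp continuous_subtype_val).continuousAt
    rw [← hyq]
    exact OnePoint.coe_ne_infty _
  refine Continuous.prodMk (D.continuous_ret.comp (Continuous.subtype_mk
    (OnePoint.continuous_coe.comp (continuous_xp.comp h1)) _))
    (continuous_decide (continuous_tp.comp h1) fun q h => ?_)
  obtain ⟨y, hy, hyq⟩ := q.2
  have h2 : tp (crd q.1.2) = 0 := h
  rw [← hyq, crd_coe] at h2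
  have h3 := hy.1.2.2.1
  rw [h2, abs_zero] at h3
  norm_num at h3

/-- **the collapse map of `N`** -/
theorem BD.homotopic {s' : ℝ}
    {G : C(OnePoint ((Fin (K + 1) → ℝ) × Mfd D.F),
      OnePoint ((Fin (K + 1) → ℝ) × (Mfd D.F × Bool)))} (hG0 : G ∞ = ∞)
    (hG : ∀ (v : Fin K → ℝ) (t : ℝ) (x : Mfd D.F),
      G (((ap v t, x) : (Fin (K + 1) → ℝ) × Mfd D.F) : OnePoint _) =
        prT (Psi s' ((φ (sfc (l x).1 (qc φ₀ v t)) : Fin (K + 1) → ℝ) :
          OnePoint (Fin (K + 1) → ℝ))) (x, decide (0 < t)))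
    {c1 : C(OnePoint (Fin (m + 1) → ℝ), OnePoint ((Fin (K + 1) → ℝ) × Mfd D.F))}
    (hc0 : c1 ∞ = ∞)
    (hc1 : ∀ (x : Fin m → ℝ) (t : ℝ), D.c0 x = ∞ →
      c1 ((ap x t : Fin (m + 1) → ℝ) : OnePoint (Fin (m + 1) → ℝ)) = ∞)
    (hc2 : ∀ (x : Fin m → ℝ) (t : ℝ) (v : Fin K → ℝ) (p : Mfd D.F),
      D.c0 x = (((v, p) : (Fin K → ℝ) × Mfd D.F) : OnePoint _) →
      c1 ((ap x t : Fin (m + 1) → ℝ) : OnePoint (Fin (m + 1) → ℝ)) =
        (((ap v t, p) : (Fin (K + 1) → ℝ) × Mfd D.F) : OnePoint _)) :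
    (T.ce φ₀ φ).HomotopicRel (G.comp c1) {∞} := by
  have hMc : CompactSpace (Mfd D.F) := D.compactSpace_Mfd
  have hOsub : T.O' φ₀ φ s' ⊆ C2 D := fun y hy => hy.1
  have hOc : IsCompact (T.O' φ₀ φ s') := (isCompact_C2 D).of_isClosed_subset
    (T.isClosed_O' φ₀ φ s') hOsub
  have hO : IsClosed ((↑) '' T.O' φ₀ φ s' : Set (OnePoint (Fin (m + 1) → ℝ))) :=
    OnePoint.isClosed_image_coe.2 ⟨T.isClosed_O' φ₀ φ s', hOc⟩
  have hH : ContinuousOn (fun q : unitInterval × OnePoint (Fin (m + 1) → ℝ) =>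
      T.hfun φ₀ φ s' (q.1, crd q.2)) {q | q.2 ∈ ((↑) '' T.O' φ₀ φ s' :
        Set (OnePoint (Fin (m + 1) → ℝ)))} := by
    refine (T.continuousOn_hfun φ₀ φ s').comp (f := fun q : unitInterval ×
      OnePoint (Fin (m + 1) → ℝ) => (q.1, crd q.2)) ?_ ?_
    · rintro ⟨t, z⟩ ⟨y, hy, hyz⟩
      have h1 : ContinuousAt (crd (m := m + 1)) z := continuousAt_crd (by
        rw [← show _ = z from hyz]; exact OnePoint.coe_ne_infty _)
      exact (continuousAt_fst.prodMk (ContinuousAt.comp (g := crd) (f := Prod.snd)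
        (x := (t, z)) h1 continuousAt_snd)).continuousWithinAt
    · rintro ⟨t, z⟩ ⟨y, hy, hyz⟩
      refine ⟨Set.mem_univ _, ?_⟩
      show crd z ∈ _
      rw [← show _ = z from hyz, crd_coe]
      exact hy
  -- the values of the collapse map
  have hce : ∀ y ∈ C2 D, ∀ (h : (T.pre φ₀ φ).s * qn (T.f2 φ₀ φ y) < 1) (t₀ : ℝ), t₀ = tp y →
      ∀ hne : D.F0 (xp y : OnePoint (Fin m → ℝ)) ≠ ∞,
      T.ce φ₀ φ (y : OnePoint (Fin (m + 1) → ℝ)) =
        ((((1 - (T.pre φ₀ φ).s * qn (T.f2 φ₀ φ y))⁻¹ • T.f2 φ₀ φ y : Fin (K + 1) → ℝ),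
          (D.ret ⟨_, hne⟩, decide (0 < t₀))) : (Fin (K + 1) → ℝ) × (Mfd D.F × Bool)) := by
    intro y hy h t₀ ht hne
    have h1 : (T.pre φ₀ φ).F0 (y : OnePoint (Fin (m + 1) → ℝ)) =
        (((1 - (T.pre φ₀ φ).s * qn (T.f2 φ₀ φ y))⁻¹ • T.f2 φ₀ φ y : Fin (K + 1) → ℝ) :
          OnePoint (Fin (K + 1) → ℝ)) := (T.pre φ₀ φ).F0_of_lt hy h
    have h2 : (T.pre φ₀ φ).F0 (y : OnePoint (Fin (m + 1) → ℝ)) ≠ ∞ := by
      rw [h1]; exact OnePoint.coe_ne_infty _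
    show pairS _ _ _ _ = _
    rw [pairS_of_mem (show _ ∈ {z | (T.pre φ₀ φ).F0 z ≠ ∞} from h2), h1, prT_coe]
    have h3 : ((T.homeo φ₀ φ) ∘ (T.pre φ₀ φ).ret) ⟨(y : OnePoint (Fin (m + 1) → ℝ)), h2⟩ =
        (D.ret ⟨_, hne⟩, decide (0 < t₀)) := by
      have e1 : ((T.pre φ₀ φ).ret ⟨(y : OnePoint (Fin (m + 1) → ℝ)), h2⟩).1 =
        ap (D.ρ (xp y)) (tp y / (2 * |tp y|)) := rfl
      refine Prod.ext (Subtype.ext ?_) ?_
      · show xp ((T.pre φ₀ φ).ret ⟨(y : OnePoint (Fin (m + 1) → ℝ)), h2⟩).1 = D.ρ (xp y)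
        rw [e1, xp_ap]
      · show decide (0 < tp ((T.pre φ₀ φ).ret ⟨(y : OnePoint (Fin (m + 1) → ℝ)), h2⟩).1) = _
        rw [e1, tp_ap, ht]
        have h4 : 0 < 2 * |tp y| := by
          have := hy.2.2.1
          linarith
        congr 1
        rw [eq_iff_iff, div_pos_iff_of_pos_right h4]
    rw [h3]
  -- the values of the second map
  have hGc : ∀ (y : Fin (m + 1) → ℝ) (v : Fin K → ℝ) (p : Mfd D.F),
      D.c0 (xp y : OnePoint (Fin m → ℝ)) = (((v, p) : (Fin K → ℝ) × Mfd D.F) : OnePoint _) →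
      G (c1 (y : OnePoint (Fin (m + 1) → ℝ))) =
        prT (Psi s' ((φ (sfc (l p).1 (qc φ₀ v (tp y))) : Fin (K + 1) → ℝ) :
          OnePoint (Fin (K + 1) → ℝ))) (p, decide (0 < tp y)) := by
    intro y v p h
    have h1 := hc2 (xp y) (tp y) v p h
    rw [ap_xp_tp] at h1
    rw [h1, hG]
  refine germT hO _ hH (T.pfun φ₀ φ s') (T.continuous_pfun φ₀ φ s') ?_ ?_ ?_ ?_ ?_ ?_ ?_
  · rintro z ⟨y, hy, rfl⟩
    have h1 : (T.pre φ₀ φ).s * qn (T.f2 φ₀ φ y) < 1 := by linarith [hy.2.1]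
    rw [hce y hy.1 h1 (tp y) rfl (C2_ne hy.1)]
    congr 1
    refine Prod.ext ?_ rfl
    show _ = T.hfun φ₀ φ s' (0, y)
    unfold BD.hfun
    simp only [Set.Icc.coe_zero, sub_zero, one_mul, zero_mul, add_zero, one_smul, zero_smul]
    rfl
  · rintro z ⟨y, hy, rfl⟩
    have hne := C2_ne hy.1
    have h1 : D.F0 (xp y : OnePoint (Fin m → ℝ)) =
        ((mu' D (xp y) • D.f (xp y) : Fin K → ℝ) : OnePoint (Fin K → ℝ)) :=
      D.F0_of_lt hy.1.1 (by linarith [hy.1.2.1])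
    have h2 : D.c0 (xp y : OnePoint (Fin m → ℝ)) =
        (((mu' D (xp y) • D.f (xp y), D.ret ⟨_, hne⟩) : (Fin K → ℝ) × Mfd D.F) :
          OnePoint _) := by
      rw [D.c0_of_ne hne, h1, prT_coe]
    show G (c1 _) = _
    rw [hGc y _ _ h2, ← aP_of D l hne]
    have h3 : s' * qn (T.g2 φ₀ φ y) < 1 := by linarith [hy.2.2]
    have h4 : Psi s' ((φ (sfc (aP D l (xp y)) (qc φ₀ (mu' D (xp y) • D.f (xp y)) (tp y))) :
        Fin (K + 1) → ℝ) : OnePoint (Fin (K + 1) → ℝ)) =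
        (((1 - s' * qn (T.g2 φ₀ φ y))⁻¹ • T.g2 φ₀ φ y : Fin (K + 1) → ℝ) :
          OnePoint (Fin (K + 1) → ℝ)) := Psi_of_lt h3
    rw [h4, prT_coe]
    congr 1
    refine Prod.ext ?_ rfl
    show _ = T.hfun φ₀ φ s' (1, y)
    unfold BD.hfun
    simp only [Set.Icc.coe_one, sub_self, one_mul, zero_mul, zero_add, one_smul, zero_smul]
    rfl
  · rintro t z ⟨y, hy, rfl⟩ h
    obtain ⟨h1, h2⟩ := T.hfun_zero φ₀ φ hy h
    exact T.mem_interior φ₀ φ hy.1.1 h1 h2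
  · intro z x h
    have hz : (T.pre φ₀ φ).F0 z = ((0 : Fin (K + 1) → ℝ) : OnePoint (Fin (K + 1) → ℝ)) := by
      have h1 := map_fst_pairS (A := (T.pre φ₀ φ).F0) (S := {z | (T.pre φ₀ φ).F0 z ≠ ∞})
        (p := (T.homeo φ₀ φ) ∘ (T.pre φ₀ φ).ret) (fun _ h => h) z
      rw [← h1]
      exact congrArg (OnePoint.map fun x : (Fin (K + 1) → ℝ) × (Mfd D.F × Bool) => x.1) h
    induction z using OnePoint.rec with
    | infty => exact absurd hz (OnePoint.infty_ne_coe _)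
    | coe y =>
      obtain ⟨h1, h2⟩ := (T.pre φ₀ φ).F0_eq_zero.1 hz
      obtain ⟨h3, h4⟩ := T.f2_zeros φ₀ φ h1 h2
      exact T.mem_interior φ₀ φ h1.1 h3 h4
  · intro z x h
    induction z using OnePoint.rec with
    | infty =>
      change G (c1 ∞) = _ at h
      rw [hc0, hG0] at h
      exact absurd h (OnePoint.infty_ne_coe _)
    | coe y =>
      change G (c1 _) = _ at h
      obtain ⟨w, hw⟩ : ∃ w, D.c0 (xp y : OnePoint (Fin m → ℝ)) = w := ⟨_, rfl⟩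
      induction w using OnePoint.rec with
      | infty =>
        have h1 := hc1 (xp y) (tp y) hw
        rw [ap_xp_tp] at h1
        rw [h1, hG0] at h
        exact absurd h (OnePoint.infty_ne_coe _)
      | coe w =>
        obtain ⟨v, p⟩ := w
        rw [hGc y v p hw] at h
        have h1 := congrArg (OnePoint.map fun x : (Fin (K + 1) → ℝ) × (Mfd D.F × Bool) => x.1) h
        rw [map_fst_prT] at h1
        have h2 := Psi_eq_zero.1 h1
        have h3 : sfc (l p).1 (qc φ₀ v (tp y)) = 0 := by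
          rw [← φ.symm_apply_apply (sfc _ _), OnePoint.coe_injective h2, map_zero]
        obtain ⟨e1, e2, e3⟩ := sfc_eq_zero' (l p) h3
        have hv : v = 0 := qc_eq_zero φ₀ e1 e2
        have h4 : D.F0 (xp y : OnePoint (Fin m → ℝ)) = ((0 : Fin K → ℝ) :
            OnePoint (Fin K → ℝ)) := by
          have h5 := map_fst_pairS (A := D.F0) (S := {z | D.F0 z ≠ ∞})
            (p := D.ret) (fun _ h => h) (xp y : OnePoint (Fin m → ℝ))
          rw [← h5]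
          show OnePoint.map _ (D.c0 _) = _
          rw [hw, hv]
          rfl
        obtain ⟨h5, h6⟩ := D.F0_eq_zero.1 h4
        exact T.mem_interior φ₀ φ h5 h6 e3
  · intro z hz
    rw [Set.mem_singleton_iff.1 hz]
    exact T.ce_infty φ₀ φ
  · intro z hz
    rw [Set.mem_singleton_iff.1 hz]
    show G (c1 ∞) = ∞
    rw [hc0, hG0]

end main

end Vale.Agent.P263.FR
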