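import Vale.Agent.P263.FR.Def
import Vale.Agent.P263.ST.Done

/-!
# P263: Curtis's conjecture with the literal Kervaire invariant, the final assembly

`curtisFr_of` : the conjecture from the statement that every `g` with `h_d(g) ≠ 0` in a stem
`2ˢ⁺¹ - 2` has Kervaire invariant one.
-/

namespace Vale.Agent.P263.FR

open Vale.Agent.P263.ST

/-- Curtis's conjecture in one degree. -/
theorem curtisFr_at {d : ℕ} (hd : 0 < d) (h : ∀ g : BMap d, hur g ≠ 0 →
      (d = 1 ∨ d = 3 ∨ d = 7) ∨ Kerv g) : Set.range (hur (d := d)) = VFr d := by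
  have e1 : (hur (d := d)) = (T0.hur hd) := funext fun g => hur_eq hd g
  apply Set.Subset.antisymm
  · rintro _ ⟨g, rfl⟩
    by_cases hg : hur g = 0
    · rw [hg]
      exact Submodule.zero_mem _
    · rcases h g hg with h1 | h1
      · obtain ⟨g', hg'⟩ := exists_isHopf h1
        rw [hurUnique d g g' hd hg hg'.hur_ne]
        exact Submodule.subset_span ⟨g', Or.inl hg', rfl⟩
      · exact Submodule.subset_span ⟨g, Or.inr h1, rfl⟩
  · have h2 := T0.V_le hd (fun g : T0.BMap d => IsHopf (d := d) g ∨ Kerv (d := d) g)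
    intro x hx
    have hx' : x ∈ Submodule.span (ZMod 2) (hur (d := d) '' {g | IsHopf g ∨ Kerv g}) := hx
    rw [e1] at hx'
    obtain ⟨g, hg⟩ := h2 hx'
    exact ⟨g, (hur_eq hd g).trans hg⟩

/-- **Curtis's conjecture**, from the stems `2ˢ⁺¹ - 2`. -/
theorem curtisFr_of (h : ∀ (d : ℕ) (g : BMap d), 0 < d → hur g ≠ 0 →
      (∃ s : ℕ, 0 < s ∧ d + 2 = 2 ^ (s + 1)) → Kerv g) : CurtisFr :=
  fun _ hd => curtisFr_at hd fun g hg => (curtisElt _ g hd hg).imp (fun h1 => h1.1)
    fun h1 => h _ g hd hg h1.1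

end Vale.Agent.P263.FR
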