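import Vale.Agent.P263.FR.PhiA
import Vale.Agent.P263.FR.Graph

/-!
# P263, V5: naturality of the quadratic form

* `Phi_htpy`, `Int_htpy` : homotopy invariance.
* `Phi_comp`, `Int_comp` : composition with a map of the target.
* `Phi_nat`, `Int_nat` : naturality in the space.
-/

open Finset OnePoint Topology

namespace Vale.Agent.P263.FR

open Vale.Agent.P263.S hiding sn sn_add
open Vale.Agent.P263.E Vale.Agent.P263.H83 Vale.Agent.P263.G2 Vale.Agent.P263.TJ
open Vale.Agent.P263.T0 CupC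

variable {P : Type} [TopologicalSpace P] [CompactSpace P] [T2Space P]
  {Q : Type} [TopologicalSpace Q] [CompactSpace Q] [T2Space Q] {d i q K : ℕ}

/-! ### homotopies -/

section htpy

/-- a homotopy as a homotopy of maps of simplicial sets -/
noncomputable def htpS {A B : Type} [TopologicalSpace A] [TopologicalSpace B] {X : SS}
    (m : SS.Map X (sing A)) (F : C(unitInterval × A, B)) : SS.Htp X (sing B) :=
  ⟨fun _ χ z => ofC (F.comp ((chiI χ).prodMk (toC (m.app z)))), fun f χ z => by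
    apply ContinuousMap.ext
    intro t
    refine congrArg F (Prod.ext ?_ ?_)
    · exact DFunLike.congr_fun (chiI_comp χ f) t
    · exact DFunLike.congr_fun (congrArg toC (m.nat f z)) t⟩

theorem htpS_e0 {A B : Type} [TopologicalSpace A] [TopologicalSpace B] {X : SS}
    (m : SS.Map X (sing A)) (F : C(unitInterval × A, B)) {f : C(A, B)}
    (h : ∀ a, F (0, a) = f a) : (singMap f).comp m = (htpS m F).e0 := by
  apply SS.Map.ext
  intro p z
  apply ContinuousMap.ext
  intro t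
  show f (toC (m.app z) t) = F (chiI (c0 p) t, toC (m.app z) t)
  rw [chiI_c0, h]

theorem htpS_e1 {A B : Type} [TopologicalSpace A] [TopologicalSpace B] {X : SS}
    (m : SS.Map X (sing A)) (F : C(unitInterval × A, B)) {f : C(A, B)}
    (h : ∀ a, F (1, a) = f a) : (singMap f).comp m = (htpS m F).e1 := by
  apply SS.Map.ext
  intro p z
  apply ContinuousMap.ext
  intro t
  show f (toC (m.app z) t) = F (chiI (c1 p) t, toC (m.app z) t)
  rw [chiI_c1, h]

/-- the generalised functional squares of homotopic maps -/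
theorem theta_htpC {X : SS} (D : SqD (bsT (i + 1) P) (i + 1)) {A : Type} [TopologicalSpace A]
    (m : SS.Map (X.prod (SN (i + 1))) (sing A)) {f g : C(A, TT (i + 1) P)}
    (F : C(unitInterval × A, TT (i + 1) P)) (h0 : ∀ a, F (0, a) = f a) (h1 : ∀ a, F (1, a) = g a)
    (hF : ∀ {p : ℕ} (x : (X.prod (SN (i + 1))).obj p), (bdX X (i + 1)).mem x →
      ∀ (s : unitInterval) (t : Dl p), F (s, toC (m.app x) t) = ∞)
    {hm : ∀ {p : ℕ} (x : (X.prod (SN (i + 1))).obj p), (bdX X (i + 1)).mem x →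
      (bsT (i + 1) P).mem (((singMap f).comp m).app x)}
    {hm' : ∀ {p : ℕ} (x : (X.prod (SN (i + 1))).obj p), (bdX X (i + 1)).mem x →
      (bsT (i + 1) P).mem (((singMap g).comp m).app x)} :
    (Cc.cupC X).Coh (theta D ((singMap f).comp m) hm) (theta D ((singMap g).comp m) hm') :=
  theta_htp D (htpS m F) (fun χ x hx t => hF x hx _ _) (htpS_e0 m F h0) (htpS_e1 m F h1)

/-- the integrals of homotopic maps -/
theorem DstN_htpC {X : SS} {w : Cc (sing (TT K P))} (hw : Vn (bsT K P) w) (hdw : Cc.d w = 0)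
    {A : Type} [TopologicalSpace A]
    (m : SS.Map (X.prod (SN K)) (sing A)) {f g : C(A, TT K P)}
    (F : C(unitInterval × A, TT K P)) (h0 : ∀ a, F (0, a) = f a) (h1 : ∀ a, F (1, a) = g a)
    (hF : ∀ {p : ℕ} (x : (X.prod (SN K)).obj p), (bdX X K).mem x →
      ∀ (s : unitInterval) (t : Dl p), F (s, toC (m.app x) t) = ∞) :
    (Cc.cupC X).Coh (DstN K (Cc.pull ((singMap f).comp m) w))
      (DstN K (Cc.pull ((singMap g).comp m) w)) := by
  have h2 : Vn (bdX X K) (htp (htpS m F) w) :=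
    htp_pair (htpS m F) (fun χ x hx t => hF x hx _ _) hw
  refine ⟨DstN K (htp (htpS m F) w), ?_⟩
  show DstN K (Cc.pull ((singMap f).comp m) w) + DstN K (Cc.pull ((singMap g).comp m) w) =
    Cc.d (DstN K (htp (htpS m F) w))
  rw [← DstN_d h2, ← DstN_add]
  have h3 := htp_coh (htpS m F) hdw
  rw [htpS_e0 m F h0, htpS_e1 m F h1, h3]
  congr 1
  funext p z
  simp only [Pi.add_apply]
  have h4 := CharTwo.add_self_eq_zero (Cc.pull (htpS m F).e1 w p z)
  linear_combination h4

variable {c c' : C(Sph (d + (i + 1)), TT (i + 1) P)} {hc : c ∞ = ∞} {hc' : c' ∞ = ∞}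

theorem homotopy_infty {A : Type} [TopologicalSpace A] {a : A} {f g : C(A, TT K P)}
    (F : f.HomotopyRel g {a}) (hf : f a = ∞) (s : unitInterval) : F (s, a) = ∞ := by
  rw [F.eq_fst s (Set.mem_singleton _), hf]

/-- **homotopy invariance** -/
theorem Phi_htpy (hd : 0 < d) (h : c.HomotopicRel c' {∞}) {x : Cc (sing P)}
    (hq : Cc.IsDeg q x) (hx : Cc.d x = 0) : Phi c hc hq hx = Phi c' hc' hq hx := by
  obtain ⟨F⟩ := h
  refine evf hd (theta_htpC (jR i hq hx) (mu d (i + 1)) F.toContinuousMap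
    (fun a => F.apply_zero a) (fun a => F.apply_one a) (fun x hx s t => ?_)
    (hm := cu_base hc) (hm' := cu_base hc'))
  have h1 : toC ((mu d (i + 1)).app x) t = ∞ := mu_base hx t
  show F (s, _) = ∞
  rw [h1]
  exact homotopy_infty F hc s

theorem Int_htpy (hd : 0 < d) (hc : c ∞ = ∞) (h : c.HomotopicRel c' {∞}) {x : Cc (sing P)}
    (hq : Cc.IsDeg q x) (hx : Cc.d x = 0) : Int c hq hx = Int c' hq hx := by
  obtain ⟨F⟩ := h
  refine evf hd (DstN_htpC (jR i hq hx).vn_b (jR i hq hx).d_b (mu d (i + 1)) F.toContinuousMap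
    (fun a => F.apply_zero a) (fun a => F.apply_one a) fun x hx s t => ?_)
  have h1 : toC ((mu d (i + 1)).app x) t = ∞ := mu_base hx t
  show F (s, _) = ∞
  rw [h1]
  exact homotopy_infty F hc s

end htpy

/-! ### composition -/

section comp

variable {c : C(Sph (d + (i + 1)), TT (i + 1) P)} {hc : c ∞ = ∞}
  {L : C(TT (i + 1) P, TT (i + 1) Q)} (hL : L ∞ = ∞)

omit [CompactSpace P] [T2Space P] [CompactSpace Q] [T2Space Q] in
include hL in
theorem L_base {p : ℕ} (x : (sing (TT (i + 1) P)).obj p) (hx : (bsT (i + 1) P).mem x) :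
    (bsT (i + 1) Q).mem ((singMap L).app x) := fun t => by
  show L (toC x t) = ∞
  rw [hx t, hL]

include hL in
theorem Lmu_base {p : ℕ} (x : ((sing P).prod (SN (i + 1))).obj p)
    (hx : (bdX (sing P) (i + 1)).mem x) :
    (bsT (i + 1) Q).mem (((singMap L).comp (muT (i + 1) P)).app x) :=
  L_base hL _ fun t => muT_infty (i + 1) P hx t

/-- **Composition with a map of the target.** -/
theorem Phi_comp (hd : 0 < d) {z : Cc (sing Q)} (hz : Cc.IsDeg q z) (dz : Cc.d z = 0)
    {x : Cc (sing P)} (hx : Cc.IsDeg q x) (dx : Cc.d x = 0)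
    (h1 : (Cc.cupC (sing P)).Coh
      (DstN (i + 1) (Cc.pull ((singMap L).comp (muT (i + 1) P)) (jR i hz dz).b)) x)
    {r : ℕ} {κ : Cc (sing P)} (hκ : Cc.IsDeg r κ) (dκ : Cc.d κ = 0)
    (h2 : (Cc.cupC (sing P)).Coh
      (theta (jR i hz dz) ((singMap L).comp (muT (i + 1) P)) (Lmu_base hL)) κ)
    {hLc : (L.comp c) ∞ = ∞} :
    Phi (L.comp c) hLc hz dz = Phi c hc hx dx + Int c hκ dκ := by
  have h3 := Phi_of' (c := c) (hc := hc) hd
    ((jR i hz dz).pull (singMap L) fun x hx => L_base hL x hx) hx dx h1 hκ dκ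
    ((theta_map (singMap L) (fun x hx => L_base hL x hx) (jR i hz dz)
      (hm := fun _ h => muT_infty (i + 1) P h) rfl).trans h2)
  rw [← h3]
  exact (evf hd (theta_map (singMap L) (fun x hx => L_base hL x hx) (jR i hz dz)
    (m := cu c) (hm := cu_base hc) (hm' := cu_base hLc) rfl)).symm

include hL in
theorem Int_comp (hd : 0 < d) (hc : c ∞ = ∞) {z : Cc (sing Q)} (hz : Cc.IsDeg q z)
    (dz : Cc.d z = 0)
    {x : Cc (sing P)} (hx : Cc.IsDeg q x) (dx : Cc.d x = 0)
    (h1 : (Cc.cupC (sing P)).Coh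
      (DstN (i + 1) (Cc.pull ((singMap L).comp (muT (i + 1) P)) (jR i hz dz).b)) x) :
    Int (L.comp c) hz dz = Int c hx dx :=
  Int_of hd hc (w := Cc.pull (singMap L) (jR i hz dz).b)
    (((jR i hz dz).vn_b.pull _).mono fun x hx => L_base hL x hx)
    (by rw [← pull_d, (jR i hz dz).d_b, pull_zero]) hx dx h1

end comp

/-! ### naturality -/

section nat

variable {c : C(Sph (d + (i + 1)), TT (i + 1) P)} {hc : c ∞ = ∞} (l : C(P, Q))

theorem thm_mu : (singMap (thm l)).comp (muT K P) = (muT K Q).comp (timesN (singMap l) K) := by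
  apply SS.Map.ext
  intro p z
  apply ContinuousMap.ext
  intro t
  exact thm_smP l _ _

theorem DstN_thm {w : Cc (sing (TT K Q))} :
    DstN K (Cc.pull ((singMap (thm l)).comp (muT K P)) w) =
      Cc.pull (singMap l) (DstN K (Cc.pull (muT K Q) w)) := by
  rw [thm_mu]
  have h := DstN_pull K (singMap l) (Cc.pull (muT K Q) w)
  exact h

theorem theta_thm (D : SqD (bsT (i + 1) Q) (i + 1)) :
    (Cc.cupC (sing P)).Coh
      (theta D ((singMap (thm l)).comp (muT (i + 1) P)) (Lmu_base (thm_infty l)))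
      (Cc.pull (singMap l) (theta D (muT (i + 1) Q) fun _ h => muT_infty (i + 1) Q h)) :=
  theta_pull D (m := muT (i + 1) Q) (hm := fun _ h => muT_infty (i + 1) Q h) (singMap l)
    (thm_mu l)

/-- **Naturality.** -/
theorem Phi_nat (hd : 0 < d) {z : Cc (sing Q)} (hz : Cc.IsDeg q z) (dz : Cc.d z = 0)
    {hLc : ((thm l).comp c) ∞ = ∞} (hx : Cc.IsDeg q (Cc.pull (singMap l) z))
    (dx : Cc.d (Cc.pull (singMap l) z) = 0) :
    Phi ((thm l).comp c) hLc hz dz = Phi c hc hx dx := by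
  have h1 : (Cc.cupC (sing P)).Coh (DstN (i + 1) (Cc.pull ((singMap (thm l)).comp
      (muT (i + 1) P)) (jR i hz dz).b)) (Cc.pull (singMap l) z) := by
    rw [DstN_thm]
    exact (DstN_jR hz dz).map (Cc.pullHom (singMap l))
  have h2 := (theta_thm l (jR i hz dz)).trans ((theta_jR hz dz).map (Cc.pullHom (singMap l)))
  rw [map_zero] at h2
  have h3 := Phi_comp (c := c) (hc := hc) (thm_infty l) hd hz dz hx dx h1
    (r := 0) (κ := (0 : Cc (sing P))) (fun _ _ _ => rfl) d_zero h2 (hLc := hLc)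
  have h4 : Int c (q := 0) (u := (0 : Cc (sing P))) (fun _ _ _ => rfl) d_zero = 0 :=
    Int_null hd hc _ _ (Coh.refl _)
  rw [h3, h4, add_zero]

theorem Int_nat (hd : 0 < d) (hc : c ∞ = ∞) {z : Cc (sing Q)} (hz : Cc.IsDeg q z)
    (dz : Cc.d z = 0)
    (hx : Cc.IsDeg q (Cc.pull (singMap l) z)) (dx : Cc.d (Cc.pull (singMap l) z) = 0) :
    Int ((thm l).comp c) hz dz = Int c hx dx := by
  refine Int_comp (thm_infty l) hd hc hz dz hx dx ?_
  rw [DstN_thm]
  exact (DstN_jR hz dz).map (Cc.pullHom (singMap l))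

/-- a class of positive degree pulled back from a point is null -/
theorem pull_const_null {x : Cc (sing Q)} (hq0 : 0 < q) (hx : Cc.IsDeg q x) (dx : Cc.d x = 0)
    (y : Q) : (Cc.cupC (sing P)).Coh (Cc.pull (singMap (ContinuousMap.const P y)) x) 0 := by
  obtain ⟨k, rfl⟩ : ∃ k, q = k + 1 := ⟨q - 1, by omega⟩
  obtain ⟨f, hf⟩ : ∃ f : SS.Map SS.pt (sing Q), f = ⟨fun {p} _ => ofC (ContinuousMap.const _ y),
    fun _ _ => rfl⟩ := ⟨_, rfl⟩
  obtain ⟨a, -, ha⟩ := pt_vanC (hx.pull f) (by rw [← pull_d, dx, pull_zero])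
  refine coh_zero.2 ⟨Cc.pull (SS.toPt _) a, ?_⟩
  rw [← pull_d, ha, hf]
  rfl

end nat

end Vale.Agent.P263.FR
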