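import Vale.Agent.P263.FR.FNc
import Vale.Agent.P263.FR.Graph
import Vale.Agent.P263.FR.H285.FormQ

/-!
# P263, V5: the two halves of a map `(ℝᴷ × M)⁺ → Sᴷ`

`A : (ℝᴷ × M)⁺ → Sᴷ` based, `τ : ℝᴷ × M → ℝ` continuous and without zeros where `A` is finite.

* `half A τ b` : `A` where `decide (0 < τ) = b`, `∞` elsewhere.
* `dbl A τ : (ℝᴷ × M)⁺ → (ℝᴷ × (M × Bool))⁺` : `(e, x) ↦ (A (e, x), (x, decide (0 < τ (e, x))))`.
* `dbs A τ b` : the part of `dbl` of sign `b`; `dbl_two` : the form of `theta_two01`.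
* `hform_half` : the hypothesis `hform` of `count_of_form` for `dbl`.
-/

open OnePoint Topology Filter

set_option linter.unusedSectionVars false

namespace Vale.Agent.P263.FR

open Vale.Agent.P263.S hiding sn sn_add
open Vale.Agent.P263.E Vale.Agent.P263.G2 Vale.Agent.P263.TJ Vale.Agent.P263.KJ
open Vale.Agent.P263.T0 Vale.Agent.P263.K CupC H285

section general

variable {K : ℕ} {M P : Type} [TopologicalSpace M] [TopologicalSpace P]

/-- a map which is continuous at the finite points and whose first component is bounded below by a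
based map is continuous -/
theorem continuous_of_fst {A : TT K M → Sph K} (hA : Continuous A) (hi : A ∞ = ∞)
    {g : TT K M → TT K P} (h0 : g ∞ = ∞) (h1 : ∀ z, g z ≠ ∞ → fstT (g z) = A z)
    (h2 : Continuous fun e : (Fin K → ℝ) × M => g (e : TT K M)) : Continuous g := by
  rw [continuous_iff_continuousAt]
  intro z
  induction z using OnePoint.rec with
  | infty =>
    show Tendsto g (𝓝 ∞) (𝓝 (g ∞))
    rw [h0]
    apply tendsto_inftyP
    intro R
    have h3 : Tendsto A (𝓝 ∞) (𝓝 ∞) := by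
      have h4 : Tendsto A (𝓝 ∞) (𝓝 (A ∞)) := hA.continuousAt
      rw [hi] at h4
      exact h4
    filter_upwards [eventually_of_tendsto h3 R] with y hy v q hvq
    apply hy v
    rw [← h1 y (by rw [hvq]; exact OnePoint.coe_ne_infty _), hvq]
    rfl
  | coe e =>
    rw [OnePoint.continuousAt_coe]
    exact h2.continuousAt

theorem continuous_of_eq {A : TT K M → Sph K} (hA : Continuous A) (hi : A ∞ = ∞)
    {g : TT K M → Sph K} (h0 : g ∞ = ∞) (h1 : ∀ z, g z ≠ ∞ → g z = A z)
    (h2 : Continuous fun e : (Fin K → ℝ) × M => g (e : TT K M)) : Continuous g := by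
  rw [continuous_iff_continuousAt]
  intro z
  induction z using OnePoint.rec with
  | infty =>
    show Tendsto g (𝓝 ∞) (𝓝 (g ∞))
    rw [h0]
    apply tendsto_inftyS
    intro R
    have h3 : Tendsto A (𝓝 ∞) (𝓝 ∞) := by
      have h4 : Tendsto A (𝓝 ∞) (𝓝 (A ∞)) := hA.continuousAt
      rw [hi] at h4
      exact h4
    filter_upwards [eventually_of_tendsto h3 R] with y hy v hv
    apply hy v
    rw [← h1 y (by rw [hv]; exact OnePoint.coe_ne_infty _), hv]
  | coe e =>
    rw [OnePoint.continuousAt_coe]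
    exact h2.continuousAt

/-- the set of a sign -/
def sgS (τ : (Fin K → ℝ) × M → ℝ) (b : Bool) : Set ((Fin K → ℝ) × M) := {e | decide (0 < τ e) = b}

/-- the function of a half -/
noncomputable def halfF (A : TT K M → Sph K) (τ : (Fin K → ℝ) × M → ℝ) (b : Bool) (z : TT K M) :
    Sph K := z.elim ∞ fun e => cut (sgS τ b) (fun e : (Fin K → ℝ) × M => A (e : TT K M)) e

theorem continuous_cut_sg {A : TT K M → Sph K} (hA : Continuous A)
    {τ : (Fin K → ℝ) × M → ℝ} (hτ : Continuous τ) (h0 : ∀ e : (Fin K → ℝ) × M, A (e : TT K M) ≠ ∞ → τ e ≠ 0)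
    (b : Bool) : Continuous (cut (sgS τ b) fun e : (Fin K → ℝ) × M => A (e : TT K M)) := by
  have hA' : Continuous fun e : (Fin K → ℝ) × M => A (e : TT K M) :=
    hA.comp OnePoint.continuous_coe
  cases b
  · -- `τ ≤ 0`
    refine continuous_cut (U := {e | τ e < 0}) ?_ (isOpen_lt hτ continuous_const) ?_
      hA'.continuousOn ?_
    · have h1 : sgS τ false = {e | τ e ≤ 0} := by
        ext e
        show decide (0 < τ e) = false ↔ τ e ≤ 0
        rw [decide_eq_false_iff_not, not_lt]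
      rw [h1]
      exact isClosed_le hτ continuous_const
    · intro e he
      show decide (0 < τ e) = false
      rw [decide_eq_false_iff_not, not_lt]
      exact le_of_lt he
    · intro e he he'
      by_contra h1
      have h2 := h0 e h1
      have h3 : τ e ≤ 0 := by
        have h4 : decide (0 < τ e) = false := he
        rwa [decide_eq_false_iff_not, not_lt] at h4
      exact he' (lt_of_le_of_ne h3 h2)
  · -- `0 < τ`
    have h1 : (cut (sgS τ true) fun e : (Fin K → ℝ) × M => A (e : TT K M)) =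
        cut {e | 0 ≤ τ e} fun e : (Fin K → ℝ) × M => A (e : TT K M) := by
      funext e
      by_cases h2 : 0 < τ e
      · rw [cut_of_mem (show e ∈ sgS τ true from decide_eq_true h2),
          cut_of_mem (show e ∈ {e | 0 ≤ τ e} from h2.le)]
      · rw [cut_of_notMem (fun h : e ∈ sgS τ true => h2 (of_decide_eq_true h))]
        by_cases h3 : 0 ≤ τ e
        · rw [cut_of_mem (show e ∈ {e | 0 ≤ τ e} from h3)]
          by_contra h4
          exact h0 e (fun h5 => h4 h5.symm) (le_antisymm (not_lt.1 h2) h3)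
        · rw [cut_of_notMem (show e ∉ {e | 0 ≤ τ e} from h3)]
    rw [h1]
    refine continuous_cut (U := {e | 0 < τ e}) (isClosed_le continuous_const hτ)
      (isOpen_lt continuous_const hτ) (fun e (he : 0 < τ e) => (le_of_lt he : 0 ≤ τ e))
      hA'.continuousOn ?_
    intro e he he'
    by_contra h2
    exact he' (lt_of_le_of_ne he (h0 e h2).symm)

end general

section half

variable {K : ℕ} {M : Type} [TopologicalSpace M] [CompactSpace M] [T2Space M]
  (A : C(TT K M, Sph K)) (hA : A ∞ = ∞) {τ : (Fin K → ℝ) × M → ℝ} (hτ : Continuous τ)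
  (h0 : ∀ e : (Fin K → ℝ) × M, A (e : TT K M) ≠ ∞ → τ e ≠ 0)

/-- **the half of sign `b`** -/
noncomputable def half (b : Bool) : C(TT K M, Sph K) :=
  ⟨halfF A τ b, continuous_of_eq A.continuous hA rfl
    (fun z hz => by
      induction z using OnePoint.rec with
      | infty => exact absurd rfl hz
      | coe e =>
        have h1 : e ∈ sgS τ b := by
          by_contra h2
          exact hz (cut_of_notMem (g := fun e : (Fin K → ℝ) × M => A (e : TT K M)) h2)
        exact cut_of_mem (g := fun e : (Fin K → ℝ) × M => A (e : TT K M)) h1)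
    (continuous_cut_sg A.continuous hτ h0 b)⟩

theorem half_infty (b : Bool) : half A hA hτ h0 b ∞ = ∞ := rfl

theorem half_of {b : Bool} {e : (Fin K → ℝ) × M} (h : decide (0 < τ e) = b) :
    half A hA hτ h0 b (e : TT K M) = A (e : TT K M) :=
  cut_of_mem (C := sgS τ b) (g := fun e : (Fin K → ℝ) × M => A (e : TT K M)) h

theorem half_not {b : Bool} {e : (Fin K → ℝ) × M} (h : decide (0 < τ e) ≠ b) :
    half A hA hτ h0 b (e : TT K M) = ∞ :=
  cut_of_notMem (C := sgS τ b) (g := fun e : (Fin K → ℝ) × M => A (e : TT K M)) h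

/-- **the map to the double** -/
noncomputable def dbl : C(TT K M, TT K (M × Bool)) :=
  ⟨fun z => z.elim ∞ fun e => prT (A (e : TT K M)) (e.2, decide (0 < τ e)),
    continuous_of_fst A.continuous hA rfl
    (fun z hz => by
      induction z using OnePoint.rec with
      | infty => exact absurd rfl hz
      | coe e => exact map_fst_prT _ _)
    (continuous_prT (A.continuous.comp OnePoint.continuous_coe) fun e he => by
      refine continuousAt_snd.prodMk ?_
      have h1 : IsOpen {e | τ e ≠ 0} := isOpen_ne.preimage hτ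
      have h2 : ContinuousOn (fun e => decide (0 < τ e)) {e | τ e ≠ 0} := by
        rw [continuousOn_iff_continuous_domRestrict]
        exact continuous_decide (hτ.comp continuous_subtype_val) fun e => e.2
      exact h2.continuousAt (h1.mem_nhds (h0 e he)))⟩

theorem dbl_infty : dbl A hA hτ h0 ∞ = ∞ := rfl

theorem dbl_coe (e : (Fin K → ℝ) × M) :
    dbl A hA hτ h0 (e : TT K M) = prT (A (e : TT K M)) (e.2, decide (0 < τ e)) := rfl

theorem fstT_dbl (z : TT K M) : fstT (dbl A hA hτ h0 z) = A z := by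
  induction z using OnePoint.rec with
  | infty =>
    rw [dbl_infty, hA]
    rfl
  | coe e =>
    rw [dbl_coe]
    exact map_fst_prT _ _

/-- the part of sign `b` -/
noncomputable def dbs (b : Bool) : C(TT K M, TT K (M × Bool)) :=
  (thm (inB b)).comp (gr (half A hA hτ h0 b) (half_infty A hA hτ h0 b))

theorem dbs_infty (b : Bool) : dbs A hA hτ h0 b ∞ = ∞ := rfl

theorem prT_eq_smP (w : Sph K) (x : M) : prT w x = smP K M (w, x) := by
  induction w using OnePoint.rec with
  | infty => rfl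
  | coe w => rfl

theorem dbs_of {b : Bool} {e : (Fin K → ℝ) × M} (h : decide (0 < τ e) = b) :
    dbs A hA hτ h0 b (e : TT K M) = dbl A hA hτ h0 (e : TT K M) := by
  show thm (inB b) (gr (half A hA hτ h0 b) _ (e : TT K M)) = _
  rw [gr_coe, half_of A hA hτ h0 h, thm_smP, dbl_coe, prT_eq_smP, h]
  rfl

theorem dbs_not {b : Bool} {e : (Fin K → ℝ) × M} (h : decide (0 < τ e) ≠ b) :
    dbs A hA hτ h0 b (e : TT K M) = ∞ := by
  show thm (inB b) (gr (half A hA hτ h0 b) _ (e : TT K M)) = _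
  rw [gr_coe, half_not A hA hτ h0 h, smP_infty]
  rfl

/-- **`dbl` is the union of the two parts** -/
theorem dbl_two (z : TT K M) :
    (dbl A hA hτ h0 z = dbs A hA hτ h0 true z ∧ dbs A hA hτ h0 false z = ∞) ∨
      (dbl A hA hτ h0 z = dbs A hA hτ h0 false z ∧ dbs A hA hτ h0 true z = ∞) := by
  induction z using OnePoint.rec with
  | infty => exact Or.inl ⟨rfl, rfl⟩
  | coe e =>
    by_cases h : 0 < τ e
    · refine Or.inl ⟨(dbs_of A hA hτ h0 (decide_eq_true h)).symm, dbs_not A hA hτ h0 ?_⟩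
      rw [decide_eq_true h]
      decide
    · refine Or.inr ⟨(dbs_of A hA hτ h0 (decide_eq_false h)).symm, dbs_not A hA hτ h0 ?_⟩
      rw [decide_eq_false h]
      decide

theorem thm_fst_inB (b : Bool) (z : TT K M) : thm (fstB M) (thm (inB b) z) = z := by
  induction z using OnePoint.rec with
  | infty => rfl
  | coe e => rfl

/-- the projection of `dbl` to `M` -/
theorem thm_fst_dbl : (thm (fstB M)).comp (dbl A hA hτ h0) = gr A hA := by
  apply ContinuousMap.ext
  intro z
  induction z using OnePoint.rec with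
  | infty => rfl
  | coe e =>
    show thm (fstB M) (dbl A hA hτ h0 (e : TT K M)) = _
    rw [dbl_coe, prT_eq_smP, thm_smP, gr_coe]
    rfl

theorem thm_fst_dbs (b : Bool) : (thm (fstB M)).comp (dbs A hA hτ h0 b) =
    gr (half A hA hτ h0 b) (half_infty A hA hτ h0 b) := by
  apply ContinuousMap.ext
  intro z
  exact thm_fst_inB b _

theorem dbs_self (b : Bool) : dbs A hA hτ h0 b =
    (thm (inB b)).comp ((thm (fstB M)).comp (dbs A hA hτ h0 b)) := by
  rw [thm_fst_dbs]
  rfl

/-- the projection to the sphere -/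
def prC (K : ℕ) (M : Type) [TopologicalSpace M] [CompactSpace M] : C(TT K M, Sph K) :=
  ⟨fstT, continuous_fstT⟩

theorem gr_prC : gr (prC K M) rfl = ContinuousMap.id (TT K M) := by
  apply ContinuousMap.ext
  intro z
  induction z using OnePoint.rec with
  | infty => rfl
  | coe e => rfl

/-- a half which is homotopic to the projection -/
theorem dbs_homotopic {b : Bool} (h : (half A hA hτ h0 b).HomotopicRel (prC K M) {∞}) :
    (dbs A hA hτ h0 b).HomotopicRel (thm (inB b)) {∞} := by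
  have h1 := (gr_homotopic (half_infty A hA hτ h0 b) rfl h).comp_continuousMap
    (thm (K := K) (inB (M := M) b))
  rw [gr_prC] at h1
  exact h1

end half

/-! ### the pull back to `M` -/

section pull

variable {K : ℕ} {M P : Type} [TopologicalSpace M] [CompactSpace M] [T2Space M]
  [TopologicalSpace P] [CompactSpace P] [T2Space P]
  (Λ : C(TT K P, Sph K)) (hΛ : Λ ∞ = ∞) {τ : (Fin K → ℝ) × P → ℝ} (hτ : Continuous τ)
  (h0 : ∀ e : (Fin K → ℝ) × P, Λ (e : TT K P) ≠ ∞ → τ e ≠ 0) (l : C(M, P))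

include hΛ in
theorem pl_infty : (Λ.comp (thm l)) ∞ = ∞ := hΛ

/-- the function on `M` -/
def plT (τ : (Fin K → ℝ) × P → ℝ) (l : C(M, P)) (e : (Fin K → ℝ) × M) : ℝ := τ (e.1, l e.2)

include hτ in
theorem continuous_plT : Continuous (plT τ l) :=
  hτ.comp (continuous_fst.prodMk (l.continuous.comp continuous_snd))

include h0 in
theorem pl_ne (e : (Fin K → ℝ) × M) (h : (Λ.comp (thm l)) (e : TT K M) ≠ ∞) : plT τ l e ≠ 0 :=
  h0 (e.1, l e.2) h

/-- the half of the pull back -/
theorem half_pl (b : Bool) :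
    half (Λ.comp (thm l)) (pl_infty Λ hΛ l) (continuous_plT hτ l) (pl_ne Λ h0 l) b =
      (half Λ hΛ hτ h0 b).comp (thm l) := by
  apply ContinuousMap.ext
  intro z
  induction z using OnePoint.rec with
  | infty => rfl
  | coe e =>
    show _ = half Λ hΛ hτ h0 b (thm l (e : TT K M))
    rw [thm_coe]
    by_cases h : decide (0 < plT τ l e) = b
    · rw [half_of _ _ _ _ h, half_of _ _ _ _ (show decide (0 < τ (e.1, l e.2)) = b from h)]
      rfl
    · rw [half_not _ _ _ _ h, half_not _ _ _ _ (show decide (0 < τ (e.1, l e.2)) ≠ b from h)]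

theorem comp_thm_homotopic {F F' : C(TT K P, Sph K)} (h : F.HomotopicRel F' {∞}) :
    (F.comp (thm l)).HomotopicRel (F'.comp (thm l)) {∞} := by
  obtain ⟨H⟩ := h
  refine ⟨⟨⟨⟨fun q => H (q.1, thm l q.2), H.continuous.comp (continuous_fst.prodMk
    ((thm l).continuous.comp continuous_snd))⟩, fun z => ?_, fun z => ?_⟩, fun t z hz => ?_⟩⟩
  · exact H.apply_zero _
  · exact H.apply_one _
  · refine H.eq_fst t ?_
    rw [Set.mem_singleton_iff.1 hz]
    rfl

theorem prC_thm : (prC K P).comp (thm l) = prC K M := by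
  apply ContinuousMap.ext
  intro z
  induction z using OnePoint.rec with
  | infty => rfl
  | coe e => rfl

/-- **`G : (ℝᴷ × M)⁺ → (ℝᴷ × (M × Bool))⁺`** -/
noncomputable def GG : C(TT K M, TT K (M × Bool)) :=
  dbl (Λ.comp (thm l)) (pl_infty Λ hΛ l) (continuous_plT hτ l) (pl_ne Λ h0 l)

/-- the part of sign `b` of `GG` -/
noncomputable def GGs (b : Bool) : C(TT K M, TT K (M × Bool)) :=
  dbs (Λ.comp (thm l)) (pl_infty Λ hΛ l) (continuous_plT hτ l) (pl_ne Λ h0 l) b

theorem GG_infty : GG Λ hΛ hτ h0 l ∞ = ∞ := rfl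

theorem GG_coe (e : (Fin K → ℝ) × M) : GG Λ hΛ hτ h0 l (e : TT K M) =
    prT (Λ (((e.1, l e.2) : (Fin K → ℝ) × P) : TT K P)) (e.2, decide (0 < τ (e.1, l e.2))) := rfl

theorem fstT_GG (z : TT K M) : fstT (GG Λ hΛ hτ h0 l z) = Λ (thm l z) := fstT_dbl _ _ _ _ z

theorem GG_homotopic {b : Bool} (h : (half Λ hΛ hτ h0 b).HomotopicRel (prC K P) {∞}) :
    (GGs Λ hΛ hτ h0 l b).HomotopicRel (thm (inB b)) {∞} := by
  refine dbs_homotopic _ _ _ _ ?_
  rw [half_pl Λ hΛ hτ h0, ← prC_thm l]
  exact comp_thm_homotopic l h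

end pull

/-! ### the quadratic form of the composite with `GG` -/

section form

variable {M : Type} [TopologicalSpace M] [CompactSpace M] [T2Space M] {i q : ℕ}
  {V : Type} [NormedAddCommGroup V] [InnerProductSpace ℝ V] [FiniteDimensional ℝ V]
  {W : Type} [NormedAddCommGroup W] [NormedSpace ℝ W]
  {φ : (V × W) ≃L[ℝ] (Fin (i + 1) → ℝ)} {l : C(M, PV V)}
  {Lf : C(TT (i + 1) (PV V), Sph (i + 1))}
  {Λ : C(TT (i + 1) (PV V), Sph (i + 1))} (hΛ : Λ ∞ = ∞)
  {τ : (Fin (i + 1) → ℝ) × PV V → ℝ} (hτ : Continuous τ)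
  (h0 : ∀ e : (Fin (i + 1) → ℝ) × PV V, Λ (e : TT (i + 1) (PV V)) ≠ ∞ → τ e ≠ 0)

theorem GG_two (z : TT (i + 1) M) :
    (GG Λ hΛ hτ h0 l z = GGs Λ hΛ hτ h0 l true z ∧ GGs Λ hΛ hτ h0 l false z = ∞) ∨
      (GG Λ hΛ hτ h0 l z = GGs Λ hΛ hτ h0 l false z ∧ GGs Λ hΛ hτ h0 l true z = ∞) :=
  dbl_two _ _ _ _ z

/-- **the hypothesis `hform` of `count_of_form` for `GG`** -/
theorem hform_GG (hLf : IsLam φ Lf) (hh : Lf.HomotopicRel Λ {∞})
    (hP : (half Λ hΛ hτ h0 true).HomotopicRel (prC (i + 1) (PV V)) {∞})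
    {s d : ℕ} (hs : 0 < s) (hq : q = 2 ^ s - 1) (hdq : d = q + q)
    {w : Cc (sing M)} (w1 : Cc.IsDeg 1 w) (dw : Cc.d w = 0)
    (hwl : (Cc.cupC (sing M)).Coh (Cc.pull (singMap l) (wP V)) w)
    {c : C(Sph (d + (i + 1)), TT (i + 1) M)} (hc : c ∞ = ∞) {cG : C(Sph (d + (i + 1)),
      TT (i + 1) (M × Bool))} (hcG : cG ∞ = ∞) (hcGc : cG = (GG Λ hΛ hτ h0 l).comp c)
    (hw : Cc.IsDeg q (Cc.pw w q)) (dwq : Cc.d (Cc.pw w q) = 0)
    (z : Cc (sing (M × Bool))) (hz : Cc.IsDeg q z) (dz : Cc.d z = 0)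
    (p0 : Cc.IsDeg q (Cc.pull (singMap (inB true)) z))
    (d0 : Cc.d (Cc.pull (singMap (inB true)) z) = 0)
    (p1 : Cc.IsDeg q (Cc.pull (singMap (inB false)) z))
    (d1 : Cc.d (Cc.pull (singMap (inB false)) z) = 0) :
    Phi cG hcG hz dz = Phi c hc p0 d0 + Phi c hc p1 d1 +
      Int c (isDeg_cup1 p1 hw) (d_cup1_zero d1 dwq) := by
  have eL : ((thm (fstB M)).comp (GG Λ hΛ hτ h0 l)).HomotopicRel
      (gr (Lf.comp (thm l)) hLf.inf) {∞} := by
    unfold GG
    rw [thm_fst_dbl]
    exact gr_homotopic _ _ (comp_thm_homotopic l hh.symm)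
  exact hform_of (G := GG Λ hΛ hτ h0 l) (G₀ := GGs Λ hΛ hτ h0 l true)
    (G₁ := GGs Λ hΛ hτ h0 l false) (L := gr (Lf.comp (thm l)) hLf.inf) rfl rfl hLf rfl
    (fun z x => (gr_smP (Lf.comp (thm l)) hLf.inf z x).trans (by
      show smP (i + 1) M (Lf (thm l (smP (i + 1) M (z, x))), x) = _
      rw [thm_smP]))
    (GG_two hΛ hτ h0) rfl (GG_homotopic Λ hΛ hτ h0 l hP) (dbs_self _ _ _ _ _) eL hs hq hdq w1 dw
    hwl hc hcG hcGc hw dwq z hz dz p0 d0 p1 d1

end form

end Vale.Agent.P263.FR
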