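import Vale.Agent.P263.FR.Sq
import Vale.Agent.P263.FR.OneP
import Vale.Agent.P263.KJ.LamSq
import Mathlib.Analysis.Calculus.ContDiff.Operations
import Mathlib.Analysis.InnerProductSpace.Calculus

/-!
# P263, block G of the framed version: the squaring map in coordinates

`φ : V × (W × ℝ) ≃ ℝᴺ`, `v = φ (z, (w, t))`, `p ∈ P = P(V)`.

* `Sf φ B v = φ ((SB B z t).1, (w, (SB B z t).2 - 1/4))`;
* `Lam φ s : (ℝᴺ × P)⁺ → Sᴺ`, `(v, p) ↦ Psi s (Sf φ p v)`;
* `isLam_homotopic` : the suspension of the literal Kahn-Priddy map is homotopic to `Lam φ s`.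
-/

open CategoryTheory MonoidalCategory Filter Topology OnePoint InnerProductSpace RealInnerProductSpace

namespace Vale.Agent.P263.FR

open Vale.Agent.P251.G Vale.Agent.P263.KJ
open Vale.Agent.P251.G.LC hiding Sph RR
open Vale.Agent.P263.T0 (Sph)

section

variable {V W : Type} [NormedAddCommGroup V] [InnerProductSpace ℝ V] [FiniteDimensional ℝ V]
  [NormedAddCommGroup W] [NormedSpace ℝ W] {N : ℕ} (φ : (V × (W × ℝ)) ≃L[ℝ] (Fin N → ℝ))

/-- the last coordinate -/
noncomputable def tc (v : Fin N → ℝ) : ℝ := (φ.symm v).2.2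

/-- the squaring map in the coordinates `φ` -/
noncomputable def Sf (B : V →L[ℝ] V) (v : Fin N → ℝ) : Fin N → ℝ :=
  φ ((SB B (φ.symm v).1 (tc φ v)).1, ((φ.symm v).2.1, (SB B (φ.symm v).1 (tc φ v)).2 - 1 / 4))

omit [FiniteDimensional ℝ V] in
@[simp] theorem tc_phi (z : V) (w : W) (t : ℝ) : tc φ (φ (z, (w, t))) = t := by
  unfold tc
  rw [ContinuousLinearEquiv.symm_apply_apply]

omit [FiniteDimensional ℝ V] in
theorem Sf_phi (B : V →L[ℝ] V) (z : V) (w : W) (t : ℝ) :
    Sf φ B (φ (z, (w, t))) = φ ((SB B z t).1, (w, (SB B z t).2 - 1 / 4)) := by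
  unfold Sf
  rw [tc_phi, ContinuousLinearEquiv.symm_apply_apply]

omit [FiniteDimensional ℝ V] in
theorem continuous_tc : Continuous (tc φ) := by
  unfold tc
  fun_prop

omit [FiniteDimensional ℝ V] in
theorem contDiff_Sf : ContDiff ℝ ((⊤ : ℕ∞) : WithTop ℕ∞)
    fun x : (V →L[ℝ] V) × (Fin N → ℝ) => Sf φ x.1 x.2 := by
  have h0 : ContDiff ℝ ((⊤ : ℕ∞) : WithTop ℕ∞) fun x : (V →L[ℝ] V) × (Fin N → ℝ) => φ.symm x.2 :=
    φ.symm.contDiff.comp contDiff_snd
  have hz := h0.fst
  have hw := h0.snd.fst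
  have ht := h0.snd.snd
  have hB : ContDiff ℝ ((⊤ : ℕ∞) : WithTop ℕ∞)
      fun x : (V →L[ℝ] V) × (Fin N → ℝ) => x.1 (φ.symm x.2).1 := contDiff_fst.clm_apply hz
  unfold Sf SB tc
  refine φ.contDiff.comp (((hz.sub hB).add ((contDiff_const.mul ht).smul hB)).prodMk
    (hw.prodMk (((ht.pow 2).sub (ContDiff.inner ℝ hz hB)).sub contDiff_const)))

omit [FiniteDimensional ℝ V] in
theorem continuous_Sf : Continuous fun x : (V →L[ℝ] V) × (Fin N → ℝ) => Sf φ x.1 x.2 :=
  (contDiff_Sf φ).continuous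

/-! ### the morphisms -/

/-- the coordinates -/
noncomputable def hX : ((Fin N → ℝ) × PV V) ≃ₜ (((PV V × V) × ℝ) × W) where
  toFun x := (((x.2, (φ.symm x.1).1), (φ.symm x.1).2.2), (φ.symm x.1).2.1)
  invFun y := (φ (y.1.1.2, (y.2, y.1.2)), y.1.1.1)
  left_inv x := by simp
  right_inv y := by simp
  continuous_toFun := by fun_prop
  continuous_invFun := by fun_prop

/-- the coordinates -/
noncomputable def hY : ((V × ℝ) × W) ≃ₜ (Fin N → ℝ) where
  toFun y := φ (y.1.1, (y.2, y.1.2))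
  invFun v := (((φ.symm v).1, (φ.symm v).2.2), (φ.symm v).2.1)
  left_inv x := by simp
  right_inv y := by simp
  continuous_toFun := by fun_prop
  continuous_invFun := by fun_prop

include φ in
omit [FiniteDimensional ℝ V] in
theorem locallyCompact_W : LocallyCompactSpace W := by
  have h : FiniteDimensional ℝ W := by
    refine FiniteDimensional.of_injective
      (φ.toLinearMap.comp ((LinearMap.inr ℝ V (W × ℝ)).comp (LinearMap.inl ℝ W ℝ))) ?_
    intro a b hab
    have h1 := φ.injective hab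
    have h2 : ((0 : V), (a, (0 : ℝ))) = (0, (b, 0)) := h1
    exact (Prod.ext_iff.1 (Prod.ext_iff.1 h2).2).1
  have : ProperSpace W := FiniteDimensional.proper_real W
  infer_instance

/-- the squaring map as a morphism -/
noncomputable def sfM [LocallyCompactSpace W] : LC.of ((Fin N → ℝ) × PV V) ⟶ LC.of (Fin N → ℝ) :=
  (ofHomeo (X := LC.of ((Fin N → ℝ) × PV V)) (Y := LC.of (((PV V × V) × ℝ) × W)) (hX φ)).hom ≫
    tensorHom' (Z := LC.of W) (sqm V (-(1 / 4)) (by norm_num [abs_of_pos])) (𝟙 (LC.of W)) ≫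
      (ofHomeo (X := LC.of ((V × ℝ) × W)) (Y := LC.of (Fin N → ℝ)) (hY φ)).hom

theorem app_sfM [LocallyCompactSpace W] (v : Fin N → ℝ) (p : PV V) :
    app (sfM φ) (((v, p) : (Fin N → ℝ) × PV V) : OnePoint ((Fin N → ℝ) × PV V)) =
      ((Sf φ p.1 v : Fin N → ℝ) : OnePoint (Fin N → ℝ)) := by
  show ((φ _ : Fin N → ℝ) : OnePoint (Fin N → ℝ)) = _
  unfold Sf tc
  congr 2
  refine Prod.ext ?_ (Prod.ext rfl ?_)
  · show (SB p.1 (φ.symm v).1 (φ.symm v).2.2).1 + 0 = _
    rw [add_zero]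
  · show (SB p.1 (φ.symm v).1 (φ.symm v).2.2).2 + -(1 / 4) = _
    rw [sub_eq_add_neg]

/-- `λ ∧ id` as a morphism -/
noncomputable def lamM [LocallyCompactSpace W] : LC.of ((Fin N → ℝ) × PV V) ⟶ LC.of (Fin N → ℝ) :=
  (ofHomeo (X := LC.of ((Fin N → ℝ) × PV V)) (Y := LC.of (((PV V × V) × ℝ) × W)) (hX φ)).hom ≫
    tensorHom' (Z := LC.of W) (tensorHom' (lam V) (𝟙 LC.RR)) (𝟙 (LC.of W)) ≫
      (ofHomeo (X := LC.of ((V × ℝ) × W)) (Y := LC.of (Fin N → ℝ)) (hY φ)).hom

theorem lamM_homotopic [LocallyCompactSpace W] : Homotopic (lamM φ) (sfM φ) :=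
  Homotopic.comp_left _ (Homotopic.comp_right
    (Homotopic.tensor (lam_homotopic V _ _) (Homotopic.refl (𝟙 (LC.of W)))) _)

variable {φ}

theorem isLam_app_lamM [LocallyCompactSpace W] {Lf : C(OnePoint ((Fin N → ℝ) × PV V), Sph N)}
    (h : IsLam φ Lf) (x : OnePoint ((Fin N → ℝ) × PV V)) : app (lamM φ) x = Lf x := by
  induction x using OnePoint.rec with
  | infty => rw [h.inf]; exact app_infty _
  | coe x =>
    obtain ⟨v, p⟩ := x
    obtain ⟨⟨z, w, t⟩, rfl⟩ := φ.surjective v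
    rw [h.eq p z (w, t)]
    show app (ofHomeo (X := LC.of ((V × ℝ) × W)) (Y := LC.of (Fin N → ℝ)) (hY φ)).hom
      (app (tensorHom' (Z := LC.of W) (tensorHom' (lam V) (𝟙 LC.RR)) (𝟙 (LC.of W)))
        ((hX φ (φ (z, w, t), p) : ((PV V × V) × ℝ) × W) : OnePoint (((PV V × V) × ℝ) × W))) = _
    have e : hX φ (φ (z, w, t), p) = (((p, z), t), w) := by
      show (((p, (φ.symm (φ (z, w, t))).1), (φ.symm (φ (z, w, t))).2.2),
        (φ.symm (φ (z, w, t))).2.1) = _
      rw [ContinuousLinearEquiv.symm_apply_apply]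
    rw [e]
    show app (ofHomeo (X := LC.of ((V × ℝ) × W)) (Y := LC.of (Fin N → ℝ)) (hY φ)).hom
      (smash (smash (app (lam V) (((p, z) : PV V × V) : OnePoint (PV V × V)))
        ((t : ℝ) : OnePoint ℝ)) ((w : W) : OnePoint W)) = _
    generalize app (lam V) (((p, z) : PV V × V) : OnePoint (PV V × V)) = y
    induction y using OnePoint.rec with
    | infty => rfl
    | coe y => rfl

variable (φ)

/-- `z ↦ Psi s (Sf φ p v)` -/
noncomputable def LamF (s : ℝ) (z : OnePoint ((Fin N → ℝ) × PV V)) : Sph N :=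
  z.elim ∞ fun x => Psi s ((Sf φ x.2.1 x.1 : Fin N → ℝ) : OnePoint (Fin N → ℝ))

theorem LamF_eq [LocallyCompactSpace W] (s : ℝ) (z : OnePoint ((Fin N → ℝ) × PV V)) :
    LamF φ s z = Psi s (app (sfM φ) z) := by
  induction z using OnePoint.rec with
  | infty =>
    have h : app (sfM φ) ∞ = ∞ := app_infty _
    show ∞ = Psi s (app (sfM φ) ∞)
    rw [h]
    rfl
  | coe x =>
    obtain ⟨v, p⟩ := x
    exact (congrArg (Psi s) (app_sfM φ v p)).symm

theorem continuous_Psi_comp {Z : Type*} [TopologicalSpace Z] {s : Z → ℝ} {A : Z → Sph N}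
    (hs : Continuous s) (hA : Continuous A) (h0 : ∀ z, 0 ≤ s z) :
    Continuous fun z => Psi (s z) (A z) := by
  rw [← continuousOn_univ]
  exact ContinuousOn.psi hs.continuousOn hA.continuousOn fun z _ => h0 z

theorem continuous_LamF {s : ℝ} (hs : 0 ≤ s) : Continuous (LamF φ s) := by
  have := locallyCompact_W φ
  rw [show LamF φ s = fun z => Psi s (app (sfM φ) z) from funext (LamF_eq φ s)]
  exact continuous_Psi_comp continuous_const (continuous_app _) fun _ => hs

/-- the localised squaring map -/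
noncomputable def Lam {s : ℝ} (hs : 0 ≤ s) : C(OnePoint ((Fin N → ℝ) × PV V), Sph N) :=
  ⟨LamF φ s, continuous_LamF φ hs⟩

theorem Lam_infty {s : ℝ} (hs : 0 ≤ s) : Lam φ hs ∞ = ∞ := rfl

theorem Lam_coe {s : ℝ} (hs : 0 ≤ s) (v : Fin N → ℝ) (p : PV V) :
    Lam φ hs (((v, p) : (Fin N → ℝ) × PV V) : OnePoint ((Fin N → ℝ) × PV V)) =
      Psi s ((Sf φ p.1 v : Fin N → ℝ) : OnePoint (Fin N → ℝ)) := rfl

theorem Lam_homotopic {s s' : ℝ} (hs : 0 ≤ s) (hs' : 0 ≤ s') :
    (Lam φ hs).HomotopicRel (Lam φ hs') {∞} := by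
  have := locallyCompact_W φ
  refine homotopicRel_of (fun q => Psi ((1 - q.1) * s + q.1 * s') (app (sfM φ) q.2)) ?_ ?_ ?_ ?_
  · refine continuous_Psi_comp (by fun_prop) ((continuous_app _).comp continuous_snd) ?_
    intro z
    have h1 := z.1.2.1
    have h2 := z.1.2.2
    have h3 : 0 ≤ 1 - (z.1 : ℝ) := by linarith
    positivity
  · intro z
    show Psi ((1 - ((0 : unitInterval) : ℝ)) * s + ((0 : unitInterval) : ℝ) * s') _ = LamF φ s z
    rw [LamF_eq]
    simp
  · intro z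
    show Psi ((1 - ((1 : unitInterval) : ℝ)) * s + ((1 : unitInterval) : ℝ) * s') _ = LamF φ s' z
    rw [LamF_eq]
    simp
  · rintro τ z rfl
    show Psi _ (app (sfM φ) ∞) = ∞
    have h : app (sfM φ) ∞ = ∞ := app_infty _
    rw [h]
    rfl

/-- **The suspension of the literal Kahn-Priddy map is homotopic to the squaring map.** -/
theorem isLam_homotopic {Lf : C(OnePoint ((Fin N → ℝ) × PV V), Sph N)} (h : IsLam φ Lf) {s : ℝ}
    (hs : 0 ≤ s) : Lf.HomotopicRel (Lam φ hs) {∞} := by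
  have := locallyCompact_W φ
  refine ContinuousMap.HomotopicRel.trans ?_ (Lam_homotopic φ le_rfl hs)
  have h1 := (homotopic_iff _ _).1 (lamM_homotopic φ)
  have e1 : Hom.toMap (lamM φ) = Lf := ContinuousMap.ext fun x => isLam_app_lamM h x
  have e2 : Hom.toMap (sfM φ) = Lam φ le_rfl := ContinuousMap.ext fun x => by
    show app (sfM φ) x = LamF φ 0 x
    rw [LamF_eq, Psi_zero]
  rw [e1, e2] at h1
  exact h1

/-- there is a suspension of the literal Kahn-Priddy map in any coordinates -/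
theorem exists_isLam : ∃ Lf : C(OnePoint ((Fin N → ℝ) × PV V), Sph N), IsLam φ Lf := by
  have := locallyCompact_W φ
  refine ⟨Hom.toMap (lamM φ), app_infty (lamM φ), fun p z w => ?_⟩
  obtain ⟨w, t⟩ := w
  show app (ofHomeo (X := LC.of ((V × ℝ) × W)) (Y := LC.of (Fin N → ℝ)) (hY φ)).hom
    (app (tensorHom' (Z := LC.of W) (tensorHom' (lam V) (𝟙 LC.RR)) (𝟙 (LC.of W)))
      ((hX φ (φ (z, w, t), p) : ((PV V × V) × ℝ) × W) : OnePoint (((PV V × V) × ℝ) × W))) = _
  have e : hX φ (φ (z, w, t), p) = (((p, z), t), w) := by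
    show (((p, (φ.symm (φ (z, w, t))).1), (φ.symm (φ (z, w, t))).2.2),
      (φ.symm (φ (z, w, t))).2.1) = _
    rw [ContinuousLinearEquiv.symm_apply_apply]
  rw [e]
  show app (ofHomeo (X := LC.of ((V × ℝ) × W)) (Y := LC.of (Fin N → ℝ)) (hY φ)).hom
    (smash (smash (app (lam V) (((p, z) : PV V × V) : OnePoint (PV V × V)))
      ((t : ℝ) : OnePoint ℝ)) ((w : W) : OnePoint W)) = _
  generalize app (lam V) (((p, z) : PV V × V) : OnePoint (PV V × V)) = y
  induction y using OnePoint.rec with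
  | infty => rfl
  | coe y => rfl

end

/-! ### one more coordinate -/

section sus

/-- `(x, t) ↦ append x t` -/
noncomputable def apL (K : ℕ) : ((Fin K → ℝ) × ℝ) ≃L[ℝ] (Fin (K + 1) → ℝ) :=
  LinearEquiv.toContinuousLinearEquiv
    { toFun := fun p => Fin.append p.1 fun _ : Fin 1 => p.2
      invFun := fun v => (fun i => v (Fin.castAdd 1 i), v (Fin.natAdd K 0))
      left_inv := fun p => by
        refine Prod.ext ?_ ?_
        · funext i
          show Fin.append p.1 (fun _ : Fin 1 => p.2) (Fin.castAdd 1 i) = p.1 i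
          rw [Fin.append_left]
        · show Fin.append p.1 (fun _ : Fin 1 => p.2) (Fin.natAdd K 0) = p.2
          rw [Fin.append_right]
      right_inv := fun v => by
        funext i
        refine Fin.addCases (fun i => ?_) (fun i => ?_) i
        · simp [Fin.append_left]
        · obtain rfl : i = 0 := Subsingleton.elim _ _
          simp [Fin.append_right]
      map_add' := fun p q => by
        funext i
        refine Fin.addCases (fun i => ?_) (fun i => ?_) i
        · simp [Fin.append_left]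
        · simp [Fin.append_right]
      map_smul' := fun c p => by
        funext i
        refine Fin.addCases (fun i => ?_) (fun i => ?_) i
        · simp [Fin.append_left]
        · simp [Fin.append_right] }

theorem apL_apply (K : ℕ) (x : Fin K → ℝ) (t : ℝ) :
    apL K (x, t) = Fin.append x fun _ : Fin 1 => t := rfl

variable {V W : Type} [NormedAddCommGroup V] [InnerProductSpace ℝ V]
  [NormedAddCommGroup W] [NormedSpace ℝ W] {K : ℕ} (φ₀ : (V × W) ≃L[ℝ] (Fin K → ℝ))

/-- the regrouping -/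
noncomputable def asL (V W : Type) [NormedAddCommGroup V] [InnerProductSpace ℝ V]
    [NormedAddCommGroup W] [NormedSpace ℝ W] : (V × (W × ℝ)) ≃L[ℝ] ((V × W) × ℝ) :=
  { toFun := fun p => ((p.1, p.2.1), p.2.2)
    invFun := fun q => (q.1.1, (q.1.2, q.2))
    left_inv := fun _ => rfl
    right_inv := fun _ => rfl
    map_add' := fun _ _ => rfl
    map_smul' := fun _ _ => rfl
    continuous_toFun := by fun_prop
    continuous_invFun := by fun_prop }

/-- `(z, (w, t)) ↦ append (φ₀ (z, w)) t` -/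
noncomputable def susPhi : (V × (W × ℝ)) ≃L[ℝ] (Fin (K + 1) → ℝ) :=
  (asL V W).trans ((φ₀.prodCongr (ContinuousLinearEquiv.refl ℝ ℝ)).trans (apL K))

theorem susPhi_apply (z : V) (w : W) (t : ℝ) :
    susPhi φ₀ (z, (w, t)) = Fin.append (φ₀ (z, w)) fun _ : Fin 1 => t := rfl

theorem susPhi_symm_append (v : Fin K → ℝ) (t : ℝ) :
    (susPhi φ₀).symm (Fin.append v fun _ : Fin 1 => t) = ((φ₀.symm v).1, ((φ₀.symm v).2, t)) := by
  rw [ContinuousLinearEquiv.symm_apply_eq, susPhi_apply]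
  congr 1
  exact (φ₀.apply_symm_apply v).symm

end sus

end Vale.Agent.P263.FR
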