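import Vale.Agent.P263.FR.Half
import Vale.Agent.P263.FR.SqT
import Vale.Agent.P263.FR.Germ

/-!
# P263, V5: the positive half of the localised squaring map

* `linS` : the straight line between two maps to a sphere without further zeros.
* `Lam_tc` : `Lam φ s` is `∞` where the last coordinate vanishes, for `s ≥ s0 φ`.
* `half_Lam` : the positive half of `Lam φ s` is homotopic to the projection.
-/

open OnePoint Topology Filter InnerProductSpace RealInnerProductSpace

set_option linter.unusedSectionVars false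

namespace Vale.Agent.P263.FR

open Vale.Agent.P263.KJ
open Vale.Agent.P263.T0 (Sph)

section lin

variable {Z : Type} [TopologicalSpace Z] [CompactSpace Z] {K : ℕ}

/-- `y ↦ (y, ())` -/
noncomputable def toU (c : C(Z, Sph K)) : C(Z, OnePoint ((Fin K → ℝ) × Unit)) :=
  ⟨fun z => prT (c z) (), continuous_prT c.continuous fun _ _ => continuousAt_const⟩

theorem fstT_toU (c : C(Z, Sph K)) (z : Z) : fstT (toU c z) = c z := map_fst_prT _ _

theorem of_toU {c c' : C(Z, Sph K)} {S : Set Z} (h : (toU c).HomotopicRel (toU c') S) :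
    c.HomotopicRel c' S := by
  obtain ⟨H⟩ := h
  refine ⟨⟨⟨⟨fun q => fstT (H q), continuous_fstT.comp H.continuous⟩, fun z => ?_, fun z => ?_⟩,
    fun t z hz => ?_⟩⟩
  · show fstT (H (0, z)) = c z
    rw [H.apply_zero]
    exact fstT_toU c z
  · show fstT (H (1, z)) = c' z
    rw [H.apply_one]
    exact fstT_toU c' z
  · show fstT (H (t, z)) = c z
    rw [H.eq_fst t hz]
    exact fstT_toU c z

/-- **the straight line** -/
theorem linS {c c' : C(Z, Sph K)} (hf : ∀ z, c z ≠ ∞ → c' z ≠ ∞)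
    (hz : ∀ z (w w' : Fin K → ℝ), c z = w → c' z = w' → ∀ r : ℝ, 0 ≤ r → r ≤ 1 →
      (1 - r) • w + r • w' = 0 → w = 0)
    (hz' : ∀ z, c' z = ((0 : Fin K → ℝ) : Sph K) → c z = ((0 : Fin K → ℝ) : Sph K))
    {S : Set Z} (hS : ∀ z ∈ S, c z = ∞) (hS' : ∀ z ∈ S, c' z = ∞) : c.HomotopicRel c' S := by
  apply of_toU
  obtain ⟨O, hO⟩ : ∃ O, O = c ⁻¹' ((↑) '' {w : Fin K → ℝ | qn w ≤ 1}) := ⟨_, rfl⟩
  have hOc : IsClosed O := by
    rw [hO]
    exact (OnePoint.isClosed_image_coe.2 ⟨isClosed_le continuous_qn continuous_const,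
      isCompact_qn 1⟩).preimage c.continuous
  have hOi : ∀ z, c z = ((0 : Fin K → ℝ) : Sph K) → z ∈ interior O := by
    intro z h
    have h1 : IsOpen (c ⁻¹' ((↑) '' {w : Fin K → ℝ | qn w < 1})) :=
      (OnePoint.isOpen_image_coe.2 (isOpen_lt continuous_qn continuous_const)).preimage
        c.continuous
    have h2 : (c ⁻¹' ((↑) '' {w : Fin K → ℝ | qn w < 1})) ⊆ O := by
      rw [hO]
      exact Set.preimage_mono (Set.image_mono fun w (hw : qn w < 1) => (le_of_lt hw : qn w ≤ 1))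
    refine interior_maximal h2 h1 ⟨0, ?_, h.symm⟩
    show qn (0 : Fin K → ℝ) < 1
    rw [qn_zero]
    exact one_pos
  have hne : ∀ z ∈ O, c z ≠ ∞ := by
    intro z h
    rw [hO] at h
    obtain ⟨w, -, hw⟩ := h
    rw [← hw]
    exact OnePoint.coe_ne_infty _
  have hcrd : ∀ (g : C(Z, Sph K)) z, g z ≠ ∞ → g z = ((crd (g z) : Fin K → ℝ) : Sph K) := by
    intro g z h
    obtain ⟨w, hw⟩ := OnePoint.ne_infty_iff_exists.1 h
    rw [← hw]
    rfl
  have hcc : ∀ (g : C(Z, Sph K)), (∀ z ∈ O, g z ≠ ∞) →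
      ContinuousOn (fun q : unitInterval × Z => crd (g q.2)) {q | q.2 ∈ O} := by
    intro g hg q hq
    exact (ContinuousAt.comp (g := crd) (f := fun q : unitInterval × Z => g q.2)
      (continuousAt_crd (hg q.2 hq)) (g.continuous.comp continuous_snd).continuousAt)
        |>.continuousWithinAt
  have hcr : Continuous fun q : unitInterval × Z => (q.1 : ℝ) :=
    continuous_subtype_val.comp continuous_fst
  refine germT (O := O) hOc (fun q => (1 - (q.1 : ℝ)) • crd (c q.2) + (q.1 : ℝ) • crd (c' q.2))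
    (((continuous_const.sub hcr).continuousOn.smul (hcc c hne)).add
      (hcr.continuousOn.smul (hcc c' fun z h => hf z (hne z h)))) (fun _ => ()) continuous_const
    (fun z h => ?_) (fun z h => ?_) (fun r z h h0 => ?_) (fun z x h => ?_) (fun z x h => ?_)
    (fun z h => ?_) (fun z h => ?_)
  · show prT (c z) () = _
    rw [hcrd c z (hne z h), prT_coe]
    congr 2
    simp
  · show prT (c' z) () = _
    rw [hcrd c' z (hf z (hne z h)), prT_coe]
    congr 2
    simp
  · have h1 := hz z _ _ (hcrd c z (hne z h)) (hcrd c' z (hf z (hne z h))) r r.2.1 r.2.2 h0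
    refine hOi z ?_
    rw [hcrd c z (hne z h), h1]
  · refine hOi z ?_
    rw [← fstT_toU c z, h]
    rfl
  · refine hOi z (hz' z ?_)
    rw [← fstT_toU c' z, h]
    rfl
  · show prT (c z) () = ∞
    rw [hS z h]
    rfl
  · show prT (c' z) () = ∞
    rw [hS' z h]
    rfl

end lin

/-! ### the translation -/

section trans

variable {K : ℕ} {P : Type} [TopologicalSpace P] [CompactSpace P]

theorem qn_sub_ge (v a : Fin K → ℝ) : qn v ≤ 2 * qn (v - a) + 2 * qn a := by
  unfold qn
  rw [Finset.mul_sum, Finset.mul_sum, ← Finset.sum_add_distrib]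
  refine Finset.sum_le_sum fun i _ => ?_
  show v i ^ 2 ≤ 2 * (v i - a i) ^ 2 + 2 * a i ^ 2
  nlinarith [sq_nonneg (v i - 2 * a i)]

/-- the family of translations -/
noncomputable def trF (a : Fin K → ℝ) (q : unitInterval × TT K P) : Sph K :=
  q.2.elim ∞ fun e => ((e.1 - (q.1 : ℝ) • a : Fin K → ℝ) : Sph K)

theorem continuous_trF (a : Fin K → ℝ) : Continuous (trF (P := P) a) := by
  rw [continuous_iff_continuousAt]
  rintro ⟨t, z⟩
  induction z using OnePoint.rec with
  | infty =>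
    show Tendsto (trF (P := P) a) (𝓝 (t, ∞)) (𝓝 ∞)
    apply tendsto_inftyS
    intro R
    have h1 : Tendsto (fun q : unitInterval × TT K P => fstT q.2) (𝓝 (t, ∞)) (𝓝 ∞) :=
      (continuous_fstT.comp continuous_snd).tendsto' (t, (∞ : TT K P)) ∞ rfl
    filter_upwards [eventually_of_tendsto h1 (2 * |R| + 2 * qn a)] with q hq v hv
    obtain ⟨r, z⟩ := q
    induction z using OnePoint.rec with
    | infty => exact absurd hv (OnePoint.infty_ne_coe _)
    | coe e =>
      have h2 : e.1 - (r : ℝ) • a = v := OnePoint.coe_injective hv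
      have h3 := hq e.1 rfl
      have h4 := qn_sub_ge e.1 ((r : ℝ) • a)
      rw [h2, qn_smul] at h4
      have h5 : (r : ℝ) ^ 2 ≤ 1 := pow_le_one₀ r.2.1 r.2.2
      have h6 := mul_le_mul_of_nonneg_right h5 (qn_nonneg a)
      have h7 := le_abs_self R
      linarith
  | coe e =>
    have h1 : IsOpenEmbedding (Prod.map id ((↑) : (Fin K → ℝ) × P → TT K P) :
        unitInterval × ((Fin K → ℝ) × P) → unitInterval × TT K P) :=
      (IsOpenEmbedding.id).prodMap OnePoint.isOpenEmbedding_coe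
    refine (h1.continuousAt_iff (x := (t, e)) (g := trF (P := P) a)).1 ?_
    have h2 : Continuous fun q : unitInterval × ((Fin K → ℝ) × P) =>
        ((q.2.1 - (q.1 : ℝ) • a : Fin K → ℝ) : Sph K) :=
      OnePoint.continuous_coe.comp ((continuous_fst.comp continuous_snd).sub
        ((continuous_subtype_val.comp continuous_fst).smul continuous_const))
    exact h2.continuousAt

/-- the translation -/
noncomputable def trC (P : Type) [TopologicalSpace P] [CompactSpace P] (a : Fin K → ℝ) :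
    C(TT K P, Sph K) :=
  ⟨fun z => trF a (1, z), (continuous_trF a).comp (continuous_const.prodMk continuous_id)⟩

theorem trC_coe (a : Fin K → ℝ) (e : (Fin K → ℝ) × P) :
    trC P a (e : TT K P) = ((e.1 - a : Fin K → ℝ) : Sph K) := by
  show (((e.1 - ((1 : unitInterval) : ℝ) • a : Fin K → ℝ)) : Sph K) = _
  rw [Set.Icc.coe_one, one_smul]

theorem trC_infty (a : Fin K → ℝ) : trC P a ∞ = ∞ := rfl

theorem trC_homotopic (a : Fin K → ℝ) : (trC P a).HomotopicRel (prC K P) {∞} := by
  refine ContinuousMap.HomotopicRel.symm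
    ⟨⟨⟨⟨trF a, continuous_trF a⟩, fun z => ?_, fun z => ?_⟩, fun t z hz => ?_⟩⟩
  · show trF a ((0 : unitInterval), z) = fstT z
    induction z using OnePoint.rec with
    | infty => rfl
    | coe e =>
      show (((e.1 - ((0 : unitInterval) : ℝ) • a : Fin K → ℝ)) : Sph K) = _
      rw [Set.Icc.coe_zero, zero_smul, sub_zero]
      rfl
  · rfl
  · rw [Set.mem_singleton_iff.1 hz]
    rfl

end trans

/-! ### the squaring map -/

section sq

variable {V W : Type} [NormedAddCommGroup V] [InnerProductSpace ℝ V] [FiniteDimensional ℝ V]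
  [NormedAddCommGroup W] [NormedSpace ℝ W] {N : ℕ} (φ : (V × (W × ℝ)) ≃L[ℝ] (Fin N → ℝ))

/-- the last coordinate as a linear map -/
noncomputable def tcL : (Fin N → ℝ) →L[ℝ] ℝ :=
  ((ContinuousLinearMap.snd ℝ W ℝ).comp (ContinuousLinearMap.snd ℝ V (W × ℝ))).comp
    (φ.symm : (Fin N → ℝ) →L[ℝ] V × (W × ℝ))

theorem tcL_apply (v : Fin N → ℝ) : tcL φ v = tc φ v := rfl

/-- the bound -/
noncomputable def s0 : ℝ := 16 * (‖tcL φ‖ + 1) ^ 2

theorem s0_pos : 0 < s0 φ := by
  unfold s0
  have := norm_nonneg (tcL φ)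
  positivity

theorem tc_sq_le (u : Fin N → ℝ) : 16 * tc φ u ^ 2 ≤ s0 φ * qn u := by
  have h1 : |tc φ u| ≤ ‖tcL φ‖ * ‖u‖ := (tcL φ).le_opNorm u
  have h2 : ‖u‖ ≤ Real.sqrt (qn u) := by
    refine norm_le_of_qn ?_ (Real.sqrt_nonneg _)
    rw [Real.sq_sqrt (qn_nonneg u)]
  have h3 : |tc φ u| ≤ (‖tcL φ‖ + 1) * Real.sqrt (qn u) := by
    refine h1.trans ?_
    refine mul_le_mul (by linarith) h2 (norm_nonneg _) ?_
    have := norm_nonneg (tcL φ)
    positivity
  have h4 : tc φ u ^ 2 ≤ ((‖tcL φ‖ + 1) * Real.sqrt (qn u)) ^ 2 := by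
    rw [← sq_abs]
    exact pow_le_pow_left₀ (abs_nonneg _) h3 2
  rw [mul_pow, Real.sq_sqrt (qn_nonneg u)] at h4
  unfold s0
  linarith

/-- **`Lam φ s` is `∞` where the last coordinate vanishes** -/
theorem Lam_tc {s : ℝ} (hs : 0 ≤ s) (h : s0 φ ≤ s) (e : (Fin N → ℝ) × PV V)
    (he : Lam φ hs (e : TT N (PV V)) ≠ ∞) : tc φ e.1 ≠ 0 := by
  intro h0
  apply he
  obtain ⟨v, p⟩ := e
  rw [Lam_coe]
  apply Psi_of_le
  change tc φ v = 0 at h0
  have h1 : tc φ (Sf φ p.1 v) = -‖p.1 (φ.symm v).1‖ ^ 2 - 1 / 4 := by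
    unfold Sf
    rw [tc_phi, h0]
    show (0 : ℝ) ^ 2 - ⟪(φ.symm v).1, p.1 (φ.symm v).1⟫_ℝ - 1 / 4 = _
    rw [PV.inner_eq]
    ring
  have h2 := tc_sq_le φ (Sf φ p.1 v)
  rw [h1] at h2
  have h3 := mul_le_mul_of_nonneg_right h (qn_nonneg (Sf φ p.1 v))
  have h4 : 0 ≤ ‖p.1 (φ.symm v).1‖ ^ 2 := by positivity
  nlinarith

/-- the sign -/
noncomputable def tcP (e : (Fin N → ℝ) × PV V) : ℝ := tc φ e.1

theorem continuous_tcP : Continuous (tcP (V := V) φ) := (continuous_tc φ).comp continuous_fst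

theorem Lam_tcP {s : ℝ} (hs : 0 ≤ s) (h : s0 φ ≤ s) (e : (Fin N → ℝ) × PV V)
    (he : Lam φ hs (e : TT N (PV V)) ≠ ∞) : tcP φ e ≠ 0 := Lam_tc φ hs h e he

/-- the zero of the positive half -/
noncomputable def aP2 : Fin N → ℝ := φ ((0 : V), ((0 : W), (1 / 2 : ℝ)))

/-- the equations of the straight line -/
theorem lin_eq (p : PV V) (v : Fin N → ℝ) (ht : 0 < tc φ v) {α r : ℝ} (hα : 0 ≤ α) (hr : 0 ≤ r)
    (hαr : 0 < α + r) (h : α • Sf φ p.1 v + r • (v - aP2 φ) = 0) : Sf φ p.1 v = 0 := by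
  obtain ⟨⟨y, u, t⟩, rfl⟩ := φ.surjective v
  rw [tc_phi] at ht
  rw [Sf_phi] at h ⊢
  unfold aP2 at h
  rw [← map_sub, ← _root_.map_smul, ← _root_.map_smul, ← map_add] at h
  have h1 := φ.injective (h.trans (map_zero φ).symm)
  rw [Prod.ext_iff, Prod.ext_iff] at h1
  obtain ⟨e1, e2, e3⟩ := h1
  change α • (y - p.1 y + (2 * t) • p.1 y) + r • (y - 0) = 0 at e1
  change α • u + r • (u - 0) = 0 at e2
  change α * (t ^ 2 - ⟪y, p.1 y⟫_ℝ - 1 / 4) + r * (t - 1 / 2) = 0 at e3
  rw [sub_zero] at e1 e2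
  have f1 : p.1 y = 0 := by
    have h2 := congrArg p.1 e1
    rw [map_zero, map_add, _root_.map_smul, _root_.map_smul, map_add, map_sub, _root_.map_smul, PV.idem, sub_self,
      zero_add, smul_smul, ← add_smul] at h2
    refine (smul_eq_zero.1 h2).resolve_left (ne_of_gt ?_)
    rcases eq_or_lt_of_le hα with h3 | h3
    · rw [← h3] at hαr ⊢
      linarith
    · have : 0 < α * (2 * t) := by positivity
      linarith
  rw [f1, smul_zero, add_zero, sub_zero, ← add_smul] at e1
  rw [← add_smul] at e2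
  have f2 : y = 0 := (smul_eq_zero.1 e1).resolve_left hαr.ne'
  have f3 : u = 0 := (smul_eq_zero.1 e2).resolve_left hαr.ne'
  have f4 : t = 1 / 2 := by
    rw [f1, inner_zero_right] at e3
    have h2 : (t - 1 / 2) * (α * (t + 1 / 2) + r) = 0 := by linear_combination e3
    refine sub_eq_zero.1 ((mul_eq_zero.1 h2).resolve_right (ne_of_gt ?_))
    rcases eq_or_lt_of_le hα with h3 | h3
    · rw [← h3] at hαr ⊢
      linarith
    · have : 0 < α * (t + 1 / 2) := by positivity
      linarith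
  rw [f2, f3, f4]
  unfold SB
  rw [map_zero]
  norm_num

/-- **the positive half of the localised squaring map is homotopic to the projection** -/
theorem half_Lam {s : ℝ} (hs : 0 ≤ s) (h : s0 φ ≤ s) :
    (half (Lam φ hs) (Lam_infty φ hs) (continuous_tcP φ) (Lam_tcP φ hs h) true).HomotopicRel
      (prC N (PV V)) {∞} := by
  refine ContinuousMap.HomotopicRel.trans (linS (c' := trC (PV V) (aP2 φ)) (fun z hz => ?_)
    (fun z w w' hw hw' r hr0 hr1 h0 => ?_) (fun z hz => ?_) (fun z hz => ?_) (fun z hz => ?_))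
    (trC_homotopic _)
  · induction z using OnePoint.rec with
    | infty => exact absurd rfl hz
    | coe e =>
      rw [trC_coe]
      exact OnePoint.coe_ne_infty _
  · induction z using OnePoint.rec with
    | infty => exact absurd hw (OnePoint.infty_ne_coe _)
    | coe e =>
      obtain ⟨v, p⟩ := e
      have h1 : decide (0 < tcP φ (v, p)) = true := by
        by_contra h2
        rw [half_not _ _ _ _ h2] at hw
        exact OnePoint.infty_ne_coe _ hw
      rw [half_of _ _ _ _ h1, Lam_coe] at hw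
      rw [trC_coe] at hw'
      have h2 : v - aP2 φ = w' := OnePoint.coe_injective hw'
      have hne : Psi s ((Sf φ p.1 v : Fin N → ℝ) : OnePoint (Fin N → ℝ)) ≠ ∞ := by
        rw [hw]
        exact OnePoint.coe_ne_infty _
      obtain ⟨v', hv', h3⟩ := Psi_ne hne
      have h4 : Sf φ p.1 v = v' := OnePoint.coe_injective hv'
      rw [← h4] at h3
      rw [Psi_of_lt h3] at hw
      have h5 : (1 - s * qn (Sf φ p.1 v))⁻¹ • Sf φ p.1 v = w := OnePoint.coe_injective hw
      have h6 : 0 < (1 - s * qn (Sf φ p.1 v))⁻¹ := inv_pos.2 (by linarith)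
      rw [← h5, ← h2, smul_smul] at h0
      have h7 : Sf φ p.1 v = 0 := by
        refine lin_eq φ p v (of_decide_eq_true h1) (mul_nonneg (by linarith) h6.le) hr0 ?_ h0
        rcases eq_or_lt_of_le hr1 with h8 | h8
        · rw [h8]
          norm_num
        · have h9 : 0 < (1 - r) * (1 - s * qn (Sf φ p.1 v))⁻¹ := mul_pos (by linarith) h6
          linarith
      rw [← h5, h7, smul_zero]
  · induction z using OnePoint.rec with
    | infty => exact absurd hz (OnePoint.infty_ne_coe _)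
    | coe e =>
      obtain ⟨v, p⟩ := e
      rw [trC_coe] at hz
      have h1 : v = aP2 φ := sub_eq_zero.1 (OnePoint.coe_injective hz)
      subst h1
      have h2 : tc φ (aP2 φ) = 1 / 2 := tc_phi φ _ _ _
      have h3 : decide (0 < tcP φ (aP2 φ, p)) = true := by
        refine decide_eq_true ?_
        show 0 < tc φ (aP2 φ)
        rw [h2]
        norm_num
      rw [half_of _ _ _ _ h3, Lam_coe]
      have h4 : Sf φ p.1 (aP2 φ) = 0 := by
        unfold aP2
        rw [Sf_phi]
        unfold SB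
        rw [map_zero]
        norm_num
      rw [h4]
      exact Psi_eq_zero.2 rfl
  · rw [Set.mem_singleton_iff.1 hz]
    rfl
  · rw [Set.mem_singleton_iff.1 hz]
    rfl

end sq

end Vale.Agent.P263.FR
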