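import Vale.Agent.P263.FR.SqT
import Vale.Agent.P263.FR.H378.Sus1

/-!
# P263, block G of the framed version: the suspension of the literal Kahn-Priddy map

* `isLam_sus` : if `IsLam φ₀ Lf` and `IsLam (susPhi φ₀) Lg`, then `Lg (z ∧ y) = Lf z ∧ y`.
-/

open CategoryTheory MonoidalCategory Filter Topology OnePoint InnerProductSpace RealInnerProductSpace

namespace Vale.Agent.P263.FR

open Vale.Agent.P251.G Vale.Agent.P263.KJ Vale.Agent.P263.TJ
open Vale.Agent.P251.G.LC hiding Sph RR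
open Vale.Agent.P263.T0 (Sph)

variable {V W : Type} [NormedAddCommGroup V] [InnerProductSpace ℝ V] [FiniteDimensional ℝ V]
  [NormedAddCommGroup W] [NormedSpace ℝ W] {K : ℕ} {φ₀ : (V × W) ≃L[ℝ] (Fin K → ℝ)}

/-- the suspension of the Kahn-Priddy map at a point with finite value -/
theorem isLam_sus_coe {Lf : C(OnePoint ((Fin K → ℝ) × PV V), Sph K)} (h : IsLam φ₀ Lf)
    {Lg : C(OnePoint ((Fin (K + 1) → ℝ) × PV V), Sph (K + 1))}
    (hg : IsLam (V := V) (W := W × ℝ) (K := K + 1) (susPhi φ₀) Lg)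
    (v : Fin K → ℝ) (p : PV V) (t : ℝ) {w : Fin K → ℝ}
    (hv : Lf (((v, p) : (Fin K → ℝ) × PV V) : OnePoint ((Fin K → ℝ) × PV V)) =
      (w : OnePoint (Fin K → ℝ))) :
    Lg ((((Fin.append v fun _ : Fin 1 => t), p) : (Fin (K + 1) → ℝ) × PV V) :
      OnePoint ((Fin (K + 1) → ℝ) × PV V)) =
      ((Fin.append w fun _ : Fin 1 => t : Fin (K + 1) → ℝ) : OnePoint (Fin (K + 1) → ℝ)) := by
  obtain ⟨⟨z, y⟩, rfl⟩ := φ₀.surjective v
  rw [h.eq p z y] at hv
  rw [← susPhi_apply, hg.eq p z (y, t)]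
  generalize app (lam V) (((p, z) : PV V × V) : OnePoint (PV V × V)) = x at hv ⊢
  induction x using OnePoint.rec with
  | infty => exact absurd hv (OnePoint.infty_ne_coe _)
  | coe x =>
    have h1 : φ₀ (x, y) = w := OnePoint.coe_injective hv
    rw [← h1, ← susPhi_apply]
    rfl

/-- the suspension of the Kahn-Priddy map at a point with infinite value -/
theorem isLam_sus_infty {Lf : C(OnePoint ((Fin K → ℝ) × PV V), Sph K)} (h : IsLam φ₀ Lf)
    {Lg : C(OnePoint ((Fin (K + 1) → ℝ) × PV V), Sph (K + 1))}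
    (hg : IsLam (V := V) (W := W × ℝ) (K := K + 1) (susPhi φ₀) Lg)
    (v : Fin K → ℝ) (p : PV V) (t : ℝ)
    (hv : Lf (((v, p) : (Fin K → ℝ) × PV V) : OnePoint ((Fin K → ℝ) × PV V)) = ∞) :
    Lg ((((Fin.append v fun _ : Fin 1 => t), p) : (Fin (K + 1) → ℝ) × PV V) :
      OnePoint ((Fin (K + 1) → ℝ) × PV V)) = ∞ := by
  obtain ⟨⟨z, y⟩, rfl⟩ := φ₀.surjective v
  rw [h.eq p z y] at hv
  rw [← susPhi_apply, hg.eq p z (y, t)]
  generalize app (lam V) (((p, z) : PV V × V) : OnePoint (PV V × V)) = x at hv ⊢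
  induction x using OnePoint.rec with
  | infty => rfl
  | coe x => exact absurd hv (OnePoint.coe_ne_infty _)

/-- **the suspension of the literal Kahn-Priddy map** -/
theorem isLam_sus {Lf : C(OnePoint ((Fin K → ℝ) × PV V), Sph K)} (h : IsLam φ₀ Lf)
    {Lg : C(OnePoint ((Fin (K + 1) → ℝ) × PV V), Sph (K + 1))}
    (hg : IsLam (V := V) (W := W × ℝ) (K := K + 1) (susPhi φ₀) Lg)
    (z : TT K (PV V)) (y : Sph 1) : Lg (snocT z y) = join2 (Lf z) y := by
  induction y using OnePoint.rec with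
  | infty => rw [snocT_infty_right, join2_infty_right]; exact hg.inf
  | coe y =>
    induction z using OnePoint.rec with
    | infty => rw [snocT_infty_left, h.inf, join2_infty_left]; exact hg.inf
    | coe e =>
      obtain ⟨v, p⟩ := e
      have hy : y = fun _ : Fin 1 => y 0 := by
        funext i
        rw [Subsingleton.elim i 0]
      rw [snocT_coe]
      dsimp only
      rw [hy]
      obtain ⟨a, ha⟩ : ∃ a, a = Lf (((v, p) : (Fin K → ℝ) × PV V) :
        OnePoint ((Fin K → ℝ) × PV V)) := ⟨_, rfl⟩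
      induction a using OnePoint.rec with
      | infty =>
        rw [← ha, join2_infty_left]
        exact isLam_sus_infty h hg v p (y 0) ha.symm
      | coe w =>
        rw [← ha, join2_coe]
        exact isLam_sus_coe h hg v p (y 0) ha.symm

end Vale.Agent.P263.FR
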