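import Vale.Agent.P263.FR.Chain
import Vale.Agent.P263.FR.Half
import Vale.Agent.P263.FR.HalfM
import Vale.Agent.P263.FR.SqS
import Vale.Agent.P263.FR.Dual3
import Vale.Agent.P263.FR.PT
import Vale.Agent.P263.FR.Final
import Vale.Agent.P263.FR.H663.QFc
import Vale.Agent.P263.FR.H378.PhiZ
import Vale.Agent.P263.FR.H561.Main

/-!
# P263, V5: the final assembly

* `Phi_lc` : the value of the form of `M` on `(l^* w)^q`.
* `nondeg1` : the intersection form of the suspended collapse map is nonsingular.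
* `kerv_of_data` : Kervaire invariant one.
-/

open OnePoint Topology CategoryTheory

namespace Vale.Agent.P263.FR

open Vale.Agent.P263.S hiding sn sn_add
open Vale.Agent.P263.E Vale.Agent.P263.G2 Vale.Agent.P263.TJ Vale.Agent.P263.KJ
open Vale.Agent.P263.T0 Vale.Agent.P263.K CupC H285

section

variable {V : Type} [NormedAddCommGroup V] [InnerProductSpace ℝ V] [FiniteDimensional ℝ V]
  {d q i : ℕ} (D : Tub (d + (i + 1)) (i + 1)) [CompactSpace (Mfd D.F)] [T2Space (Mfd D.F)]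

/-- the collapse map, suspended once -/
noncomputable def cS : C(Sph (d + (i + 1 + 1)), TT (i + 1 + 1) (Mfd D.F)) :=
  susC 1 ⟨D.c0, D.continuous_c0⟩ D.c0_infty

theorem cS_infty : cS D ∞ = ∞ := susC_infty _ D.c0_infty

/-- the value of the form of `M` on `(l^* w)^q` -/
theorem Phi_lc (hd : 0 < d) {l : C(Mfd D.F, PV V)} {γ : C(Sph (d + (i + 1)), TT (i + 1) (PV V))}
    (hγ : γ ∞ = ∞) (h2 : γ.HomotopicRel (D.lc l) {∞}) {x : Cc (sing (PV V))}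
    (hx : Cc.IsDeg q x) (dx : Cc.d x = 0)
    (hx' : Cc.IsDeg q (Cc.pull (singMap l) x)) (dx' : Cc.d (Cc.pull (singMap l) x) = 0) :
    Phi (i := i + 1) (cS D) (cS_infty D) hx' dx' = Phi γ hγ hx dx := by
  rw [Phi_htpy (hc := hγ) (hc' := D.lc_infty l) hd h2 hx dx]
  refine (Phi_sus1 (c := (⟨D.c0, D.continuous_c0⟩ : C(Sph (d + (i + 1)), TT (i + 1) (Mfd D.F))))
    (hc := D.c0_infty) hd hx' dx').trans ?_
  have hLc : ((thm l).comp (⟨D.c0, D.continuous_c0⟩ : C(Sph (d + (i + 1)),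
      TT (i + 1) (Mfd D.F)))) ∞ = ∞ := by
    show thm l (D.c0 ∞) = ∞
    rw [D.c0_infty]
    rfl
  have e : D.lc l = (thm l).comp (⟨D.c0, D.continuous_c0⟩ : C(Sph (d + (i + 1)),
      TT (i + 1) (Mfd D.F))) := ContinuousMap.ext fun z => D.lc_apply l z
  have h3 : ∀ (c' : C(Sph (d + (i + 1)), TT (i + 1) (PV V))) (hc' : c' ∞ = ∞),
      c' = (thm l).comp (⟨D.c0, D.continuous_c0⟩ : C(Sph (d + (i + 1)),
      TT (i + 1) (Mfd D.F))) → Phi c' hc' hx dx = Phi ((thm l).comp (⟨D.c0, D.continuous_c0⟩ :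
      C(Sph (d + (i + 1)), TT (i + 1) (Mfd D.F)))) hLc hx dx := by
    rintro _ _ rfl
    rfl
  rw [h3 _ (D.lc_infty l) e]
  exact (Phi_nat (hLc := hLc) l hd hx dx hx' dx').symm

end

section

variable {q i : ℕ} (D : Tub (q + q + (i + 1)) (i + 1)) [CompactSpace (Mfd D.F)]
  [T2Space (Mfd D.F)]

/-- the intersection form of the suspended collapse map is nonsingular -/
theorem nondeg1 (hq0 : 0 < q)
    (u : Cc (sing (Mfd D.F))) (hu : Cc.IsDeg q u) (du : Cc.d u = 0) (hne : ¬ ∃ a, u = Cc.d a) :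
    ∃ (v : Cc (sing (Mfd D.F))) (hv : Cc.IsDeg q v) (dv : Cc.d v = 0),
      Int (d := q + q) (i := i + 1) (cS D) (isDeg_cup1 hv hu) (d_cup1_zero dv du) ≠ 0 := by
  obtain ⟨v, hv, dv, h⟩ := D.nondeg hq0 u hu du hne
  refine ⟨v, hv, dv, fun h' => h ?_⟩
  have hqd : q < q + q := by omega
  have hd : 0 < q + q := by omega
  have hs : Cc.IsDeg q (v + u) := hv.add hu
  have ds : Cc.d (v + u) = 0 := by rw [d_add, dv, du, add_zero]
  have h1 := Phi_add (c := (⟨D.c0, D.continuous_c0⟩ : C(Sph (q + q + (i + 1)),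
    TT (i + 1) (Mfd D.F)))) (hc := D.c0_infty) hq0 hqd hv dv hu du hs ds (isDeg_cup1 hv hu)
    (d_cup1_zero dv du)
  have h2 := Phi_add (c := cS D) (hc := cS_infty D) hq0 hqd hv dv hu du hs ds (isDeg_cup1 hv hu)
    (d_cup1_zero dv du)
  have e1 : Phi (i := i + 1) (cS D) (cS_infty D) hs ds = _ := Phi_sus1 hd hs ds
  have e2 : Phi (i := i + 1) (cS D) (cS_infty D) hv dv = _ := Phi_sus1 hd hv dv
  have e3 : Phi (i := i + 1) (cS D) (cS_infty D) hu du = _ := Phi_sus1 hd hu du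
  rw [e1, e2, e3, h1, h'] at h2
  rw [add_zero] at h2
  exact add_left_cancel (h2.trans (add_zero _).symm)

end

/-- `Phi_of_phiZero` for an object of `TopCat` -/
theorem Phi_of_phiZeroT {d q i : ℕ} {N : TopCat.{0}} [hN : CompactSpace N] [hN2 : T2Space N]
    (hq0 : 0 < q) (hqd : q < d) {c : ST.Sph (d + (i + 1)) ⟶ Th (i + 1) N}
    {cN : C(Sph (d + (i + 1)), TT (i + 1) N)} (hcN : cN ∞ = ∞) (he : ∀ z, c z = cN z)
    {x : Coh q N} (h : PhiZero c x) {v : Cc (sing N)} (hv : Cc.IsDeg q v)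
    (dv : Cc.d v = 0) (hx : cl q v dv = x) : Phi cN hcN hv dv = 0 :=
  @Phi_of_phiZero d i q N _ hN hN2 hq0 hqd c cN hcN he x h v hv dv hx

/-- `PhiZero` for the collapse map of a framed manifold -/
theorem Phi_of_pre {d q i : ℕ} (E : Pre (d + (i + 1)) (i + 1)) [CompactSpace (Mfd E.F)]
    [T2Space (Mfd E.F)] (hq0 : 0 < q) (hqd : q < d) {x : Coh q (Mfd E.F)}
    (h : PhiZero E.c x) {v : Cc (sing (Mfd E.F))} (hv : Cc.IsDeg q v)
    (dv : Cc.d v = 0) (hx : cl (X := Mfd E.F) q v dv = x) :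
    Phi (⟨E.c0, E.continuous_c0⟩ : C(Sph (d + (i + 1)), TT (i + 1) (Mfd E.F))) E.c0_infty hv dv
      = 0 :=
  Phi_of_phiZeroT hq0 hqd (c := E.c) E.c0_infty (fun _ => rfl) h hv dv hx

section count

section pre

variable {i q : ℕ}

/-- the count for a framed manifold `N ≅ M × Bool` -/
theorem count_pre {D : Tub (q + q + (i + 1)) (i + 1)} [CompactSpace (Mfd D.F)]
    [T2Space (Mfd D.F)] (hq0 : 0 < q) {N : TopCat.{0}} [CompactSpace N] [T2Space N]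
    {c : ST.Sph (q + q + (i + 1 + 1)) ⟶ Th (i + 1 + 1) N}
    {cN : C(Sph (q + q + (i + 1 + 1)), TT (i + 1 + 1) N)} (hcN : cN ∞ = ∞)
    (hc : ∀ z, c z = cN z) (h : N ≃ₜ Mfd D.F × Bool)
    {w : Cc (sing (Mfd D.F))} (hw : Cc.IsDeg q w) (dw : Cc.d w = 0)
    (h1 : Phi (d := q + q) (i := i + 1) (cS D) (cS_infty D) hw dw = 1)
    {cG : C(Sph (q + q + (i + 1 + 1)), TT (i + 1 + 1) (Mfd D.F × Bool))} (hcG : cG ∞ = ∞)
    (hcol : ((thm (K := i + 1 + 1) (h : C(N, Mfd D.F × Bool))).comp cN).HomotopicRel cG {∞})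
    (hform : ∀ (z : Cc (sing (Mfd D.F × Bool))) (hz : Cc.IsDeg q z) (dz : Cc.d z = 0)
      (h0 : Cc.IsDeg q (Cc.pull (singMap (inB true)) z))
      (d0 : Cc.d (Cc.pull (singMap (inB true)) z) = 0)
      (h1 : Cc.IsDeg q (Cc.pull (singMap (inB false)) z))
      (d1 : Cc.d (Cc.pull (singMap (inB false)) z) = 0),
      Phi (d := q + q) (i := i + 1) cG hcG hz dz =
        Phi (d := q + q) (i := i + 1) (cS D) (cS_infty D) h0 d0 +
          Phi (d := q + q) (i := i + 1) (cS D) (cS_infty D) h1 d1 +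
        Int (d := q + q) (i := i + 1) (cS D) (isDeg_cup1 h1 hw) (d_cup1_zero d1 dw)) :
    Finite (Coh q N) ∧ Nat.card (Coh q N) < 2 * Nat.card {x : Coh q N // ¬ PhiZero c x} := by
  have hqd : q < q + q := by omega
  have hfin : Finite (Coh q (TopCat.of (Mfd D.F))) := D.finite_coh q
  obtain ⟨e, he⟩ : ∃ e : N ≅ TopCat.of (Mfd D.F × Bool), e.hom.hom = (h : C(N, Mfd D.F × Bool)) :=
    ⟨TopCat.isoOfHomeo h, rfl⟩
  rw [← he] at hcol
  exact count_of_form (M := Mfd D.F) (d := q + q) (i := i + 1) (q := q) hq0 hqd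
    (c := cS D) (cS_infty D) (nondeg1 D hq0) hw dw h1 (N := N) e
    (cN := cN) hcN (cG := cG) hcG hcol hform
    (P := PhiZero c) (fun x hx v hv dv hvx =>
      Phi_of_phiZeroT hq0 hqd hcN hc hx hv dv hvx)

end pre

variable {V : Type} [NormedAddCommGroup V] [InnerProductSpace ℝ V] [FiniteDimensional ℝ V]
  {W : Type} [NormedAddCommGroup W] [NormedSpace ℝ W] {i q : ℕ}

/-- **Kervaire invariant one**, from the form of `M` -/
theorem kerv_of_BD {D : Tub (q + q + (i + 1)) (i + 1)} [CompactSpace (Mfd D.F)]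
    [T2Space (Mfd D.F)] {l : C(Mfd D.F, PV V)} (T : BD D l)
    (φ₀ : (V × W) ≃L[ℝ] (Fin (i + 1) → ℝ)) (φ : (V × (W × ℝ)) ≃L[ℝ] (Fin (i + 1 + 1) → ℝ))
    (hq0 : 0 < q) (hodd : Odd q) {g : ST.BMap (q + q)}
    {F1 : C(Sph (q + q + (i + 1 + 1)), Sph (i + 1 + 1))}
    (hrep : ST.Rep (d := q + q) (n := i + 1 + 1) g (TopCat.ofHom F1))
    (hhtp : F1.HomotopicRel (T.pre φ₀ φ).F.hom {(∞ : OnePoint (Fin (q + q + (i + 1) + 1) → ℝ))})
    {w : Cc (sing (Mfd D.F))} (hw : Cc.IsDeg q w) (dw : Cc.d w = 0)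
    (h1 : Phi (d := q + q) (i := i + 1) (cS D) (cS_infty D) hw dw = 1)
    {cG : C(Sph (q + q + (i + 1 + 1)), TT (i + 1 + 1) (Mfd D.F × Bool))} (hcG : cG ∞ = ∞)
    (hcol : (T.ce φ₀ φ).HomotopicRel cG {∞})
    (hform : ∀ (z : Cc (sing (Mfd D.F × Bool))) (hz : Cc.IsDeg q z) (dz : Cc.d z = 0)
      (h0 : Cc.IsDeg q (Cc.pull (singMap (inB true)) z))
      (d0 : Cc.d (Cc.pull (singMap (inB true)) z) = 0)
      (h1 : Cc.IsDeg q (Cc.pull (singMap (inB false)) z))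
      (d1 : Cc.d (Cc.pull (singMap (inB false)) z) = 0),
      Phi (d := q + q) (i := i + 1) cG hcG hz dz =
        Phi (d := q + q) (i := i + 1) (cS D) (cS_infty D) h0 d0 +
          Phi (d := q + q) (i := i + 1) (cS D) (cS_infty D) h1 d1 +
        Int (d := q + q) (i := i + 1) (cS D) (isDeg_cup1 h1 hw) (d_cup1_zero d1 dw)) :
    Kerv g := by
  have hN : CompactSpace (Mfd (T.pre φ₀ φ).F) := (T.pre φ₀ φ).compactSpace_Mfd
  have hN2 : T2Space (Mfd (T.pre φ₀ φ).F) := (T.pre φ₀ φ).t2Space_Mfd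
  have e : ((thm (K := i + 1 + 1) (T.homeo φ₀ φ : C(Mfd (T.pre φ₀ φ).F, Mfd D.F × Bool))).comp
      (⟨(T.pre φ₀ φ).c0, (T.pre φ₀ φ).continuous_c0⟩ : C(Sph (q + q + (i + 1 + 1)),
        TT (i + 1 + 1) (Mfd (T.pre φ₀ φ).F)))) = T.ce φ₀ φ :=
    ContinuousMap.ext fun z => (T.ce_apply φ₀ φ z).symm
  rw [← e] at hcol
  have hcount := count_pre (D := D) hq0 (N := Mfd (T.pre φ₀ φ).F) (c := (T.pre φ₀ φ).c)
    (T.pre φ₀ φ).c0_infty (fun _ => rfl) (T.homeo φ₀ φ) hw dw h1 hcG hcol hform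
  exact ⟨q, i + 1 + 1, TopCat.ofHom F1, (T.pre φ₀ φ).F, (T.pre φ₀ φ).c,
    (two_mul q).symm, hodd, hrep, hhtp, (T.pre φ₀ φ).regular,
    (T.pre φ₀ φ).isCollapse, hcount.1, hcount.2⟩

end count

section main

variable {V : Type} [NormedAddCommGroup V] [InnerProductSpace ℝ V] [FiniteDimensional ℝ V]
  {W : Type} [NormedAddCommGroup W] [NormedSpace ℝ W] {i q : ℕ}

/-- the values of the suspended collapse map -/
theorem cS_ap_infty {d : ℕ} (D : Tub (d + (i + 1)) (i + 1)) [CompactSpace (Mfd D.F)]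
    [T2Space (Mfd D.F)] (x : Fin (d + (i + 1)) → ℝ) (t : ℝ) (hx : D.c0 x = ∞) :
    cS D ((ap x t : Fin (d + (i + 1) + 1) → ℝ) : OnePoint (Fin (d + (i + 1) + 1) → ℝ)) = ∞ := by
  have h3 := susC_join2 (k := 1) (⟨D.c0, D.continuous_c0⟩ : C(Sph (d + (i + 1)),
    TT (i + 1) (Mfd D.F))) D.c0_infty (x : Sph (d + (i + 1))) ((fun _ => t : Fin 1 → ℝ) : Sph 1)
  have hx' : (⟨D.c0, D.continuous_c0⟩ : C(Sph (d + (i + 1)),
    TT (i + 1) (Mfd D.F))) (x : Sph (d + (i + 1))) = ∞ := hx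
  rw [TJ.join2_coe, hx', snocT_infty_left] at h3
  exact h3

/-- the values of the suspended collapse map -/
theorem cS_ap_coe {d : ℕ} (D : Tub (d + (i + 1)) (i + 1)) [CompactSpace (Mfd D.F)]
    [T2Space (Mfd D.F)] (x : Fin (d + (i + 1)) → ℝ) (t : ℝ) (v : Fin (i + 1) → ℝ) (p : Mfd D.F)
    (hx : D.c0 x = (((v, p) : (Fin (i + 1) → ℝ) × Mfd D.F) : OnePoint _)) :
    cS D ((ap x t : Fin (d + (i + 1) + 1) → ℝ) : OnePoint (Fin (d + (i + 1) + 1) → ℝ)) =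
      (((ap v t, p) : (Fin (i + 1 + 1) → ℝ) × Mfd D.F) : OnePoint _) := by
  have h3 := susC_join2 (k := 1) (⟨D.c0, D.continuous_c0⟩ : C(Sph (d + (i + 1)),
    TT (i + 1) (Mfd D.F))) D.c0_infty (x : Sph (d + (i + 1))) ((fun _ => t : Fin 1 → ℝ) : Sph 1)
  have hx' : (⟨D.c0, D.continuous_c0⟩ : C(Sph (d + (i + 1)),
    TT (i + 1) (Mfd D.F))) (x : Sph (d + (i + 1))) =
      (((v, p) : (Fin (i + 1) → ℝ) × Mfd D.F) : TT (i + 1) (Mfd D.F)) := hx
  rw [TJ.join2_coe, hx', snocT_coe] at h3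
  exact h3

/-- **Kervaire invariant one** -/
theorem kerv_of_data {s : ℕ} (hs : 0 < s) (hq : q + 1 = 2 ^ s) {g : ST.BMap (q + q)}
    {φ₀ : (V × W) ≃L[ℝ] (Fin (i + 1) → ℝ)} {Lf : C(TT (i + 1) (PV V), Sph (i + 1))}
    (hLf : Lf ∞ = ∞) {F₀ : C(Sph (q + q + (i + 1)), Sph (i + 1))}
    (hrep : ST.Rep (d := q + q) (n := i + 1) g (TopCat.ofHom F₀))
    {γ : C(Sph (q + q + (i + 1)), TT (i + 1) (PV V))} (hγ : γ ∞ = ∞)
    (h1 : F₀.HomotopicRel (Lf.comp γ) {∞})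
    (hP : Phi γ hγ (isDeg_pwP V q) (d_pwP V q) = 1)
    {φ : (V × (W × ℝ)) ≃L[ℝ] (Fin (i + 1 + 1) → ℝ)}
    (hφ : ∀ (v : Fin (i + 1) → ℝ) (t : ℝ), φ.symm (ap v t) = qc φ₀ v t)
    {Lf1 : C(TT (i + 1 + 1) (PV V), Sph (i + 1 + 1))}
    (hLf1 : ∀ (z : TT (i + 1) (PV V)) (y : Sph 1), Lf1 (snocT z y) = join2 (Lf z) y)
    (hLf1' : IsLam (V := V) (W := W × ℝ) (K := i + 1 + 1) φ Lf1) {σ : ℝ} (hσ : 0 ≤ σ)
    (hσ' : s0 φ ≤ σ) : Kerv g := by
  have hq0 : 0 < q := by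
    have : 2 ^ 1 ≤ 2 ^ s := Nat.pow_le_pow_right (by norm_num) hs
    omega
  have hd : 0 < q + q := by omega
  have hodd : Odd q := by
    obtain ⟨t, rfl⟩ : ∃ t, s = t + 1 := ⟨s - 1, by omega⟩
    rw [pow_succ] at hq
    exact ⟨2 ^ t - 1, by have := Nat.one_le_two_pow (n := t); omega⟩
  obtain ⟨D, l, h2⟩ := exists_tub γ hγ
  have hM : CompactSpace (Mfd D.F) := D.compactSpace_Mfd
  have hM2 : T2Space (Mfd D.F) := D.t2Space_Mfd
  obtain ⟨T⟩ : Nonempty (BD D l) := exists_BD D l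
  have hF0 : F₀ ∞ = ∞ := hrep.1
  have hΛ : Lf1.HomotopicRel (Lam φ hσ) {∞} := isLam_homotopic φ hLf1' hσ
  -- the map `G`
  obtain ⟨G, hG⟩ : ∃ G, G = GG (Lam φ hσ) (Lam_infty φ hσ) (continuous_tcP φ)
    (Lam_tcP φ hσ hσ') l := ⟨_, rfl⟩
  have hG0 : G ∞ = ∞ := by rw [hG]; rfl
  have hG1 : ∀ (v : Fin (i + 1) → ℝ) (t : ℝ) (x : Mfd D.F),
      G (((ap v t, x) : (Fin (i + 1 + 1) → ℝ) × Mfd D.F) : OnePoint _) =
        prT (Psi σ ((φ (sfc (l x).1 (qc φ₀ v t)) : Fin (i + 1 + 1) → ℝ) :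
          OnePoint (Fin (i + 1 + 1) → ℝ))) (x, decide (0 < t)) := by
    intro v t x
    have e1 := hφ v t
    have e2 : Sf φ (l x).1 (ap v t) = φ (sfc (l x).1 (qc φ₀ v t)) := by
      rw [← e1]
      rfl
    have e3 : tcP (V := V) φ (ap v t, l x) = t := by
      show (φ.symm (ap v t)).2.2 = t
      rw [e1]
      rfl
    rw [hG, GG_coe, Lam_coe, e2, e3]
  have hcol : (T.ce φ₀ φ).HomotopicRel (G.comp (cS D)) {∞} :=
    T.homotopic φ₀ φ (s' := σ) hG0 hG1 (cS_infty D) (cS_ap_infty D) (cS_ap_coe D)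
  have hcG : (G.comp (cS D)) ∞ = ∞ := by rw [ContinuousMap.comp_apply, cS_infty, hG0]
  -- the form of `M`
  obtain ⟨w, hw⟩ : ∃ w : Cc (sing (Mfd D.F)), w = Cc.pull (singMap l) (wP V) := ⟨_, rfl⟩
  have w1 : Cc.IsDeg 1 w := by rw [hw]; exact (isDeg_wP V).pull _
  have dw : Cc.d w = 0 := by rw [hw, ← pull_d, d_wP, pull_zero]
  have hwq : Cc.IsDeg q (Cc.pw w q) := Cc.isDeg_pw_one w1 q
  have dwq : Cc.d (Cc.pw w q) = 0 := Cc.d_pw dw q
  have hpw : Cc.pull (singMap l) (Cc.pw (wP V) q) = Cc.pw w q := by rw [Cc.pull_pw, hw]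
  have hPhi : Phi (d := q + q) (i := i + 1) (cS D) (cS_infty D) hwq dwq = 1 := by
    have h3 : ∀ (u : Cc (sing (Mfd D.F))) (hu : Cc.IsDeg q u) (du : Cc.d u = 0),
        Cc.pull (singMap l) (Cc.pw (wP V) q) = u →
          Phi (d := q + q) (i := i + 1) (cS D) (cS_infty D) hu du = 1 := by
      rintro _ hu du rfl
      rw [← hP]
      exact Phi_lc D hd hγ h2 _ _ hu du
    exact h3 _ hwq dwq hpw
  refine kerv_of_BD T φ₀ φ hq0 hodd (rep_susp1 hF0 hrep)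
    (chainB T φ₀ φ hF0 hLf hγ h1 h2 hLf1 hΛ (G := G) (fun z => ?_) hcol) hwq dwq hPhi
    hcG hcol fun z hz dz p0 d0 p1 d1 => ?_
  · rw [hG]
    exact fstT_GG _ _ _ _ l z
  · subst hG
    exact hform_GG (Lam_infty φ hσ) (continuous_tcP φ) (Lam_tcP φ hσ hσ') hLf1' hΛ
      (half_Lam φ hσ hσ') hs (by omega) rfl w1 dw (by rw [hw]; exact Coh.refl _) (cS_infty D)
      hcG rfl hwq dwq z hz dz p0 d0 p1 d1

end main

/-- **`h_d(g) ≠ 0` in a stem `2ˢ⁺¹ - 2` implies Kervaire invariant one.** -/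
theorem kerv_of_hur {d : ℕ} (g : ST.BMap d) (hg : ST.hur g ≠ 0)
    (hd : ∃ s : ℕ, 0 < s ∧ d + 2 = 2 ^ (s + 1)) : Kerv g := by
  obtain ⟨q, s, hdq, hq, hs, h⟩ := exists_gamma g hg hd
  obtain rfl : d = q + q := by omega
  obtain ⟨V, _, _, _, W, _, _, i, φ₀, Lf, F₀, γ, hγ, -, hLf, hrep, h1, hP⟩ := h 0
  obtain ⟨Lf1, hLf1⟩ := exists_isLam (V := V) (W := W) (N := i + 1 + 1) (susPhi φ₀)
  exact kerv_of_data (V := V) (W := W) hs hq hLf.inf hrep hγ h1 hP (φ := susPhi φ₀)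
    (fun v t => susPhi_symm_append φ₀ v t) (isLam_sus hLf hLf1) hLf1
    (s0_pos (susPhi φ₀)).le le_rfl

/-- **Curtis's conjecture, with the Kervaire invariant of framed manifolds.** -/
theorem curtisFr : CurtisFr := curtisFr_of fun _ g _ hg hd => kerv_of_hur g hg hd

/-- the form for elements -/
theorem curtisFrElt (d : ℕ) (g : ST.BMap d) (hd : 0 < d) (hg : ST.hur g ≠ 0) :
    (d = 1 ∨ d = 3 ∨ d = 7) ∨ Kerv g :=
  (ST.curtisElt _ g hd hg).imp (fun h1 => h1.1) fun h1 => kerv_of_hur g hg h1.1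

end Vale.Agent.P263.FR
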