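import Vale.Agent.P263.FR.Base

/-!
# P263, V5: calculus of the quadratic form

* `theta_sum` : the generalised functional square of the sum of two data.
* `evf` : cohomologous cocycles of the sphere have the same value on the fundamental cycle.
* `Phi_of`, `Phi_coh`, `Phi_add` : independence of the data, additivity up to `Int (x ∪ y)`.
* `Int_of`, `Int_coh`, `Int_add`.
-/

open Finset OnePoint Topology

namespace Vale.Agent.P263.FR

open Vale.Agent.P263.S hiding sn sn_add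
open Vale.Agent.P263.E Vale.Agent.P263.H83 Vale.Agent.P263.G2 Vale.Agent.P263.TJ
open Vale.Agent.P263.T0 CupC

/-! ### the sum of two data -/

section sum

attribute [local instance] CupC.zmod2

variable {U V : CupC} {g : Hom V U} {i M : ℕ} {N : Nar U M}

theorem thd_sum (E1 E2 E : ThD g i N) (hb : E.b = E1.b + E2.b)
    (hc : E.c = E1.c + E2.c + V.cup (i + 2) E1.b E2.b) (hs : E.s = E1.s + E2.s)
    (he : E.e = E1.e + E2.e) :
    U.Coh E.val (E1.val + E2.val + U.cup (i + 2) E1.s E2.s) := by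
  refine ⟨U.cup (i + 1) E1.e E2.e + U.cup (i + 2) E1.e E2.s + U.cup (i + 2) E1.s E2.e +
    U.cup (i + 2) (U.d E1.e) E2.e, ?_⟩
  have d1 := E1.d_s
  have d2 := E2.d_s
  have q1 := U.q_add i E1.e E2.e
  have q2 : U.q i (E1.e + E2.e) = U.q i E1.e + U.q i E2.e +
      (U.d (U.cup (i + 1) E1.e E2.e) + U.cup (i + 1) (U.d E1.e) E2.e +
        U.cup (i + 1) E2.e (U.d E1.e)) := by
    rw [← q1]
    refine (one_smul (ZMod 2) _).symm.trans ?_
    match_scalars <;> decide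
  have hgc : g.f E.c = g.f E1.c + g.f E2.c +
      U.cup (i + 2) (E1.s + U.d E1.e) (E2.s + U.d E2.e) := by
    rw [hc, map_add, map_add, g.f_cup, E1.g_b, E2.g_b]
  rw [ThD.val, ThD.val, ThD.val, hgc, hs, he, q2]
  simp only [map_add, U.d_cup, U.d_d, d1, d2, map_zero, AddMonoidHom.add_apply,
    AddMonoidHom.zero_apply]
  refine (one_smul (ZMod 2) _).symm.trans ?_
  match_scalars <;> decide

end sum

section

variable {T X : SS} {T₀ : Sb T} {i : ℕ}

/-- the sum of two data -/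
noncomputable def sumD (D D' : SqD T₀ (i + 1)) : SqD T₀ (i + 1) where
  b := D.b + D'.b
  c := D.c + D'.c + Cc.cup (i + 2) D.b D'.b
  vn_b := D.vn_b.add D'.vn_b
  vn_c := (D.vn_c.add D'.vn_c).add (D.vn_b.cup_left (i + 2) D'.b)
  d_b := by rw [d_add, D.d_b, D'.d_b, add_zero]
  d_c := by
    rw [d_add, d_add, ← D.d_c, ← D'.d_c, TJ.d_cup, D.d_b, D'.d_b]
    simp only [cup_add_left, cup_add_right, cup_zero_left, cup_zero_right]
    funext p z
    simp only [Pi.add_apply, Pi.zero_apply]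
    grind

/-- **The generalised functional square of the sum of two data.** -/
theorem theta_sum (D D' : SqD T₀ (i + 1)) (m : SS.Map (X.prod (SN (i + 1))) T)
    (hm : ∀ {p : ℕ} (x : (X.prod (SN (i + 1))).obj p), (bdX X (i + 1)).mem x →
      T₀.mem (m.app x)) :
    (Cc.cupC X).Coh (theta (sumD D D') m hm) (theta D m hm + theta D' m hm +
      Cc.cup 1 (DstN (i + 1) (Cc.pull m D.b)) (DstN (i + 1) (Cc.pull m D'.b))) := by
  obtain ⟨E1, h1⟩ : ∃ E1, E1 = D.toThD m hm := ⟨_, rfl⟩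
  obtain ⟨E2, h2⟩ : ∃ E2, E2 = D'.toThD m hm := ⟨_, rfl⟩
  have hs1 : Cc.val E1.s = sn (i + 1) (DstN (i + 1) (Cc.pull m D.b)) := by rw [h1]; rfl
  have hs2 : Cc.val E2.s = sn (i + 1) (DstN (i + 1) (Cc.pull m D'.b)) := by rw [h2]; rfl
  have hb1 : E1.b = Cc.mkRel T₀ D.b D.vn_b := by rw [h1]; rfl
  have hb2 : E2.b = Cc.mkRel T₀ D'.b D'.vn_b := by rw [h2]; rfl
  have hc1 : E1.c = Cc.mkRel T₀ D.c D.vn_c := by rw [h1]; rfl
  have hc2 : E2.c = Cc.mkRel T₀ D'.c D'.vn_c := by rw [h2]; rfl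
  obtain ⟨E, hE⟩ : ∃ E : ThD (Cc.relHom m (bdX X (i + 1)) T₀ hm) i (narX X (i + 1)), E =
    { b := E1.b + E2.b
      s := E1.s + E2.s
      e := E1.e + E2.e
      c := E1.c + E2.c + (Cc.rel T₀).cup (i + 2) E1.b E2.b
      d_b := by rw [map_add, E1.d_b, E2.d_b, add_zero]
      s_mem := AddSubgroup.add_mem _ E1.s_mem E2.s_mem
      g_b := by rw [map_add, E1.g_b, E2.g_b, map_add]; abel
      d_c := by
        rw [hb1, hb2, hc1, hc2]
        exact Cc.rel_ext (sumD D D').d_c } := ⟨_, rfl⟩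
  have h3 := theta_eq (sumD D D') (hm := hm) E
    (by rw [hE]; show Cc.val (E1.b + E2.b) = _; rw [Cc.val_add, hb1, hb2]; rfl)
    (by
      rw [hE]
      show Cc.val (E1.c + E2.c + (Cc.rel T₀).cup (i + 2) E1.b E2.b) = _
      rw [hb1, hb2, hc1, hc2]
      rfl)
  refine h3.trans ?_
  have h4 := thd_sum E1 E2 E (by rw [hE]) (by rw [hE]) (by rw [hE]) (by rw [hE])
  have h5 := coh_DstN h4
  have h6 : Cc.val ((Cc.rel (bdX X (i + 1))).cup (i + 2) E1.s E2.s) =
      sn (i + 1) (Cc.cup 1 (DstN (i + 1) (Cc.pull m D.b)) (DstN (i + 1) (Cc.pull m D'.b))) := by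
    have h7 := cup_sn (i + 1) 1 (DstN (i + 1) (Cc.pull m D.b)) (DstN (i + 1) (Cc.pull m D'.b))
    rw [← h7, ← hs1, ← hs2, show 1 + (i + 1) = i + 2 by omega]
    rfl
  rw [Cc.val_add, Cc.val_add, DstN_add, DstN_add, h6, DstN_sn, h1, h2] at h5
  exact h5

end

/-! ### the values -/

section

variable {P : Type} [TopologicalSpace P] [CompactSpace P] [T2Space P] {d i q : ℕ}

theorem evf (hd : 0 < d) {u v : Cc (sing (Sph d))} (h : (Cc.cupC (sing (Sph d))).Coh u v) :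
    evc u (fcyc d) = evc v (fcyc d) := by
  obtain ⟨w, hw⟩ := h
  have h1 : u + v = Cc.d w := hw
  have h2 : evc (u + v) (fcyc d) = 0 := by
    rw [h1, evc_fcyc]
    exact SphCc.d_sg hd w
  rw [evc_add] at h2
  exact CharTwo.add_eq_zero.1 h2

theorem coh_add {X : SS} {x x' y y' : Cc X} (h : (Cc.cupC X).Coh x x')
    (h' : (Cc.cupC X).Coh y y') : (Cc.cupC X).Coh (x + y) (x' + y') := by
  obtain ⟨a, ha⟩ := h
  obtain ⟨a', ha'⟩ := h'
  refine ⟨show Cc X from (show Cc X from a) + (show Cc X from a'), ?_⟩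
  show x + y + (x' + y') = Cc.d ((show Cc X from a) + (show Cc X from a'))
  rw [d_add]
  have h1 : x + x' = Cc.d a := ha
  have h2 : y + y' = Cc.d a' := ha'
  rw [← h1, ← h2]
  abel

theorem coh_add_null {X : SS} {x x' y : Cc X} (h : (Cc.cupC X).Coh x x')
    (h' : (Cc.cupC X).Coh y 0) : (Cc.cupC X).Coh (x + y) x' := by
  have h1 : (Cc.cupC X).Coh (x + y) (x' + (0 : Cc X)) := coh_add h h'
  rwa [add_zero] at h1

theorem coh_null_add {X : SS} {x x' y : Cc X} (h : (Cc.cupC X).Coh x x')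
    (h' : (Cc.cupC X).Coh y 0) : (Cc.cupC X).Coh (y + x) x' := by
  rw [add_comm]
  exact coh_add_null h h'

/-- products of cohomologous cocycles -/
theorem coh_cup {X : SS} {x x' y y' : Cc X} (hx : Cc.d x = 0) (hy' : Cc.d y' = 0)
    (h : (Cc.cupC X).Coh x x')
    (h' : (Cc.cupC X).Coh y y') : (Cc.cupC X).Coh (Cc.cup 1 x y) (Cc.cup 1 x' y') := by
  obtain ⟨a, ha⟩ : ∃ a : Cc X, x + x' = Cc.d a := h
  obtain ⟨b, hb⟩ : ∃ b : Cc X, y + y' = Cc.d b := h'
  refine ⟨show Cc X from Cc.cup 1 a y' + Cc.cup 1 x b, ?_⟩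
  show Cc.cup 1 x y + Cc.cup 1 x' y' = Cc.d (Cc.cup 1 a y' + Cc.cup 1 x b)
  rw [d_add, d_cup_one, d_cup_one, hx, hy', ← ha, ← hb]
  simp only [cup_add_left, cup_add_right, cup_zero_left, cup_zero_right]
  funext p z
  simp only [Pi.add_apply, Pi.zero_apply]
  grind

variable {c : C(Sph (d + (i + 1)), TT (i + 1) P)} {hc : c ∞ = ∞}

/-- **The value can be computed from any data.** -/
theorem Phi_of (hd : 0 < d) (D : SqD (bsT (i + 1) P) (i + 1)) {x : Cc (sing P)}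
    (hq : Cc.IsDeg q x) (hx : Cc.d x = 0)
    (hz : (Cc.cupC (sing P)).Coh (DstN (i + 1) (Cc.pull (muT (i + 1) P) D.b)) x)
    {u : Cc (sing (TT (i + 1) P))} (hu : Vn (bsT (i + 1) P) u) (hdu : Cc.d u = 0)
    (hk : (Cc.cupC (sing P)).Coh
      (theta D (muT (i + 1) P) (fun _ h => muT_infty (i + 1) P h))
      (DstN (i + 1) (Cc.pull (muT (i + 1) P) u))) :
    evc (theta D (cu c) (cu_base hc)) (fcyc d) =
      Phi c hc hq hx + evc (DstN (i + 1) (Cc.pull (cu c) u)) (fcyc d) := by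
  have h1 := theta_ind (D := D) (D' := jR i hq hx) (hz.trans (DstN_jR hq hx).symm) hu hdu
    (coh_add_null hk (theta_jR (i := i) hq hx)) (cu_base hc)
  have h3 := evf hd h1
  rw [evc_add] at h3
  rw [Phi, ← h3]
  have h4 := CharTwo.add_self_eq_zero (evc (theta (jR i hq hx) (cu c) (cu_base hc)) (fcyc d))
  linear_combination -h4

/-- the integral of a relative cocycle of the target -/
theorem Int_of (hd : 0 < d) (hc : c ∞ = ∞) {w : Cc (sing (TT (i + 1) P))}
    (hw : Vn (bsT (i + 1) P) w)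
    (hdw : Cc.d w = 0) {u : Cc (sing P)} (hq : Cc.IsDeg q u) (hu : Cc.d u = 0)
    (h : (Cc.cupC (sing P)).Coh (DstN (i + 1) (Cc.pull (muT (i + 1) P) w)) u) :
    evc (DstN (i + 1) (Cc.pull (cu c) w)) (fcyc d) = Int c hq hu :=
  evf hd (DstN_ind hw hdw (jR i hq hu).vn_b (jR i hq hu).d_b (h.trans (DstN_jR hq hu).symm)
    (cu_base hc))

theorem Int_coh (hd : 0 < d) (hc : c ∞ = ∞) {u v : Cc (sing P)} (hq : Cc.IsDeg q u)
    (hu : Cc.d u = 0)
    (hq' : Cc.IsDeg q v) (hv : Cc.d v = 0) (h : (Cc.cupC (sing P)).Coh u v) :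
    Int c hq hu = Int c hq' hv :=
  Int_of hd hc (jR i hq hu).vn_b (jR i hq hu).d_b hq' hv ((DstN_jR hq hu).trans h)

theorem Int_add (hd : 0 < d) (hc : c ∞ = ∞) {u v : Cc (sing P)} (hq : Cc.IsDeg q u)
    (hu : Cc.d u = 0)
    (hq' : Cc.IsDeg q v) (hv : Cc.d v = 0) (hq'' : Cc.IsDeg q (u + v)) (huv : Cc.d (u + v) = 0) :
    Int c hq'' huv = Int c hq hu + Int c hq' hv := by
  rw [← Int_of hd hc ((jR i hq hu).vn_b.add (jR i hq' hv).vn_b)
    (by rw [d_add, (jR i hq hu).d_b, (jR i hq' hv).d_b, add_zero]) hq'' huv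
    (by rw [pull_add, DstN_add]; exact coh_add (DstN_jR hq hu) (DstN_jR hq' hv)), pull_add,
    DstN_add, evc_add]
  rfl

theorem Int_null (hd : 0 < d) (hc : c ∞ = ∞) {u : Cc (sing P)} (hq : Cc.IsDeg q u)
    (hu : Cc.d u = 0) (h : (Cc.cupC (sing P)).Coh u 0) : Int c hq hu = 0 := by
  rw [← Int_of hd hc (w := 0) (fun _ _ _ => rfl) d_zero hq hu
    (by rw [pull_zero, DstN_zero]; exact h.symm), pull_zero, DstN_zero, evc_zero]

/-- the value depends only on the class -/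
theorem Phi_coh (hd : 0 < d) {x y : Cc (sing P)} (hq : Cc.IsDeg q x) (hx : Cc.d x = 0)
    (hq' : Cc.IsDeg q y) (hy : Cc.d y = 0) (h : (Cc.cupC (sing P)).Coh x y) :
    Phi c hc hq hx = Phi c hc hq' hy := by
  have h1 := Phi_of (c := c) (hc := hc) hd (jR i hq hx) hq' hy ((DstN_jR hq hx).trans h)
    (u := 0) (fun _ _ _ => rfl) d_zero (by
      rw [pull_zero, DstN_zero]
      exact theta_jR hq hx)
  rw [pull_zero, DstN_zero, evc_zero, add_zero] at h1
  exact h1

/-- the value from data with `theta D muT ~ κ` -/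
theorem Phi_of' (hd : 0 < d) (D : SqD (bsT (i + 1) P) (i + 1)) {x : Cc (sing P)}
    (hq : Cc.IsDeg q x) (hx : Cc.d x = 0)
    (hz : (Cc.cupC (sing P)).Coh (DstN (i + 1) (Cc.pull (muT (i + 1) P) D.b)) x)
    {r : ℕ} {κ : Cc (sing P)} (hr : Cc.IsDeg r κ) (hκ : Cc.d κ = 0)
    (hk : (Cc.cupC (sing P)).Coh
      (theta D (muT (i + 1) P) (fun _ h => muT_infty (i + 1) P h)) κ) :
    evc (theta D (cu c) (cu_base hc)) (fcyc d) = Phi c hc hq hx + Int c hr hκ :=
  Phi_of hd D hq hx hz (jR i hr hκ).vn_b (jR i hr hκ).d_b (hk.trans (DstN_jR hr hκ).symm)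

/-- positive classes below the dimension vanish on the sphere -/
theorem DstN_cu_null {r : ℕ} (hr : 0 < r) (hrd : r ≠ d) (hc : c ∞ = ∞)
    {w : Cc (sing (TT (i + 1) P))} (hw : Vn (bsT (i + 1) P) w) (hdw : Cc.d w = 0)
    (hdeg : Cc.IsDeg (r + (i + 1)) w) :
    (Cc.cupC (sing (Sph d))).Coh (DstN (i + 1) (Cc.pull (cu c) w)) 0 := by
  refine SphCc.van hr hrd _ (isDeg_DstN (hdeg.pull _)) ?_
  show Cc.d (DstN (i + 1) (Cc.pull (cu c) w)) = 0
  rw [← DstN_d ((hw.pull (cu c)).mono fun x hx => cu_base hc x hx), ← pull_d, hdw, pull_zero,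
    DstN_zero]

/-- **The quadratic form.** -/
theorem Phi_add (hq0 : 0 < q) (hqd : q < d) {x y : Cc (sing P)} (hx : Cc.IsDeg q x)
    (dx : Cc.d x = 0) (hy : Cc.IsDeg q y) (dy : Cc.d y = 0) (hxy : Cc.IsDeg q (x + y))
    (dxy : Cc.d (x + y) = 0) {r : ℕ} (hu : Cc.IsDeg r (Cc.cup 1 x y))
    (du : Cc.d (Cc.cup 1 x y) = 0) :
    Phi c hc hxy dxy = Phi c hc hx dx + Phi c hc hy dy + Int c hu du := by
  have hd : 0 < d := by omega
  have h1 := Phi_of' (c := c) (hc := hc) hd (sumD (jR i hx dx) (jR i hy dy)) hxy dxy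
    (by
      show (Cc.cupC (sing P)).Coh (DstN (i + 1) (Cc.pull (muT (i + 1) P)
        ((jR i hx dx).b + (jR i hy dy).b))) (x + y)
      rw [pull_add, DstN_add]
      exact coh_add (DstN_jR hx dx) (DstN_jR hy dy)) hu du (by
      refine (theta_sum _ _ _ _).trans ?_
      exact coh_null_add (coh_cup (x := DstN (i + 1) (Cc.pull (muT (i + 1) P) (jR i hx dx).b)) (by
          rw [← DstN_d (((jR i hx dx).vn_b.pull _).mono fun x hx => muT_infty (i + 1) P hx),
            ← pull_d, (jR i hx dx).d_b, pull_zero, DstN_zero]) dy (DstN_jR (i := i) hx dx)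
          (DstN_jR (i := i) hy dy)) (coh_add_null (theta_jR (i := i) hx dx)
            (theta_jR (i := i) hy dy)))
  have h3 := evf hd (theta_sum (jR i hx dx) (jR i hy dy) (cu c) (cu_base hc))
  have h4 : evc (Cc.cup 1 (DstN (i + 1) (Cc.pull (cu c) (jR i hx dx).b))
      (DstN (i + 1) (Cc.pull (cu c) (jR i hy dy).b))) (fcyc d) = 0 := by
    have h5 := coh_cup (x := DstN (i + 1) (Cc.pull (cu c) (jR i hx dx).b))
      (y' := DstN (i + 1) (Cc.pull (cu c) (jR i hy dy).b)) (by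
        rw [← DstN_d (((jR i hx dx).vn_b.pull _).mono fun x hx => cu_base hc x hx),
            ← pull_d, (jR i hx dx).d_b, pull_zero, DstN_zero]) (by
        rw [← DstN_d (((jR i hy dy).vn_b.pull _).mono fun x hx => cu_base hc x hx),
            ← pull_d, (jR i hy dy).d_b, pull_zero, DstN_zero])
      (DstN_cu_null hq0 (by omega) hc (jR i hx dx).vn_b (jR i hx dx).d_b (jR_deg_b hx dx))
      (Coh.refl _)
    rw [evf hd h5]
    show evc (Cc.cup 1 (0 : Cc (sing (Sph d))) _) (fcyc d) = 0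
    rw [cup_zero_left, evc_zero]
  rw [evc_add, evc_add, h4, add_zero] at h3
  rw [h3] at h1
  have h6 := CharTwo.add_self_eq_zero (Int c hu du)
  have h7 : Phi c hc hx dx + Phi c hc hy dy = Phi c hc hxy dxy + Int c hu du := h1
  rw [h7]
  linear_combination -h6

end

end Vale.Agent.P263.FR
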