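import Vale.Agent.P263.FR.RepS
import Vale.Agent.P263.FR.H378.Sus1

/-!
# P263, V5: the suspension of the collapse map

`Tub.c1` : `c ∧ id`, in the form needed for `BD.homotopic`.
-/

open CategoryTheory OnePoint Topology

namespace Vale.Agent.P263.FR

open Vale.Agent.P263.T0

section

variable {P : Type} [TopologicalSpace P] [CompactSpace P] [T2Space P] {m n : ℕ}

theorem susC_ap_infty (c : C(Sph m, TT n P)) (hc : c ∞ = ∞) {x : Fin m → ℝ} (t : ℝ)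
    (h : c (x : OnePoint (Fin m → ℝ)) = ∞) :
    susC 1 c hc ((ap x t : Fin (m + 1) → ℝ) : OnePoint (Fin (m + 1) → ℝ)) = ∞ := by
  have h1 := susC_join2 c hc (x : Sph m) (((fun _ => t : Fin 1 → ℝ)) : Sph 1)
  rw [TJ.join2_coe, h, snocT_infty_left] at h1
  exact h1

theorem susC_ap_coe (c : C(Sph m, TT n P)) (hc : c ∞ = ∞) {x : Fin m → ℝ} (t : ℝ)
    {v : Fin n → ℝ} {p : P}
    (h : c (x : OnePoint (Fin m → ℝ)) = (((v, p) : (Fin n → ℝ) × P) : OnePoint _)) :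
    susC 1 c hc ((ap x t : Fin (m + 1) → ℝ) : OnePoint (Fin (m + 1) → ℝ)) =
      (((ap v t, p) : (Fin (n + 1) → ℝ) × P) : OnePoint _) := by
  have h1 := susC_join2 c hc (x : Sph m) (((fun _ => t : Fin 1 → ℝ)) : Sph 1)
  rw [TJ.join2_coe, h, snocT_coe] at h1
  exact h1

end

/-- `hc1` of `BD.homotopic` -/
theorem Tub.c1_infty {m K : ℕ} (D : Tub m K) [CompactSpace (Mfd D.F)] [T2Space (Mfd D.F)]
    (x : Fin m → ℝ) (t : ℝ) (h : D.c0 x = ∞) :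
    susC 1 (⟨D.c0, D.continuous_c0⟩ : C(Sph m, TT K (Mfd D.F))) D.c0_infty
      ((ap x t : Fin (m + 1) → ℝ) : OnePoint (Fin (m + 1) → ℝ)) = ∞ :=
  susC_ap_infty _ _ t h

/-- `hc2` of `BD.homotopic` -/
theorem Tub.c1_coe {m K : ℕ} (D : Tub m K) [CompactSpace (Mfd D.F)] [T2Space (Mfd D.F)]
    (x : Fin m → ℝ) (t : ℝ) (v : Fin K → ℝ) (p : Mfd D.F)
    (h : D.c0 x = (((v, p) : (Fin K → ℝ) × Mfd D.F) : OnePoint _)) :
    susC 1 (⟨D.c0, D.continuous_c0⟩ : C(Sph m, TT K (Mfd D.F))) D.c0_infty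
      ((ap x t : Fin (m + 1) → ℝ) : OnePoint (Fin (m + 1) → ℝ)) =
        (((ap v t, p) : (Fin (K + 1) → ℝ) × Mfd D.F) : OnePoint _) :=
  susC_ap_coe _ _ t h

end Vale.Agent.P263.FR
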