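import Vale.Agent.P263.FR.FNd
import Vale.Agent.P263.ST.RepEx

/-!
# P263, V5: small pieces of the final assembly

* `rep_sus` : the suspension of a representative is a representative.
* `ap_append` : `(v, w, t)` with the coordinates in the two orders.
* `BD.fst_ce` : the first component of the collapse map of `N` is the map `F` of `N`.
-/

open CategoryTheory OnePoint Topology

namespace Vale.Agent.P263.FR

open Vale.Agent.P263.ST

theorem ap_append {d n : ℕ} (v : Fin d → ℝ) (w : Fin n → ℝ) (t : ℝ) :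
    (ap (Fin.append v w) t : Fin (d + n + 1) → ℝ) = (Fin.append v (ap w t) : Fin (d + (n + 1)) → ℝ) := by
  funext i
  refine Fin.lastCases ?_ (fun i => ?_) i
  · refine (Fin.append_right (Fin.append v w) (fun _ : Fin 1 => t) 0).trans ?_
    refine Eq.trans ?_ (Fin.append_right v (ap w t) (Fin.last n)).symm
    exact (Fin.append_right w (fun _ : Fin 1 => t) 0).symm
  · refine (Fin.append_left (Fin.append v w) (fun _ : Fin 1 => t) i).trans ?_
    refine Fin.addCases (fun i => ?_) (fun i => ?_) i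
    · rw [Fin.append_left]
      exact (Fin.append_left v (ap w t) i).symm
    · rw [Fin.append_right]
      refine Eq.trans ?_ (Fin.append_right v (ap w t) i.castSucc).symm
      exact (Fin.append_left w (fun _ : Fin 1 => t) i).symm

theorem snoc_eq_ap {n : ℕ} (w : Fin n → ℝ) (t : ℝ) :
    (Fin.snoc w t : Fin (n + 1) → ℝ) = ap w t :=
  (Fin.append_right_eq_snoc w fun _ => t).symm

theorem init_ap {n : ℕ} (w : Fin n → ℝ) (t : ℝ) :
    (Fin.init (ap w t : Fin (n + 1) → ℝ) : Fin n → ℝ) = w := by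
  rw [← snoc_eq_ap]
  exact Fin.init_snoc _ _

theorem ap_last {n : ℕ} (w : Fin n → ℝ) (t : ℝ) :
    (ap w t : Fin (n + 1) → ℝ) (Fin.last n) = t := by
  rw [← snoc_eq_ap]
  exact Fin.snoc_last _ _

/-- the value of the suspension -/
theorem toMap_sus {n : ℕ} (f : Om n) (w : Fin n → ℝ) (t : ℝ) :
    toMap (sus f) (at' (ap w t)) = OnePoint.elim (toMap f (at' w)) (pt (n + 1))
      fun u : Fin n → ℝ => at' (ap u t) := by
  show OnePoint.elim (toMap f (at' (Fin.init (ap w t : Fin (n + 1) → ℝ)))) (pt (n + 1))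
    (fun u : Fin n → ℝ => at' (Fin.snoc u ((ap w t : Fin (n + 1) → ℝ) (Fin.last n)))) = _
  rw [init_ap, ap_last]
  congr 1
  funext u
  rw [snoc_eq_ap]

/-- **The suspension of a representative is a representative.** -/
theorem rep_sus {d n : ℕ} {g : BMap d} {F : Sph (d + n) ⟶ Sph n} (h : Rep g F)
    (F' : Sph (d + (n + 1)) ⟶ Sph (n + 1)) (h0 : F' (pt (d + (n + 1))) = pt (n + 1))
    (h1 : ∀ (v : Fin (d + n) → ℝ) (t : ℝ), F (at' v) = pt n →
      F' (at' (n := d + (n + 1)) (ap v t)) = pt (n + 1))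
    (h2 : ∀ (v : Fin (d + n) → ℝ) (t : ℝ) (w : Fin n → ℝ), F (at' v) = at' w →
      F' (at' (n := d + (n + 1)) (ap v t)) = at' (ap w t)) : Rep g F' := by
  obtain ⟨-, A, hA, hAg, hF⟩ := h
  refine ⟨h0, A ≫ susHom n, ?_, fun x => ?_, fun v w => ?_⟩
  · show sus (A (pt d)) = cst (n + 1)
    rw [hA]
    exact T0.toSmash_const n
  · refine Eq.trans ?_ (hAg x)
    exact T0.toQ_stab n (A x)
  · have e : w = ap (xp w) (tp w) := (ap_xp_tp w).symm
    have e1 : (Fin.append v w : Fin (d + (n + 1)) → ℝ) = ap (Fin.append v (xp w)) (tp w) := by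
      conv_lhs => rw [e]
      exact (ap_append v (xp w) (tp w)).symm
    have e2 : toMap ((A ≫ susHom n) (at' v)) (at' w) =
        OnePoint.elim (F (at' (Fin.append v (xp w)))) (pt (n + 1))
          fun u : Fin n → ℝ => at' (ap u (tp w)) := by
      conv_lhs => rw [e]
      rw [hF]
      exact toMap_sus (A (at' v)) (xp w) (tp w)
    rw [e1, e2]
    obtain ⟨u, hu⟩ : ∃ u, u = F (at' (Fin.append v (xp w))) := ⟨_, rfl⟩
    rw [← hu]
    induction u using OnePoint.rec with
    | infty => exact h1 _ _ hu.symm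
    | coe u => exact h2 _ _ u hu.symm

section ce

open Vale.Agent.P263.KJ

variable {V : Type} [NormedAddCommGroup V] [InnerProductSpace ℝ V] [FiniteDimensional ℝ V]
variable {W : Type} [NormedAddCommGroup W] [NormedSpace ℝ W]
variable {m K : ℕ} {D : Tub m K} {l : C(Mfd D.F, PV V)} (T : BD D l)
  (φ₀ : (V × W) ≃L[ℝ] (Fin K → ℝ)) (φ : (V × (W × ℝ)) ≃L[ℝ] (Fin (K + 1) → ℝ))

/-- the first component of the collapse map of `N` -/
theorem BD.fst_ce (z : OnePoint (Fin (m + 1) → ℝ)) :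
    fstT (T.ce φ₀ φ z) = (T.pre φ₀ φ).F0 z := map_fst_pairS (fun _ h => h) z

/-- `F_N` is homotopic to the first component of `G ∘ c1` -/
theorem BD.homotopic_F {G : C(OnePoint ((Fin (K + 1) → ℝ) × Mfd D.F),
      OnePoint ((Fin (K + 1) → ℝ) × (Mfd D.F × Bool)))}
    {c1 : C(OnePoint (Fin (m + 1) → ℝ), OnePoint ((Fin (K + 1) → ℝ) × Mfd D.F))}
    (h : (T.ce φ₀ φ).HomotopicRel (G.comp c1) {∞})
    {f : C(OnePoint (Fin (m + 1) → ℝ), OnePoint (Fin (K + 1) → ℝ))}
    (hf : ∀ z, f z = fstT (G (c1 z))) :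
    f.HomotopicRel (T.pre φ₀ φ).F.hom {(∞ : OnePoint (Fin (m + 1) → ℝ))} := by
  have hMc : CompactSpace (Mfd D.F) := D.compactSpace_Mfd
  obtain ⟨H⟩ := h.symm
  refine ⟨⟨⟨⟨fun q => fstT (H q), continuous_fstT.comp H.continuous⟩, fun z => ?_, fun z => ?_⟩,
    fun t z hz => ?_⟩⟩
  · show fstT (H (0, z)) = f z
    rw [H.apply_zero, hf]
    rfl
  · show fstT (H (1, z)) = _
    rw [H.apply_one, T.fst_ce]
    rfl
  · show fstT (H (t, z)) = f z
    rw [H.eq_fst t hz, hf]
    rfl

end ce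

end Vale.Agent.P263.FR
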