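import Vale.Agent.P263.FR.Desus
import Vale.Agent.P263.FR.Graph

/-!
# P263, V5: suspension invariance of the quadratic form, first coordinate

* `consS s w`, `consT s z` : `S¹ ∧ Sᴷ → S^(K+1)`, `S¹ ∧ (ℝᴷ × P)⁺ → (ℝ^(K+1) × P)⁺`.
* `Phi_sus0` : the quadratic form of `c₂` with `c₂ (y, s, w) = (s, c (y, w))` is the one of `c`.
-/

open Finset OnePoint Topology
open Vale.Agent.P251.G (LC)

namespace Vale.Agent.P263.FR

open Vale.Agent.P263.S hiding sn sn_add
open Vale.Agent.P263.E Vale.Agent.P263.H83 Vale.Agent.P263.G2 Vale.Agent.P263.TJ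
open Vale.Agent.P263.T0 CupC

variable {P : Type} [TopologicalSpace P] {d i q K : ℕ}

/-- `ℝ × ℝᴷ = ℝ^(K+1)` -/
def consH (K : ℕ) : ℝ × (Fin K → ℝ) ≃ₜ (Fin (K + 1) → ℝ) where
  toFun p := Fin.cons p.1 p.2
  invFun v := (v 0, fun i => v i.succ)
  left_inv p := by simp
  right_inv v := by
    funext i
    refine Fin.cases ?_ (fun i => ?_) i <;> simp
  continuous_toFun := by
    refine continuous_pi fun i => ?_
    refine Fin.cases ?_ (fun i => ?_) i
    · simpa using continuous_fst
    · exact (continuous_apply i).comp continuous_snd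
  continuous_invFun := by fun_prop

/-- `ℝ × (ℝᴷ × P) = ℝ^(K+1) × P` -/
def consHT (K : ℕ) (P : Type) [TopologicalSpace P] :
    ℝ × ((Fin K → ℝ) × P) ≃ₜ (Fin (K + 1) → ℝ) × P :=
  (Homeomorph.prodAssoc ℝ (Fin K → ℝ) P).symm.trans ((consH K).prodCongr (Homeomorph.refl P))

/-- `S¹ ∧ Sᴷ → S^(K+1)` -/
noncomputable def consS (s : OnePoint ℝ) (w : Sph K) : Sph (K + 1) :=
  (consH K).onePointCongr (LC.smash s w)

/-- `S¹ ∧ (ℝᴷ × P)⁺ → (ℝ^(K+1) × P)⁺` -/
noncomputable def consT (s : OnePoint ℝ) (z : TT K P) : TT (K + 1) P :=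
  (consHT K P).onePointCongr (LC.smash s z)

theorem consS_coe (s : ℝ) (w : Fin K → ℝ) :
    consS (s : OnePoint ℝ) (w : Sph K) = ((Fin.cons s w : Fin (K + 1) → ℝ) : Sph (K + 1)) := rfl

theorem consT_coe (s : ℝ) (e : (Fin K → ℝ) × P) : consT (s : OnePoint ℝ) (e : TT K P) =
    (((Fin.cons s e.1 : Fin (K + 1) → ℝ), e.2) : (Fin (K + 1) → ℝ) × P) := rfl

theorem consS_infty_left (w : Sph K) : consS ∞ w = ∞ := by
  rw [consS, LC.smash_infty_left]
  rfl

theorem consS_infty_right (s : OnePoint ℝ) : consS s (∞ : Sph K) = ∞ := by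
  rw [consS, LC.smash_infty_right]
  rfl

theorem consT_infty_left (z : TT K P) : consT ∞ z = ∞ := by
  rw [consT, LC.smash_infty_left]
  rfl

theorem consT_infty_right (s : OnePoint ℝ) : consT s (∞ : TT K P) = ∞ := by
  rw [consT, LC.smash_infty_right]
  rfl

theorem continuous_consT [CompactSpace P] [T2Space P] :
    Continuous fun z : OnePoint ℝ × TT K P => consT z.1 z.2 :=
  (Homeomorph.continuous _).comp LC.continuous_smash

theorem tup_cons (v : Fin (K + 1) → OnePoint ℝ) :
    tup v = consS (v 0) (tup fun i : Fin K => v i.succ) := by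
  by_cases h : ∀ i, v i ≠ ∞
  · choose x hx using fun i => OnePoint.ne_infty_iff_exists.1 (h i)
    have h1 : v = fun i => (x i : OnePoint ℝ) := funext fun i => (hx i).symm
    rw [h1, tup_coe, tup_coe (fun i : Fin K => x i.succ), consS_coe]
    congr 1
    funext i
    refine Fin.cases ?_ (fun i => ?_) i <;> simp
  · push Not at h
    obtain ⟨i, hi⟩ := h
    rw [tup_of_eq_infty hi]
    revert hi
    refine Fin.cases (fun hi => ?_) (fun j hj => ?_) i
    · rw [hi, consS_infty_left]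
    · rw [tup_of_eq_infty (v := fun i : Fin K => v i.succ) (i := j) hj, consS_infty_right]

theorem smP_cons [CompactSpace P] [T2Space P] (s : OnePoint ℝ) (w : Sph K) (x : P) :
    smP (K + 1) P (consS s w, x) = consT s (smP K P (w, x)) := by
  induction s using OnePoint.rec with
  | infty => rw [consS_infty_left, consT_infty_left, smP_infty]
  | coe s =>
    induction w using OnePoint.rec with
    | infty => rw [consS_infty_right, smP_infty, smP_infty, consT_infty_right]
    | coe w => rfl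

variable [CompactSpace P] [T2Space P]

/-- the suspension on simplices -/
noncomputable def sU (K : ℕ) (P : Type) [TopologicalSpace P] [CompactSpace P] [T2Space P] :
    SS.Map ((sing (TT K P)).prod D1) (sing (TT (K + 1) P)) :=
  ⟨fun {p} z => ofC (⟨fun t : Dl p => consT (GB.loopU (chiI z.2 t)) (toC z.1 t),
    continuous_consT.comp ((GB.loopU.continuous.comp (chiI z.2).continuous).prodMk
      (toC z.1).continuous)⟩ : C(Dl p, TT (K + 1) P)), fun f z => by
    apply ContinuousMap.ext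
    intro t
    refine congrArg (fun s => consT (GB.loopU s) (toC z.1 (dmap f t))) ?_
    exact DFunLike.congr_fun (chiI_comp z.2 f) t⟩

theorem sU_app {p : ℕ} (z : ((sing (TT K P)).prod D1).obj p) (t : Dl p) :
    toC ((sU K P).app z) t = consT (GB.loopU (chiI z.2 t)) (toC z.1 t) := rfl

theorem sU_base {p : ℕ} (z : ((sing (TT K P)).prod D1).obj p) (h : (bsT K P).mem z.1) :
    (bsT (K + 1) P).mem ((sU K P).app z) := fun t => by
  rw [sU_app, h t, consT_infty_right]

theorem sU_ends {p : ℕ} (z : ((sing (TT K P)).prod D1).obj p)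
    (h : (endsOf (SS.snd (sing (TT K P)) D1)).mem z) :
    (bsT (K + 1) P).mem ((sU K P).app z) := fun t => by
  rw [sU_app]
  rcases h with h | h
  · have h1 : z.2 = c0 p := h
    rw [h1, chiI_c0]
    have h2 : GB.loopU 0 = ∞ := GB.loopE_zero
    rw [h2, consT_infty_left]
  · have h1 : z.2 = c1 p := h
    rw [h1, chiI_c1]
    have h2 : GB.loopU 1 = ∞ := GB.loopE_one
    rw [h2, consT_infty_left]

omit [CompactSpace P] [T2Space P] in
theorem cxC_cons {n p : ℕ} (χ : Op p 1) (τ : Fin n → Op p 1) (t : Dl p) :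
    cxC (Fin.cons χ τ : Fin (n + 1) → Op p 1) t = consS (GB.loopU (chiI χ t)) (cxC τ t) := by
  rw [cxC_apply, tup_cons]
  rfl

theorem muT_cons : (muT (K + 1) P).comp (consM (sing P) K) = (sU K P).comp (xD (muT K P)) := by
  apply SS.Map.ext
  intro p z
  apply ContinuousMap.ext
  intro t
  obtain ⟨⟨x, τ⟩, χ⟩ := z
  exact (congrArg (fun v => smP (K + 1) P (v, toC x t)) (cxC_cons χ τ t)).trans (smP_cons _ _ _)

/-- **Suspension invariance.** -/
theorem Phi_sus0 (hd : 0 < d) {c : C(Sph (d + (i + 1)), TT (i + 1) P)} {hc : c ∞ = ∞}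
    {c2 : C(Sph (d + (i + 2)), TT (i + 2) P)} {hc2 : c2 ∞ = ∞}
    (h : ∀ (y : Sph d) (s : OnePoint ℝ) (w : Sph (i + 1)),
      c2 (join2 y (consS s w)) = consT s (c (join2 y w)))
    {x : Cc (sing P)} (hq : Cc.IsDeg q x) (hx : Cc.d x = 0) :
    Phi (i := i + 1) c2 hc2 hq hx = Phi c hc hq hx := by
  obtain ⟨D'', hb, hD⟩ := desus (T₀ := bsT (i + 1) P) (sU (i + 1) P)
    (fun z h => sU_base z h) (fun z h => sU_ends z h) (jR (i + 1) hq hx)
  have h1 : (cu c2).comp (consM (sing (Sph d)) (i + 1)) = (sU (i + 1) P).comp (xD (cu c)) := by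
    apply SS.Map.ext
    intro p z
    apply ContinuousMap.ext
    intro t
    obtain ⟨⟨y, τ⟩, χ⟩ := z
    exact (congrArg (fun v => c2 (join2 (toC y t) v)) (cxC_cons χ τ t)).trans (h _ _ _)
  have h2 := hD (cu c) (cu_base hc) (cu c2) (cu_base hc2) h1
  have h3 := hD (muT (i + 1) P) (fun _ h => muT_infty (i + 1) P h) (muT (i + 2) P)
    (fun _ h => muT_infty (i + 2) P h) muT_cons
  have h4 : (Cc.cupC (sing P)).Coh (DstN (i + 1) (Cc.pull (muT (i + 1) P) D''.b)) x := by
    have h5 : DstN (i + 1) (Cc.pull (muT (i + 1) P) D''.b) =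
        DstN (i + 2) (Cc.pull (muT (i + 2) P) (jR (i + 1) hq hx).b) := by
      have h6 : DstN (i + 2) (Cc.pull (muT (i + 2) P) (jR (i + 1) hq hx).b) =
        DstN (i + 1) (Dst (Cc.pull ((muT (i + 2) P).comp (consM (sing P) (i + 1)))
          (jR (i + 1) hq hx).b)) := rfl
      rw [h6, muT_cons, hb, ← Dst_pull]
      rfl
    rw [h5]
    exact DstN_jR hq hx
  have h7 := Phi_of (c := c) (hc := hc) hd D'' hq hx h4 (u := 0) (fun _ _ _ => rfl) d_zero (by
    rw [pull_zero, DstN_zero]
    exact h3.symm.trans (theta_jR (i := i + 1) hq hx))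
  rw [pull_zero, DstN_zero, evc_zero, add_zero] at h7
  rw [← h7]
  exact evf hd h2

end Vale.Agent.P263.FR
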