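import Vale.Agent.P263.FR.Sus
import Vale.Agent.P263.KJ.Bridge

/-!
# P263, V5: the literal suspension, and precomposition with a reflection

* `susC c hc k : C(Sph (m + k), TT (n + k) P)` : the `k`-fold suspension, coordinates last;
  `susC_join2`, `susC_apply` (it is the literal `susT k c`), `susT_succ`.
* `Phi_invol` : the quadratic form of `c ∘ r`, `r (y, w) = (ρ y, w)`, `ρ` an involution of `Sph d`.
-/

open Finset OnePoint Topology CategoryTheory
open Vale.Agent.P251.G (LC)

namespace Vale.Agent.P263.FR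

open Vale.Agent.P263.S hiding sn sn_add
open Vale.Agent.P263.E Vale.Agent.P263.H83 Vale.Agent.P263.G2 Vale.Agent.P263.TJ
open Vale.Agent.P263.T0 CupC

section susC

variable {P : Type} [TopologicalSpace P] {m n : ℕ}

/-- `(ℝⁿ × P) × ℝᵏ = ℝⁿ⁺ᵏ × P` -/
def apdH (n k : ℕ) (P : Type) [TopologicalSpace P] :
    ((Fin n → ℝ) × P) × (Fin k → ℝ) ≃ₜ (Fin (n + k) → ℝ) × P where
  toFun p := (Fin.append p.1.1 p.2, p.1.2)
  invFun q := ((fun i => q.1 (Fin.castAdd k i), q.2), fun i => q.1 (Fin.natAdd n i))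
  left_inv := by
    rintro ⟨⟨v, x⟩, w⟩
    simp
  right_inv := by
    rintro ⟨v, x⟩
    simp only [Prod.mk.injEq, and_true]
    exact Fin.append_castAdd_natAdd
  continuous_toFun := ((Fin.appendHomeomorph (X := ℝ) n k).continuous.comp
    (((continuous_fst.comp continuous_fst).prodMk continuous_snd))).prodMk
      (continuous_snd.comp continuous_fst)
  continuous_invFun := by fun_prop

/-- `(ℝⁿ × P)⁺ ∧ Sᵏ → (ℝⁿ⁺ᵏ × P)⁺` -/
noncomputable def joinT {k : ℕ} (z : TT n P) (y : Sph k) : TT (n + k) P :=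
  (apdH n k P).onePointCongr (LC.smash z y)

theorem joinT_coe {k : ℕ} (e : (Fin n → ℝ) × P) (y : Fin k → ℝ) :
    joinT (e : TT n P) (y : Sph k) =
      (((Fin.append e.1 y : Fin (n + k) → ℝ), e.2) : (Fin (n + k) → ℝ) × P) := rfl

theorem joinT_infty_left {k : ℕ} (y : Sph k) : joinT (∞ : TT n P) y = ∞ := by
  rw [joinT, LC.smash_infty_left]
  rfl

theorem joinT_infty_right {k : ℕ} (z : TT n P) : joinT z (∞ : Sph k) = ∞ := by
  rw [joinT, LC.smash_infty_right]
  rfl

variable [CompactSpace P] [T2Space P]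

/-- the `k`-fold suspension -/
noncomputable def susLC (c : C(Sph m, TT n P)) (hc : c ∞ = ∞) (k : ℕ) :
    LC.of (Fin (m + k) → ℝ) ⟶ LC.of ((Fin (n + k) → ℝ) × P) :=
  (KJ.appI m k).inv ≫ LC.tensorHom'
    (KJ.ptd (X := LC.of (Fin m → ℝ)) (Y := LC.of ((Fin n → ℝ) × P)) c hc)
    (𝟙 (LC.of (Fin k → ℝ))) ≫
    (LC.ofHomeo (X := LC.of (((Fin n → ℝ) × P) × (Fin k → ℝ)))
      (Y := LC.of ((Fin (n + k) → ℝ) × P)) (apdH n k P)).hom

/-- the `k`-fold suspension -/
noncomputable def susC (c : C(Sph m, TT n P)) (hc : c ∞ = ∞) (k : ℕ) :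
    C(Sph (m + k), TT (n + k) P) := LC.Hom.toMap (susLC c hc k)

theorem app_susLC (c : C(Sph m, TT n P)) (hc : c ∞ = ∞) (k : ℕ) (x : Sph m) (y : Sph k) :
    LC.app (susLC c hc k) (join2 x y) = joinT (c x) y := by
  rw [susLC, ← KJ.app_appI, ← LC.app_comp, Iso.hom_inv_id_assoc, LC.app_comp, KJ.app_tens]
  rfl

theorem susC_join2 (c : C(Sph m, TT n P)) (hc : c ∞ = ∞) (k : ℕ) (x : Sph m) (y : Sph k) :
    susC c hc k (join2 x y) = joinT (c x) y := app_susLC c hc k x y

theorem susC_infty (c : C(Sph m, TT n P)) (hc : c ∞ = ∞) (k : ℕ) : susC c hc k ∞ = ∞ := by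
  rw [← join2_infty_left (d := m) (∞ : Sph k), susC_join2, hc, joinT_infty_left]

omit [CompactSpace P] [T2Space P] in
theorem susT_join2 (c : C(Sph m, TT n P)) (k : ℕ) (x : Sph m) (y : Sph k) (hc : c ∞ = ∞) :
    susT (m := m) (n := n) (X := TopCat.of P) k c (join2 x y) = joinT (c x) y := by
  induction x using OnePoint.rec with
  | infty => rw [join2_infty_left, hc, joinT_infty_left]; rfl
  | coe x =>
    induction y using OnePoint.rec with
    | infty => rw [join2_infty_right, joinT_infty_right]; rfl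
    | coe y =>
      rw [join2_coe]
      have h1 : susT (m := m) (n := n) (X := TopCat.of P) k c
          ((Fin.append x y : Fin (m + k) → ℝ) : OnePoint (Fin (m + k) → ℝ)) =
          OnePoint.elim (c ((fun i => Fin.append x y (Fin.castAdd k i) : Fin m → ℝ) :
            OnePoint (Fin m → ℝ))) ∞ fun p : (Fin n → ℝ) × P =>
            OnePoint.some (Fin.append p.1 fun i => Fin.append x y (Fin.natAdd m i), p.2) := rfl
      rw [h1]
      simp only [Fin.append_left, Fin.append_right]
      generalize c (x : OnePoint (Fin m → ℝ)) = z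
      induction z using OnePoint.rec with
      | infty => rw [joinT_infty_left]; rfl
      | coe z => rfl

/-- it is the literal suspension -/
theorem susC_apply (c : C(Sph m, TT n P)) (hc : c ∞ = ∞) (k : ℕ) (z : Sph (m + k)) :
    susC c hc k z = susT (m := m) (n := n) (X := TopCat.of P) k c z := by
  obtain ⟨x, y, rfl⟩ := KJ.join2_surj m k z
  rw [susC_join2, susT_join2 c k x y hc]

end susC

/-- the literal suspension is iterated -/
theorem susT_succ {m n : ℕ} {X : TopCat.{0}} (k : ℕ) (a : ST.Sph m → Th n X)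
    (z : ST.Sph (m + (k + 1))) :
    susT (k + 1) a z = susT (m := m + k) (n := n + k) 1 (susT k a) z := by
  induction z using OnePoint.rec with
  | infty => rfl
  | coe v =>
    have h1 : susT (k + 1) a ((v : OnePoint (Fin (m + (k + 1)) → ℝ)) : ST.Sph (m + (k + 1))) =
      OnePoint.elim (a (ST.at' fun i => v (Fin.castAdd (k + 1) i))) ∞
        fun p : (Fin n → ℝ) × X =>
          OnePoint.some (Fin.append p.1 fun i => v (Fin.natAdd m i), p.2) := rfl
    have h2 : susT (m := m + k) (n := n + k) 1 (susT k a)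
        ((v : OnePoint (Fin (m + (k + 1)) → ℝ)) : ST.Sph (m + (k + 1))) =
      OnePoint.elim (OnePoint.elim (a (ST.at' fun i => v (Fin.castAdd (k + 1) i))) ∞
        fun p : (Fin n → ℝ) × X =>
          OnePoint.some (Fin.append p.1 fun i => v (Fin.castAdd 1 (Fin.natAdd m i)), p.2)) ∞
        fun p : (Fin (n + k) → ℝ) × X =>
          OnePoint.some (Fin.append p.1 fun i => v (Fin.natAdd (m + k) i), p.2) := rfl
    rw [h1, h2]
    generalize a (ST.at' fun i => v (Fin.castAdd (k + 1) i)) = w
    induction w using OnePoint.rec with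
    | infty => rfl
    | coe w =>
      change (OnePoint.some (Fin.append w.1 fun i => v (Fin.natAdd m i), w.2) :
        OnePoint ((Fin (n + (k + 1)) → ℝ) × X)) = (OnePoint.some (Fin.append (Fin.append w.1
          fun i => v (Fin.castAdd 1 (Fin.natAdd m i))) fun i => v (Fin.natAdd (m + k) i), w.2) :
        OnePoint ((Fin (n + k + 1) → ℝ) × X))
      congr 2
      funext i
      refine Fin.lastCases ?_ (fun i => ?_) i
      · exact (Fin.append_right w.1 (fun i => v (Fin.natAdd m i)) (Fin.last k)).trans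
          (Fin.append_right (Fin.append w.1 fun i => v (Fin.castAdd 1 (Fin.natAdd m i)))
            (fun i => v (Fin.natAdd (m + k) i)) (0 : Fin 1)).symm
      · refine (Eq.trans ?_ (Fin.append_left (n := 1) (Fin.append w.1 fun i => v (Fin.castAdd 1
          (Fin.natAdd m i))) (fun i => v (Fin.natAdd (m + k) i)) i).symm)
        refine Fin.addCases (fun i => ?_) (fun i => ?_) i
        · exact (Fin.append_left w.1 (fun i => v (Fin.natAdd m i)) i).trans
            (Fin.append_left w.1 _ i).symm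
        · exact (Fin.append_right w.1 (fun i => v (Fin.natAdd m i)) i.castSucc).trans
            (Fin.append_right w.1 (fun i => v (Fin.castAdd 1 (Fin.natAdd m i))) i).symm

section invol

variable {P : Type} [TopologicalSpace P] [CompactSpace P] [T2Space P] {d i q : ℕ}

/-- the value on the fundamental cycle of the pull back along an involution -/
theorem evc_invol (hd : 0 < d) (ρ : C(Sph d, Sph d)) (hρ : ∀ y, ρ (ρ y) = y)
    {u : Cc (sing (Sph d))} (hu : Cc.d u = 0) :
    evc (Cc.pull (singMap ρ) u) (fcyc d) = evc u (fcyc d) := by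
  have key : ∀ v : Cc (sing (Sph d)), Cc.d v = 0 → evc v (fcyc d) = 0 →
      evc (Cc.pull (singMap ρ) v) (fcyc d) = 0 := by
    intro v hv h0
    have h1 : (Cc.cupC (sing (Sph d))).Coh (Cc.hom d v) 0 := by
      refine (SphCc.coh_iff hd (isDeg_hom d v) (by
        rw [d_hom, hv]
        funext p
        unfold Cc.hom
        split <;> rfl)).2 ?_
      rw [hom_self, ← evc_fcyc]
      exact h0
    have h3 : (Cc.pullHom (singMap ρ)).f (Cc.hom d v) = Cc.hom d (Cc.pull (singMap ρ) v) :=
      pull_hom _ _ _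
    have h2 := h1.map (Cc.pullHom (singMap ρ))
    rw [map_zero, h3] at h2
    have h4 := evf hd (u := Cc.hom d (Cc.pull (singMap ρ) v)) (v := 0) h2
    rw [evc_zero, evc_fcyc, hom_self, ← evc_fcyc] at h4
    exact h4
  have h4 : Cc.pull (singMap ρ) (Cc.pull (singMap ρ) u) = u := by
    funext p x
    have h5 : (singMap ρ).app ((singMap ρ).app x) = x := by
      apply ContinuousMap.ext
      intro t
      exact hρ _
    show u p ((singMap ρ).app ((singMap ρ).app x)) = u p x
    rw [h5]
  by_cases h : evc u (fcyc d) = 0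
  · rw [h, key u hu h]
  · have h6 : evc (Cc.pull (singMap ρ) u) (fcyc d) ≠ 0 := fun h7 => h (by
      have h8 := key _ (by rw [← pull_d, hu, pull_zero]) h7
      rwa [h4] at h8)
    have h9 : ∀ a : ZMod 2, a ≠ 0 → a = 1 := by decide
    rw [h9 _ h, h9 _ h6]

/-- **Precomposition with an involution of the first factor does not change the quadratic
form.** -/
theorem Phi_invol (hd : 0 < d) {c : C(Sph (d + (i + 1)), TT (i + 1) P)} {hc : c ∞ = ∞}
    {r : C(Sph (d + (i + 1)), Sph (d + (i + 1)))} {hcr : (c.comp r) ∞ = ∞}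
    (ρ : C(Sph d, Sph d)) (hρ : ∀ y, ρ (ρ y) = y)
    (hr : ∀ (y : Sph d) (w : Sph (i + 1)), r (join2 y w) = join2 (ρ y) w)
    {x : Cc (sing P)} (hq : Cc.IsDeg q x) (hx : Cc.d x = 0) :
    Phi (c.comp r) hcr hq hx = Phi c hc hq hx := by
  have h1 : cu (c.comp r) = (cu c).comp (SS.pair ((singMap ρ).comp (SS.fst _ (SN (i + 1))))
      (SS.snd _ (SN (i + 1)))) := by
    apply SS.Map.ext
    intro p z
    apply ContinuousMap.ext
    intro t
    obtain ⟨y, τ⟩ := z
    exact congrArg c (hr _ _)
  have h2 := theta_pull (jR i hq hx) (m := cu c) (hm := cu_base hc) (hm' := cu_base hcr)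
    (singMap ρ) h1
  exact (evf hd h2).trans (evc_invol hd ρ hρ (d_theta _ _ _))

end invol

end Vale.Agent.P263.FR
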